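import Crest.Agent.N207.F.Nc7

/-!
# Row 207, block F1 (helper7): `C^k` bounds of a metric in normal coordinates

`NC G U R`: `G` is a metric in normal coordinates on the open star-shaped set `U ⊆ ball 0 R`.
`c0_bound`, `ck_bound`, `jet_bound`: the constants depend only on the dimension, on the order and on
the upper bound `K` of the scale invariant curvature bound `δ`.
-/

set_option autoImplicit false

open Set Metric Filter Topology Matrix Function
open scoped ContDiff BigOperators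
open Crest.GeometryTopology.CoordMetric Crest.GeometryTopology.ChartCurvature
  Crest.GeometryTopology.MetricFamily

noncomputable section

namespace Crest.Agent.N207.F

variable {n : ℕ}

/-- normal coordinates on an open star-shaped set `U ⊆ ball 0 R` -/
structure NC (G : MetricField n) (U : Set (En n)) (R : ℝ) : Prop where
  riem : IsRiemannianOn G U
  star : StarConvex ℝ 0 U
  zero : (0 : En n) ∈ U
  sub : U ⊆ ball 0 R
  one : G 0 = 1
  rad : ∀ x ∈ U, ∀ k, ∑ i, ∑ j, christoffel G x k i j * x i * x j = 0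

theorem NC.of_ball {G : MetricField n} {R : ℝ} (hR : 0 < R) (hG : IsRiemannianOn G (ball 0 R))
    (h1 : G 0 = 1)
    (hrad : ∀ x ∈ ball (0 : En n) R, ∀ k, ∑ i, ∑ j, christoffel G x k i j * x i * x j = 0) :
    NC G (ball 0 R) R :=
  ⟨hG, (convex_ball 0 R).starConvex (mem_ball_self hR), mem_ball_self hR, subset_rfl, h1, hrad⟩

/-- the domain -/
def NC.dom {G : MetricField n} {U : Set (En n)} {R : ℝ} (h : NC G U R) : Dom n :=
  ⟨U, R, h.riem.isOpen, h.star, h.zero, h.sub⟩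

theorem NC.exists_dat {G : MetricField n} {U : Set (En n)} {R : ℝ} (h : NC G U R) {M : ℕ}
    {K δ : ℝ} (hδ : 0 < δ) (hK : δ ≤ K)
    (hb : ∀ j ≤ M, ∀ x ∈ U, nsq G (covN G (rmT G) j) x ≤ (δ / R ^ (j + 2)) ^ 2) :
    ∃ d : Dat n M K, d.D = h.dom ∧ d.δ = δ ∧ d.G = G := by
  obtain ⟨E, hE⟩ := exists_RF (ρ := h.dom) h.riem h.one h.rad
  exact ⟨⟨h.dom, δ, G, E, hδ, hK, hE, hb⟩, rfl, rfl, rfl⟩

namespace Dat

variable {M : ℕ} {K : ℝ}

theorem ray_div (d : Dat n M K) (x : En n) {t : ℝ} (ht : t ∈ Icc (0 : ℝ) 1) :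
    ‖t • x‖ / d.D.ρ ≤ ‖x‖ / d.D.ρ := by
  refine div_le_div_of_nonneg_right ?_ d.D.pos.le
  rw [norm_smul, Real.norm_of_nonneg ht.1]
  exact mul_le_of_le_one_left (norm_nonneg _) ht.2

theorem exists_W_le (n M : ℕ) (K : ℝ) : ∃ C, 0 ≤ C ∧ ∀ (d : Dat n M K) (i a b : Fin n),
    ∀ x ∈ d.D.U, |W n M K i a b d x| ≤ C * (‖x‖ / d.D.ρ) := by
  obtain ⟨C, hC0, hC⟩ := exists_bd0 (r := fun d : Dat n M K => d.D)
    (f := fun (p : Fin n × Fin n) d x => th d.G d.E x p.1 p.2) fun p =>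
      (((bd_del.mul (bd_U p.1 p.2)).add (Bd.const' _)).congr
        fun d x _ => d.th_eq x p.1 p.2).bd0
  refine ⟨n * (n * C), by positivity, fun d i a b x hx => ode_ray (sm_W i a b d) hx fun t ht => ?_⟩
  have hy := ray_mem hx ht
  rw [eul_W i a b d hy]
  refine (Finset.abs_sum_le_sum_abs _ _).trans ?_
  have h0 : 0 ≤ ‖x‖ / d.D.ρ := div_nonneg (norm_nonneg _) d.D.pos.le
  have : ∀ e, |(∑ c, FR n M K 0 ![a, b, c, e] d (t • x) * ((t • x) c / d.D.ρ)) *
      th d.G d.E (t • x) e i| ≤ n * C * (‖x‖ / d.D.ρ) := fun e => by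
    rw [abs_mul]
    have h1 := (abs_S_le a b e d hy).trans
      (mul_le_mul_of_nonneg_left (d.ray_div x ht) (Nat.cast_nonneg n))
    have h2 := hC (e, i) d _ hy
    calc _ ≤ n * (‖x‖ / d.D.ρ) * C := mul_le_mul h1 h2 (abs_nonneg _) (by positivity)
      _ = _ := by ring
  refine (Finset.sum_le_sum fun e _ => this e).trans (le_of_eq ?_)
  simp only [Finset.sum_const, Finset.card_univ, Fintype.card_fin, nsmul_eq_mul]
  ring

theorem exists_U_le (n M : ℕ) (K : ℝ) : ∃ C, 0 ≤ C ∧ ∀ (d : Dat n M K) (a i : Fin n),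
    ∀ x ∈ d.D.U, |U n M K a i d x| ≤ C * (‖x‖ / d.D.ρ) ^ 2 := by
  obtain ⟨C, hC0, hC⟩ := exists_W_le n M K
  refine ⟨n * C, by positivity, fun d a i x hx => ode_ray (sm_U a i d) hx fun t ht => ?_⟩
  have hy := ray_mem hx ht
  rw [eul_U a i d hy]
  refine (Finset.abs_sum_le_sum_abs _ _).trans ?_
  have h0 : 0 ≤ ‖x‖ / d.D.ρ := div_nonneg (norm_nonneg _) d.D.pos.le
  have : ∀ b, |(t • x) b / d.D.ρ * W n M K i a b d (t • x)| ≤ C * (‖x‖ / d.D.ρ) ^ 2 :=
    fun b => by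
      rw [abs_mul]
      have h1 := (abs_coord_div_le d.D.pos (t • x) b).trans (d.ray_div x ht)
      have h2 := (hC d i a b _ hy).trans (mul_le_mul_of_nonneg_left (d.ray_div x ht) hC0)
      calc _ ≤ (‖x‖ / d.D.ρ) * (C * (‖x‖ / d.D.ρ)) := mul_le_mul h1 h2 (abs_nonneg _) h0
        _ = _ := by ring
  refine (Finset.sum_le_sum fun b _ => this b).trans (le_of_eq ?_)
  simp only [Finset.sum_const, Finset.card_univ, Fintype.card_fin, nsmul_eq_mul]
  ring

theorem exists_metric_le (n M : ℕ) (K : ℝ) : ∃ C, 0 ≤ C ∧ ∀ (d : Dat n M K) (a b : Fin n),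
    ∀ x ∈ d.D.U, |d.G x a b - (1 : Matrix (Fin n) (Fin n) ℝ) a b| ≤
      C * d.δ * (‖x‖ / d.D.ρ) ^ 2 := by
  obtain ⟨C, hC0, hC⟩ := exists_U_le n M K
  refine ⟨n * (|K| * C * C) + C + C, by positivity, fun d a b x hx => ?_⟩
  have hδ := d.hδ
  have h := d.metric_sub hx a b
  rw [div_eq_iff hδ.ne'] at h
  rw [h, abs_mul, abs_of_pos hδ, mul_right_comm]
  refine mul_le_mul_of_nonneg_right ?_ hδ.le
  set q := (‖x‖ / d.D.ρ) ^ 2 with hq
  have hq0 : 0 ≤ q := by positivity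
  have hq1 : q ≤ 1 := pow_le_one₀ (div_nonneg (norm_nonneg _) d.D.pos.le)
    ((div_le_one d.D.pos).2 (d.D.norm_lt hx).le)
  have h1 : ∀ c, |d.δ * U n M K c a d x * U n M K c b d x| ≤ |K| * C * C * q := fun c => by
    rw [abs_mul, abs_mul, abs_of_pos hδ]
    have h2 : |U n M K c a d x| ≤ C := (hC d c a x hx).trans (mul_le_of_le_one_right hC0 hq1)
    have h3 : d.δ ≤ |K| := d.hK.trans (le_abs_self K)
    calc _ ≤ |K| * C * (C * q) := mul_le_mul (mul_le_mul h3 h2 (abs_nonneg _) (abs_nonneg _))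
          (hC d c b x hx) (abs_nonneg _) (by positivity)
      _ = _ := by ring
  have h4 : |∑ c, d.δ * U n M K c a d x * U n M K c b d x| ≤ n * (|K| * C * C * q) := by
    refine (Finset.abs_sum_le_sum_abs _ _).trans ?_
    simpa using Finset.sum_le_sum fun c (_ : c ∈ Finset.univ) => h1 c
  refine (abs_add_three _ _ _).trans ?_
  have := hC d b a x hx
  have := hC d a b x hx
  nlinarith

end Dat

/-- **`C⁰` bound in normal coordinates.** -/
theorem c0_bound (n : ℕ) (K : ℝ) : ∃ C, 0 ≤ C ∧ ∀ {G : MetricField n} {U : Set (En n)} {R δ : ℝ},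
    NC G U R → 0 < δ → δ ≤ K → (∀ x ∈ U, nsq G (rmT G) x ≤ (δ / R ^ 2) ^ 2) →
      ∀ x ∈ U, ∀ a b, |G x a b - (1 : Matrix (Fin n) (Fin n) ℝ) a b| ≤ C * δ * (‖x‖ / R) ^ 2 := by
  obtain ⟨C, hC0, hC⟩ := Dat.exists_metric_le n 0 K
  refine ⟨C, hC0, fun {G U R δ} h hδ hK hb x hx a b => ?_⟩
  obtain ⟨d, h1, rfl, rfl⟩ := h.exists_dat (M := 0) hδ hK fun j hj x hx => by
    obtain rfl : j = 0 := by omega
    exact hb x hx
  have := hC d a b x (by rw [h1]; exact hx)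
  rwa [h1] at this

/-- **`C^M` bound in normal coordinates.** -/
theorem ck_bound (n M : ℕ) (K : ℝ) : ∃ C, 0 ≤ C ∧
    ∀ {G : MetricField n} {U : Set (En n)} {R δ : ℝ}, NC G U R → 0 < δ → δ ≤ K →
      (∀ j ≤ M, ∀ x ∈ U, nsq G (covN G (rmT G) j) x ≤ (δ / R ^ (j + 2)) ^ 2) →
      ∀ j ≤ M, ∀ x ∈ U, ∀ a b, ‖iteratedFDeriv ℝ j
        (fun y => G y a b - (1 : Matrix (Fin n) (Fin n) ℝ) a b) x‖ ≤ C * δ / R ^ j := by
  choose C hC0 hC using fun p : Fin n × Fin n =>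
    (Dat.bd_metric (M := M) (K := K) p.1 p.2).norm_iteratedFDeriv_le
  refine ⟨∑ p, C p, Finset.sum_nonneg fun p _ => hC0 p,
    fun {G U R δ} h hδ hK hb j hj x hx a b => ?_⟩
  obtain ⟨d, h1, rfl, rfl⟩ := h.exists_dat hδ hK hb
  have h2 := (hC (a, b) j hj d x (by rw [h1]; exact hx)).trans
    (Finset.single_le_sum (f := C) (fun p _ => hC0 p) (Finset.mem_univ _))
  have hR : 0 < R := h.dom.pos
  have hc : ContDiffAt ℝ j (fun y => d.G y a b - (1 : Matrix (Fin n) (Fin n) ℝ) a b) x :=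
    ((((h.riem.contDiffOn a b).contDiffAt (h.riem.isOpen.mem_nhds hx)).sub
      contDiffAt_const)).of_le (by exact_mod_cast le_top)
  have e : (fun y => (d.G y a b - (1 : Matrix (Fin n) (Fin n) ℝ) a b) / d.δ) =
      fun y => d.δ⁻¹ • (d.G y a b - (1 : Matrix (Fin n) (Fin n) ℝ) a b) := by
    funext y; rw [smul_eq_mul, div_eq_inv_mul]
  simp only [h1] at h2
  rw [e, iteratedFDeriv_const_smul_apply' hc, norm_smul, Real.norm_of_nonneg (by positivity)] at h2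
  change R ^ j * _ ≤ _ at h2
  rw [le_div_iff₀ (by positivity)]
  have h3 := mul_le_mul_of_nonneg_right h2 hδ.le
  refine le_trans (le_of_eq ?_) h3
  field_simp

/-- derivatives of positive order of the metric itself -/
theorem jet_bound (n M : ℕ) (K : ℝ) : ∃ C, 0 ≤ C ∧
    ∀ {G : MetricField n} {U : Set (En n)} {R δ : ℝ}, NC G U R → 0 < δ → δ ≤ K →
      (∀ j ≤ M, ∀ x ∈ U, nsq G (covN G (rmT G) j) x ≤ (δ / R ^ (j + 2)) ^ 2) →
      ∀ j ≤ M, j ≠ 0 → ∀ x ∈ U, ∀ a b,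
        ‖iteratedFDeriv ℝ j (fun y => G y a b) x‖ ≤ C * δ / R ^ j := by
  obtain ⟨C, hC0, hC⟩ := ck_bound n M K
  refine ⟨C, hC0, fun {G U R δ} h hδ hK hb j hj hj0 x hx a b => ?_⟩
  have h1 := hC h hδ hK hb j hj x hx a b
  have hc : ContDiffAt ℝ j (fun y => G y a b) x :=
    ((h.riem.contDiffOn a b).contDiffAt (h.riem.isOpen.mem_nhds hx)).of_le
      (by exact_mod_cast le_top)
  rwa [fun_iteratedFDeriv_sub_apply hc contDiffAt_const, iteratedFDeriv_const_of_ne hj0,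
    Pi.zero_apply, sub_zero] at h1

end Crest.Agent.N207.F
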