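import Crest.Agent.N207.F.InjC
import Crest.Agent.N207.F.Nc8
import Crest.Agent.N207.AI.Par2
import Crest.Agent.R249.B2Pull_474
import Crest.Agent.R226.GeoThm_542
import Crest.Agent.R226.NearDiagFinal_996
import Crest.Agent.R244.CFCoord

/-!
# Row 207, block F2 (helper26): the exponential map in an orthonormal frame
-/

set_option autoImplicit false
set_option linter.unusedSectionVars false

open Bundle Set Filter Topology Metric
open scoped ContDiff Manifold
open Crest.GeometryTopology.CoordMetric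
open Crest.Agent.R244.CF (IsLC gB Gam gB_apply Gam_apply gB_single isLC_of_isRiemannianOn)
open Crest.Agent.R226 Crest.Agent.R226.ChartMet842
open Crest.Agent.R249.B2Iso_474 Crest.Agent.R249.B2Pull_474

noncomputable section

namespace Crest.Agent.N207.F

section gen

variable {n : ℕ} {N : Type*} [MetricSpace N] [ChartedSpace (EuclideanSpace ℝ (Fin n)) N]
  [IsManifold (𝓡 n) ∞ N]
  [RiemannianBundle (fun p : N => TangentSpace (𝓡 n) p)]
  [IsContMDiffRiemannianBundle (𝓡 n) ∞ (EuclideanSpace ℝ (Fin n))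
    (fun p : N => TangentSpace (𝓡 n) p)]
  [IsRiemannianManifold (𝓡 n) N]

theorem gen_frame (p : N) : ∃ I : En n →L[ℝ] En n, ∀ u v,
    @inner ℝ (TangentSpace (𝓡 n) p) _ (I u) (I v) = inner ℝ u v := by
  have : FiniteDimensional ℝ (TangentSpace (𝓡 n) p) :=
    inferInstanceAs (FiniteDimensional ℝ (En n))
  have hfr : Module.finrank ℝ (TangentSpace (𝓡 n) p) = n :=
    finrank_euclideanSpace_fin (𝕜 := ℝ) (n := n)
  let b : OrthonormalBasis (Fin n) ℝ (TangentSpace (𝓡 n) p) :=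
    (stdOrthonormalBasis ℝ (TangentSpace (𝓡 n) p)).reindex (finCongr hfr)
  let L : En n →ₗ[ℝ] En n := b.repr.symm.toLinearEquiv.toLinearMap
  exact ⟨LinearMap.toContinuousLinearMap L, fun u v => b.repr.symm.inner_map_map u v⟩

theorem gen_contDiff {F : En n → N} (hF : ContMDiff 𝓘(ℝ, En n) (𝓡 n) ∞ F) (u v : En n) :
    ContDiff ℝ ∞ fun y => inner ℝ (mfderiv 𝓘(ℝ, En n) (𝓡 n) F y u)
      (mfderiv 𝓘(ℝ, En n) (𝓡 n) F y v) := by
  have h2 := ((contDiff_pbm hF).clm_apply (contDiff_const (c := u))).clm_apply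
    (contDiff_const (c := v))
  have e : (fun y => pbm F y u v) = _ := funext fun y =>
    pbm_apply ((hF y).mdifferentiableAt (by simp)) u v
  rwa [e] at h2

theorem gen_exp (G : GeoData n N) (p : N) (I : En n →L[ℝ] En n)
    (hI : ∀ u v, @inner ℝ (TangentSpace (𝓡 n) p) _ (I u) (I v) = inner ℝ u v) :
    (∀ u : En n, (mfderiv 𝓘(ℝ, En n) (𝓡 n) (FX G p I) 0 u : En n) = I u) ∧
    (∀ u v : En n, inner ℝ (mfderiv 𝓘(ℝ, En n) (𝓡 n) (FX G p I) 0 u)
      (mfderiv 𝓘(ℝ, En n) (𝓡 n) (FX G p I) 0 v) = inner ℝ u v) ∧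
    (∀ (y : En n) (s t : ℝ), dist (FX G p I (s • y)) (FX G p I (t • y)) ≤ |s - t| * ‖y‖) ∧
    ∀ q, ∃ y, FX G p I y = q ∧ ‖y‖ = dist p q := by
  have hs := contMDiff_FX G p I
  have h0 := FX_zero G p I
  have hd : ∀ u : En n, (mfderiv 𝓘(ℝ, En n) (𝓡 n) (FX G p I) 0 u : En n) = I u := fun u => by
    have a1 := fderiv_FC_FX G p I u
    rw [fderiv_FC (y₀ := p) ((hs 0).mdifferentiableAt (by simp))
      (by rw [h0]; exact mem_chart_source _ _)] at a1
    rw [← a1]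
    exact ((LocalNearThm996.dC_congr (n := n) p h0 _).trans (dC_self _ _)).symm
  have hn : ∀ y : En n, @norm (TangentSpace (𝓡 n) p) _ (I y) = ‖y‖ := fun y => by
    have a1 := (real_inner_self_eq_norm_sq (F := TangentSpace (𝓡 n) p) (I y)).symm.trans
      ((hI y y).trans (real_inner_self_eq_norm_sq y))
    exact (pow_left_inj₀ (norm_nonneg _) (norm_nonneg _) two_ne_zero).1 a1
  have hsurj : Function.Surjective I := by
    refine (LinearMap.injective_iff_surjective (f := (I : En n →ₗ[ℝ] En n))).1 ?_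
    rw [injective_iff_map_eq_zero]
    intro u hu
    have a1 := hn u
    have a2 : I u = 0 := hu
    rw [a2] at a1
    exact norm_eq_zero.1 (a1.symm.trans (norm_zero (E := TangentSpace (𝓡 n) p)))
  refine ⟨hd, fun u v => ?_, fun y s t => ?_, fun q => ?_⟩
  · rw [← hI, ← hd, ← hd]
    exact inner_congr h0 _ _
  · have a1 := G.dist_le p (I y) s t
    rw [hn] at a1
    have a2 : ∀ s : ℝ, FX G p I (s • y) = G.ex p (s • (I y : TangentSpace (𝓡 n) p)) :=
      fun s => by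
        show G.ex p (I (s • y)) = _
        rw [map_smul]
    rw [a2, a2]
    exact a1
  · obtain ⟨v, a1, a2⟩ := G.surj p q
    obtain ⟨y, rfl⟩ := hsurj v
    exact ⟨y, a1, (hn y).symm.trans a2⟩

end gen

variable {n : ℕ} {M : Type*} [TopologicalSpace M] [ChartedSpace (En n) M]
  [IsManifold 𝓘(ℝ, En n) ∞ M]

theorem sum_single' (X : En n) : X = ∑ i, X i • (EuclideanSpace.single i (1 : ℝ) : En n) := by
  ext k; simp [Finset.sum_apply, Pi.single_apply]

theorem gB_pm (m : Met n M) (Ψ : En n → M) (y X Y : En n) :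
    gB (m.pm Ψ) y X Y = m.inner (Ψ y) (mfderiv 𝓘(ℝ, En n) 𝓘(ℝ, En n) Ψ y X)
      (mfderiv 𝓘(ℝ, En n) 𝓘(ℝ, En n) Ψ y Y) := by
  rw [gB_apply]
  set L : En n →L[ℝ] En n := mfderiv 𝓘(ℝ, En n) 𝓘(ℝ, En n) Ψ y with hL
  set B : En n →L[ℝ] En n →L[ℝ] ℝ := m.inner (Ψ y) with hB
  have e : ∀ i j, m.pm Ψ y i j =
      B (L (EuclideanSpace.single i 1)) (L (EuclideanSpace.single j 1)) := fun _ _ => rfl
  show _ = B (L X) (L Y)
  conv_rhs => rw [sum_single' X, sum_single' Y]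
  simp only [e, map_sum, map_smul, sum_apply, smul_apply,
    smul_eq_mul, Finset.mul_sum]
  rw [Finset.sum_comm]
  refine Finset.sum_congr rfl fun i _ => Finset.sum_congr rfl fun j _ => by ring

/-- a smooth map is an immersion where its pull-back metric is positive -/
theorem inj_of_pos (m : Met n M) {Ψ : En n → M} {y : En n}
    (h : ∀ u, u ≠ 0 → 0 < gB (m.pm Ψ) y u u) :
    Function.Injective (mfderiv 𝓘(ℝ, En n) 𝓘(ℝ, En n) Ψ y) := by
  set L : En n →L[ℝ] En n := mfderiv 𝓘(ℝ, En n) 𝓘(ℝ, En n) Ψ y with hL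
  set B : En n →L[ℝ] En n →L[ℝ] ℝ := m.inner (Ψ y) with hB
  show Function.Injective L
  rw [injective_iff_map_eq_zero]
  intro u hu
  by_contra hne
  have h1 : 0 < B (L u) (L u) := (gB_pm m Ψ y u u) ▸ h u hne
  rw [hu, map_zero] at h1
  exact lt_irrefl _ h1

variable [T3Space M] [ConnectedSpace M]

theorem isoM_par (m : Met n M) {Ψ : En n → M} {U : Set (En n)} (hP : Par Ψ U) {y : En n}
    (hy : y ∈ U) : IsoM (n := n) (M := Sl m) (gB (m.pm Ψ)) Ψ y :=
  ⟨by filter_upwards [hP.isOpen.mem_nhds hy] with z hz using hP.contMDiffAt hz,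
    Eventually.of_forall fun z u v => gB_pm m Ψ z u v⟩

/-- the exponential map at `p` in an orthonormal frame -/
structure IsExp (m : Met n M) (p : M) (Ψ : En n → M) : Prop where
  sm : ContMDiff 𝓘(ℝ, En n) 𝓘(ℝ, En n) ∞ Ψ
  zero : Ψ 0 = p
  one : m.pm Ψ 0 = 1
  dist_le : ∀ (y : En n) (s t : ℝ), m.d (Ψ (s • y)) (Ψ (t • y)) ≤ |s - t| * ‖y‖
  surj : ∀ q, ∃ y, Ψ y = q ∧ ‖y‖ = m.d p q
  rad : ∀ U, Par Ψ U → ∀ x ∈ U, ∀ k,
    ∑ i, ∑ j, christoffel (m.pm Ψ) x k i j * x i * x j = 0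

namespace IsExp

variable {m : Met n M} {p : M} {Ψ : En n → M} (h : IsExp m p Ψ)
include h

theorem d_le (y : En n) : m.d (Ψ y) p ≤ ‖y‖ := by
  have := h.dist_le y 1 0
  rwa [one_smul, zero_smul, h.zero, sub_zero, abs_one, one_mul] at this

theorem mem_ball {y : En n} {r : ℝ} (hy : y ∈ ball (0 : En n) r) : Ψ y ∈ m.ball p r :=
  lt_of_le_of_lt (h.d_le y) (mem_ball_zero_iff.1 hy)

theorem image_ball (r : ℝ) : Ψ '' ball 0 r = m.ball p r := by
  refine subset_antisymm (by rintro _ ⟨y, hy, rfl⟩; exact h.mem_ball hy) fun q hq => ?_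
  obtain ⟨y, h1, h2⟩ := h.surj q
  refine ⟨y, mem_ball_zero_iff.2 ?_, h1⟩
  rw [h2]
  exact lt_of_eq_of_lt (dist_comm (α := Sl m) p q) hq

theorem nc {U : Set (En n)} {R : ℝ} (hP : Par Ψ U) (hs : StarConvex ℝ 0 U) (h0 : (0 : En n) ∈ U)
    (hR : U ⊆ ball 0 R) : NC (m.pm Ψ) U R :=
  ⟨hP.riem m, hs, h0, hR, h.one, h.rad U hP⟩

theorem contDiff_pm (i j : Fin n) : ContDiff ℝ ∞ fun y => m.pm Ψ y i j := by
  have := gen_contDiff (n := n) (N := Sl m) (F := Ψ)
  exact this h.sm _ _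

end IsExp

theorem exists_frame (m : Met n M) (p : M) :
    ∃ I : En n →L[ℝ] En n, ∀ u v, m.inner p (I u) (I v) = inner ℝ u v :=
  gen_frame (n := n) (N := Sl m) p

variable [CompactSpace M]

theorem nonempty_geo (m : Met n M) : Nonempty (GeoData n (Sl m)) := by
  obtain ⟨N⟩ := NearDiagFinal996.nonempty_nearDiag (n := n) (M := Sl m)
  exact GeoThm542.nonempty_geoData N

theorem exists_isExp' (m : Met n M) (p : M) (I : En n →L[ℝ] En n)
    (hI : ∀ u v, m.inner p (I u) (I v) = inner ℝ u v) :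
    ∃ Ψ : En n → M, IsExp m p Ψ ∧
      ∀ u : En n, (mfderiv 𝓘(ℝ, En n) 𝓘(ℝ, En n) Ψ 0 u : En n) = I u := by
  obtain ⟨G⟩ := nonempty_geo m
  obtain ⟨h1, h2, h3, h4⟩ := gen_exp (n := n) (N := Sl m) G p I hI
  refine ⟨FX (n := n) (M := Sl m) G p I, ⟨contMDiff_FX (M := Sl m) G p I, FX_zero G p I, ?_, h3, h4,
    fun U hP x hx k => ?_⟩, h1⟩
  · ext i j
    refine (h2 (EuclideanSpace.single i 1) (EuclideanSpace.single j 1)).trans ?_
    simp [Matrix.one_apply, EuclideanSpace.inner_single_left]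
  · have a1 := rad_of_isoM (M := Sl m) G (isLC_of_isRiemannianOn (hP.riem m)) hx
      (isoM_par m hP hx)
    rw [← Gam_apply, a1]
    rfl

theorem exists_isExp (m : Met n M) (p : M) : ∃ Ψ : En n → M, IsExp m p Ψ := by
  obtain ⟨I, hI⟩ := exists_frame m p
  obtain ⟨Ψ, h, -⟩ := exists_isExp' m p I hI
  exact ⟨Ψ, h⟩

end Crest.Agent.N207.F

end
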