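import Mathlib

/-!
# Row 207, block F3 (helper26): fibres of a bi-Lipschitz "partial covering" are bounded by volume

`Cov Ψ R`: `Ψ : E → X` is `2`-Lipschitz, `2`-co-Lipschitz and locally injective on `ball 0 R`.
`Cov.card_le`: if the fibre over `q` has `N` points in the ball of radius `ρ`, then
`N * μ (ball q t) ≤ 2 ^ n * vol (closedBall 0 (ρ + 2 t))`.
-/

set_option autoImplicit false

open Set Metric Filter Topology MeasureTheory
open scoped ENNReal NNReal

noncomputable section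

namespace Crest.Agent.N207.F

section cov

variable {E : Type*} [NormedAddCommGroup E] {X : Type*} [MetricSpace X]

/-- Lipschitz, co-Lipschitz and locally injective on a ball -/
structure Cov (Ψ : E → X) (R : ℝ) : Prop where
  lip : ∀ x ∈ ball (0 : E) R, ∀ y ∈ ball (0 : E) R, dist (Ψ x) (Ψ y) ≤ 2 * ‖x - y‖
  colip : ∀ x q, ‖x‖ + 2 * dist (Ψ x) q < R → ∃ x', Ψ x' = q ∧ ‖x' - x‖ ≤ 2 * dist (Ψ x) q
  locinj : ∀ x ∈ ball (0 : E) R, ∃ ε > 0, InjOn Ψ (ball x ε)

/-- any two points are joined by a constant speed minimiser -/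
def Geo (X : Type*) [MetricSpace X] : Prop :=
  ∀ p q : X, ∃ γ : ℝ → X, γ 0 = p ∧ γ 1 = q ∧ ∀ s t, dist (γ s) (γ t) ≤ |s - t| * dist p q

variable {Ψ : E → X} {R : ℝ}

theorem Cov.unif [ProperSpace E] (h : Cov Ψ R) {ρ : ℝ} (hρ : ρ < R) :
    ∃ η > 0, ∀ x y : E, ‖x‖ ≤ ρ → ‖x - y‖ < η → Ψ x = Ψ y → x = y := by
  have hin : ∀ x : closedBall (0 : E) ρ, (x : E) ∈ ball (0 : E) R := fun x =>
    closedBall_subset_ball hρ x.2
  choose ε hε hinj using fun x : closedBall (0 : E) ρ => h.locinj x (hin x)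
  obtain ⟨δ, hδ, hcov⟩ := lebesgue_number_lemma_of_metric (isCompact_closedBall (0 : E) ρ)
    (c := fun x : closedBall (0 : E) ρ => ball (x : E) (ε x)) (fun _ => isOpen_ball)
    (fun x hx => mem_iUnion.2 ⟨⟨x, hx⟩, mem_ball_self (hε _)⟩)
  refine ⟨δ, hδ, fun x y hx hxy he => ?_⟩
  obtain ⟨i, hi⟩ := hcov x (mem_closedBall_zero_iff.2 hx)
  refine hinj i (hi (mem_ball_self hδ)) (hi ?_) he
  rw [mem_ball, dist_comm, dist_eq_norm]; exact hxy

theorem Cov.many [ProperSpace E] (h : Cov Ψ R) (hg : Geo X) {N : ℕ} {f : Fin N → E}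
    (hf : Function.Injective f) {ρ : ℝ} (hn : ∀ i, ‖f i‖ ≤ ρ) {q q' : X} (hq : ∀ i, Ψ (f i) = q)
    (hρ : ρ + 2 * dist q q' < R) :
    ∃ f' : Fin N → E, Function.Injective f' ∧ (∀ i, ‖f' i‖ ≤ ρ + 2 * dist q q') ∧
      ∀ i, Ψ (f' i) = q' := by
  obtain ⟨η, hη, hu⟩ := h.unif hρ
  obtain ⟨γ, h0, h1, hγ⟩ := hg q q'
  set d := dist q q' with hd
  have hd0 : 0 ≤ d := dist_nonneg
  obtain ⟨m, hm⟩ := exists_nat_gt (4 * d / η)
  have hm0 : (0 : ℝ) < m := lt_of_le_of_lt (by positivity) hm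
  have hmη : 4 * (d / m) < η := by
    rw [div_lt_iff₀ hη] at hm
    rw [← mul_div_assoc, div_lt_iff₀ hm0]; linarith
  have key : ∀ k : ℕ, k ≤ m → ∃ f' : Fin N → E, Function.Injective f' ∧
      (∀ i, ‖f' i‖ ≤ ρ + 2 * (k * (d / m))) ∧ ∀ i, Ψ (f' i) = γ (k / m) := by
    intro k
    induction k with
    | zero =>
      intro _
      exact ⟨f, hf, fun i => by simpa using hn i, fun i => by simp [h0, hq i]⟩
    | succ k ih =>
      intro hk
      obtain ⟨g, hg1, hg2, hg3⟩ := ih (Nat.le_of_succ_le hk)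
      have hk' : ((k : ℝ) + 1) ≤ m := by exact_mod_cast hk
      have hstep : dist (γ (k / m)) (γ (((k + 1 : ℕ) : ℝ) / m)) ≤ d / m := by
        refine (hγ _ _).trans (le_of_eq ?_)
        have : (k : ℝ) / m - ((k + 1 : ℕ) : ℝ) / m = -(1 / m) := by push_cast; ring
        rw [this, abs_neg, abs_of_pos (by positivity)]; ring
      have hle : ((k : ℝ) + 1) * (d / m) ≤ d := by
        calc ((k : ℝ) + 1) * (d / m) ≤ m * (d / m) := by gcongr
          _ = d := by field_simp
      have hex : ∀ i, ∃ x', Ψ x' = γ (((k + 1 : ℕ) : ℝ) / m) ∧ ‖x' - g i‖ ≤ 2 * (d / m) := by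
        intro i
        obtain ⟨x', e1, e2⟩ := h.colip (g i) (γ (((k + 1 : ℕ) : ℝ) / m)) (by
          rw [hg3 i]; have := hg2 i; nlinarith)
        rw [hg3 i] at e2
        exact ⟨x', e1, by linarith⟩
      choose g' e1 e2 using hex
      refine ⟨g', fun i j hij => hg1 (hu (g i) (g j) ?_ ?_ (by rw [hg3, hg3])), fun i => ?_, e1⟩
      · have := hg2 i
        have h3 : 0 ≤ d / m := by positivity
        nlinarith
      · have a1 := e2 i
        have a2 := e2 j
        have : g i - g j = (g' j - g j) - (g' i - g i) := by rw [hij]; abel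
        rw [this]
        exact lt_of_le_of_lt (norm_sub_le _ _) (by linarith)
      · have a1 := e2 i
        have a2 := hg2 i
        have : g' i = (g' i - g i) + g i := by abel
        rw [this]
        refine (norm_add_le _ _).trans ?_
        push_cast; linarith
  obtain ⟨g, hg1, hg2, hg3⟩ := key m le_rfl
  refine ⟨g, hg1, fun i => (hg2 i).trans (le_of_eq ?_), fun i => ?_⟩
  · field_simp
  · rw [hg3, div_self hm0.ne', h1]

end cov

section meas

variable {n : ℕ} {X : Type*} [MetricSpace X] [MeasurableSpace X] [BorelSpace X]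

local notation "𝔼" => EuclideanSpace ℝ (Fin n)

theorem image_le_of_lip {Ψ : 𝔼 → X} {s : Set 𝔼} {K : ℝ≥0} (h : LipschitzOnWith K Ψ s) :
    (μHE[n] : Measure X) (Ψ '' s) ≤ (K : ℝ≥0∞) ^ n * volume s := by
  rw [← EuclideanSpace.euclideanHausdorffMeasure_eq_volume n,
    Measure.euclideanHausdorffMeasure_def, Measure.euclideanHausdorffMeasure_def,
    Measure.smul_apply, Measure.smul_apply]
  have := h.hausdorffMeasure_image_le (d := (n : ℝ)) (Nat.cast_nonneg n)
  rw [ENNReal.rpow_natCast] at this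
  simp only [ENNReal.smul_def, smul_eq_mul]
  rw [mul_left_comm]
  gcongr

theorem Cov.card_le {Ψ : 𝔼 → X} {R : ℝ} (h : Cov Ψ R) (hg : Geo X) {N : ℕ} {f : Fin N → 𝔼}
    (hf : Function.Injective f) {ρ t : ℝ} (hn : ∀ i, ‖f i‖ ≤ ρ) {q : X} (hq : ∀ i, Ψ (f i) = q)
    (hρ : ρ + 2 * t < R) :
    (N : ℝ≥0∞) * (μHE[n] : Measure X) (ball q t)
      ≤ 2 ^ n * volume (closedBall (0 : 𝔼) (ρ + 2 * t)) := by
  obtain ⟨η, hη, hu⟩ := h.unif hρ
  set μ : Measure X := μHE[n] with hμ
  set B := closedBall (0 : 𝔼) (ρ + 2 * t) with hB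
  set u := TopologicalSpace.denseSeq 𝔼 with hu'
  set D : ℕ → Set 𝔼 := disjointed fun j => ball (u j) (η / 2) with hD
  set P : ℕ → Set 𝔼 := fun j => D j ∩ B with hP
  have hDm : ∀ j, MeasurableSet (D j) :=
    MeasurableSet.disjointed fun j => measurableSet_ball
  have hPm : ∀ j, MeasurableSet (P j) := fun j => (hDm j).inter measurableSet_closedBall
  have hPd : Pairwise (Function.onFun Disjoint P) := fun i j hij =>
    (disjoint_disjointed (fun j => ball (u j) (η / 2)) hij).mono inter_subset_left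
      inter_subset_left
  have hcov : ∀ x, ∃ j, x ∈ D j := by
    intro x
    have h1 : x ∈ ⋃ j, ball (u j) (η / 2) := by
      obtain ⟨j, hj⟩ := Metric.denseRange_iff.1 (TopologicalSpace.denseRange_denseSeq 𝔼) x (η / 2)
        (by positivity)
      exact mem_iUnion.2 ⟨j, hj⟩
    rw [← iUnion_disjointed] at h1
    exact mem_iUnion.1 h1
  have hU : (⋃ j, P j) = B := by
    refine subset_antisymm (iUnion_subset fun j => inter_subset_right) fun x hx => ?_
    obtain ⟨j, hj⟩ := hcov x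
    exact mem_iUnion.2 ⟨j, hj, hx⟩
  have hBR : B ⊆ ball 0 R := closedBall_subset_ball hρ
  have hlip : ∀ j, LipschitzOnWith 2 Ψ (P j) := fun j =>
    LipschitzOnWith.of_dist_le_mul fun x hx y hy => by
      have := h.lip x (hBR hx.2) y (hBR hy.2)
      rw [dist_eq_norm]; exact_mod_cast this
  set H : ℕ → Set X := fun j => toMeasurable μ (Ψ '' P j) with hH
  have hpt : ∀ q' ∈ ball q t, (N : ℝ≥0∞) ≤ ∑' j, (H j).indicator 1 q' := by
    intro q' hq'
    have hd : dist q q' < t := by rw [dist_comm]; exact hq'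
    obtain ⟨g, hg1, hg2, hg3⟩ := h.many hg hf hn (q' := q') hq (by linarith)
    have hgB : ∀ i, ‖g i‖ ≤ ρ + 2 * t := fun i => (hg2 i).trans (by linarith)
    choose J hJ using fun i => hcov (g i)
    have hJi : Function.Injective J := by
      intro i j hij
      refine hg1 (hu _ _ (hgB i) ?_ (by rw [hg3, hg3]))
      have a1 := disjointed_subset (fun j => ball (u j) (η / 2)) _ (hJ i)
      have a2 := disjointed_subset (fun j => ball (u j) (η / 2)) _ (hJ j)
      rw [hij] at a1
      rw [← dist_eq_norm]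
      have := dist_triangle_right (g i) (g j) (u (J j))
      rw [mem_ball] at a1 a2
      linarith
    calc (N : ℝ≥0∞) = ∑ j ∈ Finset.univ.image J, (H j).indicator (1 : X → ℝ≥0∞) q' := by
          rw [Finset.sum_image fun i _ j _ hij => hJi hij]
          have : ∀ i, (H (J i)).indicator (1 : X → ℝ≥0∞) q' = 1 := fun i =>
            indicator_of_mem (subset_toMeasurable μ (Ψ '' P (J i))
              ⟨g i, ⟨hJ i, mem_closedBall_zero_iff.2 (hgB i)⟩, hg3 i⟩) _
          simp [this]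
      _ ≤ _ := ENNReal.sum_le_tsum _
  calc (N : ℝ≥0∞) * μ (ball q t) = ∫⁻ _ in ball q t, (N : ℝ≥0∞) ∂μ := by
        rw [setLIntegral_const]
    _ ≤ ∫⁻ q' in ball q t, ∑' j, (H j).indicator 1 q' ∂μ :=
        setLIntegral_mono' measurableSet_ball hpt
    _ ≤ ∫⁻ q', ∑' j, (H j).indicator 1 q' ∂μ := setLIntegral_le_lintegral _ _
    _ = ∑' j, μ (H j) := by
        rw [lintegral_tsum fun j =>
          (measurable_one.indicator (measurableSet_toMeasurable _ _)).aemeasurable]
        exact tsum_congr fun j => lintegral_indicator_one (measurableSet_toMeasurable _ _)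
    _ ≤ ∑' j, 2 ^ n * volume (P j) := by
        refine ENNReal.tsum_le_tsum fun j => ?_
        rw [hH]
        simp only [measure_toMeasurable]
        simpa using image_le_of_lip (hlip j)
    _ = 2 ^ n * volume B := by
        rw [ENNReal.tsum_mul_left, ← measure_iUnion hPd hPm, hU]

end meas

end Crest.Agent.N207.F

end
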