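import Crest.Agent.N207.F.InjA

/-!
# Row 207, block F3 (helper26): bounded fibres and almost affine deck maps give injectivity

`Cov.injOn`: if the fibres of `Ψ` have at most `K` points and the local deck maps have small second
derivative, `Ψ` is injective on a ball of definite size (centre of mass of a cluster of a fibre).
-/

set_option autoImplicit false
set_option linter.unusedSectionVars false

open Set Metric Filter Topology
open scoped RealInnerProductSpace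

noncomputable section

namespace Crest.Agent.N207.F

/-- second derivative at a point -/
def D2 (φ : ℝ → ℝ) (t r : ℝ) : Prop :=
  ∃ φ' : ℝ → ℝ, (∀ᶠ s in 𝓝 t, HasDerivAt φ (φ' s) s) ∧ HasDerivAt φ' r t

theorem D2.congr {φ ψ : ℝ → ℝ} {t r : ℝ} (h : D2 φ t r) (he : ψ =ᶠ[𝓝 t] φ) : D2 ψ t r := by
  obtain ⟨φ', h1, h2⟩ := h
  refine ⟨φ', ?_, h2⟩
  filter_upwards [h1, he.eventuallyEq_nhds] with s a b using a.congr_of_eventuallyEq b

theorem D2.deriv2 {φ : ℝ → ℝ} {t r : ℝ} (h : D2 φ t r) : deriv^[2] φ t = r := by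
  obtain ⟨φ', h1, h2⟩ := h
  have h3 : deriv φ =ᶠ[𝓝 t] φ' := by filter_upwards [h1] with s a using a.deriv
  show deriv (deriv φ) t = r
  rw [h3.deriv_eq, h2.deriv]

theorem D2.sum {ι : Type*} {S : Finset ι} {φ : ι → ℝ → ℝ} {t : ℝ} {r : ι → ℝ}
    (h : ∀ i ∈ S, D2 (φ i) t (r i)) : D2 (fun s => ∑ i ∈ S, φ i s) t (∑ i ∈ S, r i) := by
  classical
  choose! φ' h1 h2 using h
  refine ⟨fun s => ∑ i ∈ S, φ' i s, ?_, HasDerivAt.fun_sum h2⟩
  filter_upwards [(Filter.eventually_all_finset S).2 h1] with s a using HasDerivAt.fun_sum a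

variable {E : Type*} [NormedAddCommGroup E] [InnerProductSpace ℝ E] {X : Type*} [MetricSpace X]

theorem D2_sq {τ : E → E} {x v a : E} {t : ℝ} (hτ : ContDiffAt ℝ 2 τ (x + t • v)) :
    D2 (fun s => ‖τ (x + s • v) - a‖ ^ 2) t
      (2 * (‖fderiv ℝ τ (x + t • v) v‖ ^ 2
        + ⟪τ (x + t • v) - a, fderiv ℝ (fderiv ℝ τ) (x + t • v) v v⟫)) := by
  have hl : ∀ s : ℝ, HasDerivAt (fun s : ℝ => x + s • v) v s := fun s => by
    simpa using ((hasDerivAt_id s).smul_const v).const_add x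
  have h1 : ∀ᶠ z in 𝓝 (x + t • v), DifferentiableAt ℝ τ z := by
    filter_upwards [hτ.eventually (by simp)] with z hz using hz.differentiableAt (by simp)
  have h2 : ∀ᶠ s in 𝓝 t, HasDerivAt (fun s : ℝ => τ (x + s • v) - a)
      (fderiv ℝ τ (x + s • v) v) s := by
    filter_upwards [(hl t).continuousAt.eventually h1] with s hs
    exact (hs.hasFDerivAt.comp_hasDerivAt s (hl s)).sub_const a
  have h3 : HasDerivAt (fun s : ℝ => fderiv ℝ τ (x + s • v) v)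
      (fderiv ℝ (fderiv ℝ τ) (x + t • v) v v) t := by
    have h4 : DifferentiableAt ℝ (fderiv ℝ τ) (x + t • v) :=
      (hτ.fderiv_right (m := 1) (by norm_num)).differentiableAt (by simp)
    have h5 : HasDerivAt (fun s : ℝ => fderiv ℝ τ (x + s • v))
        (fderiv ℝ (fderiv ℝ τ) (x + t • v) v) t := h4.hasFDerivAt.comp_hasDerivAt t (hl t)
    have h6 := h5.clm_apply (hasDerivAt_const t v)
    rwa [map_zero, add_zero] at h6
  refine ⟨fun s => 2 * ⟪τ (x + s • v) - a, fderiv ℝ τ (x + s • v) v⟫, ?_, ?_⟩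
  · filter_upwards [h2] with s hs using hs.norm_sq
  · have h6 := (h2.self_of_nhds.inner ℝ h3).const_mul 2
    rw [real_inner_self_eq_norm_sq] at h6
    rw [add_comm] at h6
    exact h6

/-- local deck maps with controlled first and second derivative -/
def Deck (Ψ : E → X) (R β : ℝ) : Prop :=
  ∀ x ∈ ball (0 : E) R, ∀ y ∈ ball (0 : E) R, Ψ x = Ψ y → ∃ τ : E → E, τ x = y ∧
    ContDiffAt ℝ 2 τ x ∧ (∀ᶠ z in 𝓝 x, Ψ (τ z) = Ψ z) ∧
    ∀ u, ‖u‖ ≤ 2 * ‖fderiv ℝ τ x u‖ ∧ ‖fderiv ℝ (fderiv ℝ τ) x u u‖ ≤ β * ‖u‖ ^ 2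

/-- fibres have at most `K` points -/
def Fib (Ψ : E → X) (R : ℝ) (K : ℕ) : Prop :=
  ∀ (N : ℕ) (f : Fin N → E) (q : X), Function.Injective f → (∀ i, ‖f i‖ ≤ R) →
    (∀ i, Ψ (f i) = q) → N ≤ K

variable {Ψ : E → X} {R β : ℝ} {K : ℕ}

theorem Fib.finset (h : Fib Ψ R K) {S : Finset E} {q : X} (h1 : ∀ y ∈ S, ‖y‖ ≤ R)
    (h2 : ∀ y ∈ S, Ψ y = q) : S.card ≤ K :=
  h S.card (fun i => (S.equivFin.symm i : E)) q
    (Subtype.val_injective.comp S.equivFin.symm.injective)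
    (fun i => h1 _ (S.equivFin.symm i).2) (fun i => h2 _ (S.equivFin.symm i).2)

theorem Fib.finite (h : Fib Ψ R K) {S : Set E} {q : X} (h1 : ∀ y ∈ S, ‖y‖ ≤ R)
    (h2 : ∀ y ∈ S, Ψ y = q) : S.Finite := by
  by_contra hS
  obtain ⟨T, hT, hc⟩ := Set.Infinite.exists_subset_card_eq hS (K + 1)
  have := h.finset (S := T) (fun y hy => h1 y (hT hy)) (fun y hy => h2 y (hT hy))
  omega

/-- an annulus of definite modulus around `a` that contains no point of the fibre -/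
theorem Fib.gap (h : Fib Ψ R K) {a : E} {s₀ L : ℝ} (hs : 0 < s₀) (hL : 1 < L)
    (hR : ‖a‖ + s₀ * L ^ (K + 1) ≤ R) :
    ∃ s, s₀ ≤ s ∧ L * s ≤ s₀ * L ^ (K + 1) ∧ ∀ y, Ψ y = Ψ a → ‖y - a‖ ≤ L * s → ‖y - a‖ ≤ s := by
  by_contra hcon
  have hpow : ∀ j : Fin (K + 1), L * (s₀ * L ^ (j : ℕ)) ≤ s₀ * L ^ (K + 1) := fun j => by
    have : L ^ ((j : ℕ) + 1) ≤ L ^ (K + 1) := pow_le_pow_right₀ hL.le (by omega)
    calc L * (s₀ * L ^ (j : ℕ)) = s₀ * L ^ ((j : ℕ) + 1) := by ring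
      _ ≤ _ := by gcongr
  have hex : ∀ j : Fin (K + 1), ∃ y, Ψ y = Ψ a ∧ ‖y - a‖ ≤ L * (s₀ * L ^ (j : ℕ)) ∧
      s₀ * L ^ (j : ℕ) < ‖y - a‖ := by
    intro j
    by_contra hj
    refine hcon ⟨s₀ * L ^ (j : ℕ), le_mul_of_one_le_right hs.le (one_le_pow₀ hL.le), hpow j,
      fun y h1 h2 => ?_⟩
    by_contra h3
    exact hj ⟨y, h1, h2, not_le.1 h3⟩
  choose f h1 h2 h3 using hex
  have hlt : ∀ i j : Fin (K + 1), i < j → f i ≠ f j := by
    intro i j hij he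
    have a1 := h2 i
    have a2 := h3 j
    rw [he] at a1
    have : L ^ ((i : ℕ) + 1) ≤ L ^ (j : ℕ) := pow_le_pow_right₀ hL.le hij
    have a3 : L * (s₀ * L ^ (i : ℕ)) ≤ s₀ * L ^ (j : ℕ) := by
      calc L * (s₀ * L ^ (i : ℕ)) = s₀ * L ^ ((i : ℕ) + 1) := by ring
        _ ≤ _ := by gcongr
    linarith
  have := h (K + 1) f (Ψ a) (fun i j hij => by
    rcases lt_trichotomy i j with hh | hh | hh
    · exact absurd hij (hlt i j hh)
    · exact hh
    · exact absurd hij.symm (hlt j i hh)) (fun i => by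
      have e : f i = (f i - a) + a := by abel
      rw [e]
      exact (norm_add_le _ _).trans (by linarith [h2 i, hpow i])) h1
  omega

/-- the local structure of the clusters -/
theorem cluster_local (h : Cov Ψ R) (hd : Deck Ψ R β) {a : E} {σ : ℝ} (hσ : 0 < σ)
    (hR : ‖a‖ + 20 * σ < R) {C : E → Finset E}
    (hC : ∀ x y, y ∈ C x ↔ ‖y - a‖ < 10 * σ ∧ Ψ y = Ψ x)
    (hgap : ∀ y, Ψ y = Ψ a → ‖y - a‖ ≤ 20 * σ → ‖y - a‖ ≤ σ) {x : E} (hx : ‖x - a‖ ≤ σ) :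
    ∃ τ : E → E → E, (∀ y ∈ C x, τ y x = y ∧ ContDiffAt ℝ 2 (τ y) x ∧
      ∀ u, ‖u‖ ≤ 2 * ‖fderiv ℝ (τ y) x u‖ ∧ ‖fderiv ℝ (fderiv ℝ (τ y)) x u u‖ ≤ β * ‖u‖ ^ 2) ∧
      ∀ᶠ z in 𝓝 x, InjOn (fun y => τ y z) (C x) ∧ ∀ w, w ∈ C z ↔ ∃ y ∈ C x, τ y z = w := by
  have hin : ∀ y : E, ‖y - a‖ ≤ 20 * σ → ‖y‖ < R := fun y hy => by
    have e : y = (y - a) + a := by abel
    rw [e]
    exact lt_of_le_of_lt (norm_add_le _ _) (by linarith)
  have hb : ∀ y : E, ‖y - a‖ ≤ 20 * σ → y ∈ ball (0 : E) R := fun y hy =>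
    mem_ball_zero_iff.2 (hin y hy)
  have hxb := hb x (by linarith)
  have hyb : ∀ y ∈ C x, y ∈ ball (0 : E) R := fun y hy => hb y (by linarith [((hC x y).1 hy).1])
  choose! τ t1 t2 t3 t4 using fun y (hy : y ∈ C x) => hd x hxb y (hyb y hy) ((hC x y).1 hy).2.symm
  choose! ε e1 e2 using fun y (hy : y ∈ C x) => h.locinj y (hyb y hy)
  refine ⟨τ, fun y hy => ⟨t1 y hy, t2 y hy, t4 y hy⟩, ?_⟩
  have hcont : ∀ y ∈ C x, Tendsto (τ y) (𝓝 x) (𝓝 y) := fun y hy => by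
    have := (t2 y hy).continuousAt.tendsto
    rwa [t1 y hy] at this
  have v1 : ∀ᶠ z in 𝓝 x, ∀ y ∈ C x, Ψ (τ y z) = Ψ z := (Filter.eventually_all_finset _).2 t3
  have v2 : ∀ᶠ z in 𝓝 x, ∀ y ∈ C x, τ y z ∈ ball y (ε y) :=
    (Filter.eventually_all_finset _).2 fun y hy => hcont y hy (ball_mem_nhds y (e1 y hy))
  have v3 : ∀ᶠ z in 𝓝 x, ∀ y ∈ C x, ‖τ y z - a‖ < 10 * σ :=
    (Filter.eventually_all_finset _).2 fun y hy =>
      ((hcont y hy).sub_const a).norm.eventually (gt_mem_nhds ((hC x y).1 hy).1)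
  have v4 : ∀ᶠ z in 𝓝 x, ∀ y ∈ C x, ∀ y' ∈ C x, y ≠ y' → τ y z ≠ τ y' z :=
    (Filter.eventually_all_finset _).2 fun y hy => (Filter.eventually_all_finset _).2
      fun y' hy' => by
        by_cases hne : y = y'
        · exact Eventually.of_forall fun z hz => absurd hne hz
        · have := ((hcont y hy).sub (hcont y' hy')).eventually_ne (sub_ne_zero.2 hne)
          filter_upwards [this] with z hz _ using sub_ne_zero.1 hz
  have hz0 : Tendsto (fun z => 4 * ‖z - x‖) (𝓝 x) (𝓝 0) := by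
    have : Continuous fun z : E => 4 * ‖z - x‖ := by fun_prop
    simpa using this.tendsto x
  have v5 : ∀ᶠ z in 𝓝 x, ∀ y ∈ C x, 4 * ‖z - x‖ < ε y :=
    (Filter.eventually_all_finset _).2 fun y hy => hz0.eventually (gt_mem_nhds (e1 y hy))
  have v6 : ∀ᶠ z in 𝓝 x, 4 * ‖z - x‖ < σ := hz0.eventually (gt_mem_nhds hσ)
  filter_upwards [v1, v2, v3, v4, v5, v6] with z w1 w2 w3 w4 w5 w6
  refine ⟨fun y hy y' hy' he => by_contra fun hne => w4 y hy y' hy' hne he, fun w => ⟨fun hw => ?_,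
    fun ⟨y, hy, he⟩ => he ▸ (hC z _).2 ⟨w3 y hy, w1 y hy⟩⟩⟩
  obtain ⟨hw1, hw2⟩ := (hC z w).1 hw
  have hza : ‖z - a‖ ≤ 2 * σ := by
    have e : z - a = (z - x) + (x - a) := by abel
    rw [e]
    exact (norm_add_le _ _).trans (by linarith [norm_nonneg (z - x)])
  have hzb := hb z (by linarith)
  have hab := hb a (by rw [sub_self, norm_zero]; linarith)
  have hwn : ‖w‖ ≤ ‖a‖ + 10 * σ := by
    have e : w = (w - a) + a := by abel
    rw [e]
    exact (norm_add_le _ _).trans (by linarith)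
  -- the gap at `z`
  have d1 : dist (Ψ w) (Ψ a) ≤ 4 * σ := by
    rw [hw2]; exact (h.lip z hzb a hab).trans (by linarith)
  obtain ⟨y₁, a1, a2⟩ := h.colip w (Ψ a) (by linarith)
  have a3 : ‖y₁ - a‖ ≤ σ := hgap y₁ a1 (by
    have e : y₁ - a = (y₁ - w) + (w - a) := by abel
    rw [e]
    exact (norm_add_le _ _).trans (by linarith))
  have a4 : ‖w - a‖ ≤ 9 * σ := by
    have e : w - a = (y₁ - a) - (y₁ - w) := by abel
    rw [e]
    exact (norm_sub_le _ _).trans (by linarith)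
  have d2 : dist (Ψ w) (Ψ x) ≤ 2 * ‖z - x‖ := by rw [hw2]; exact h.lip z hzb x hxb
  obtain ⟨y, b1, b2⟩ := h.colip w (Ψ x) (by linarith)
  have b3 : y ∈ C x := (hC x y).2 ⟨by
    have e : y - a = (y - w) + (w - a) := by abel
    rw [e]
    exact lt_of_le_of_lt (norm_add_le _ _) (by linarith), b1⟩
  refine ⟨y, b3, e2 y b3 (w2 y b3) ?_ (by rw [w1 y b3, hw2])⟩
  rw [mem_ball, dist_comm, dist_eq_norm]
  linarith [w5 y b3]

theorem Cov.injOn [ProperSpace E] (h : Cov Ψ R) (hd : Deck Ψ R β) {R' : ℝ} (hR' : R' < R)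
    (hK : Fib Ψ R' K) {ρ : ℝ} (hρ : 0 < ρ) (h1 : 3 * ρ * (20 * (K + 1)) ^ (K + 1) ≤ R')
    (h2 : 8 * β * ρ * (20 * (K + 1)) ^ (K + 1) < 1) : InjOn Ψ (ball 0 ρ) := by
  classical
  intro a ha b hb hab
  by_contra hne
  rw [mem_ball_zero_iff] at ha hb
  set k : ℝ := K + 1 with hk
  have hk1 : 1 ≤ k := by rw [hk]; linarith [Nat.cast_nonneg (α := ℝ) K]
  set P : ℝ := (20 * k) ^ (K + 1) with hP
  have hP1 : 1 ≤ P := one_le_pow₀ (by linarith)
  obtain ⟨s, s1, s2, s3⟩ := hK.gap (a := a) (s₀ := 2 * ρ) (L := 20 * k) (by positivity)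
    (by linarith) (by rw [← hP]; nlinarith)
  rw [← hP] at s2
  have hs : 0 < s := by linarith
  set σ := k * s with hσd
  have hσ : 0 < σ := by positivity
  have hsσ : s ≤ σ := le_mul_of_one_le_left hs.le hk1
  have h20 : 20 * σ ≤ 2 * ρ * P := by rw [hσd]; linarith
  have hR1 : ‖a‖ + 20 * σ ≤ R' := by nlinarith
  have hin : ∀ y : E, ‖y - a‖ < 10 * σ → ‖y‖ ≤ R' := fun y hy => by
    have e : y = (y - a) + a := by abel
    rw [e]
    exact (norm_add_le _ _).trans (by linarith)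
  have hfin : ∀ x, {y | ‖y - a‖ < 10 * σ ∧ Ψ y = Ψ x}.Finite := fun x =>
    hK.finite (q := Ψ x) (fun y hy => hin y hy.1) (fun y hy => hy.2)
  set C : E → Finset E := fun x => (hfin x).toFinset with hCd
  have hC : ∀ x y, y ∈ C x ↔ ‖y - a‖ < 10 * σ ∧ Ψ y = Ψ x := fun x y => by
    rw [hCd]; simp
  have hgap : ∀ y, Ψ y = Ψ a → ‖y - a‖ ≤ 20 * σ → ‖y - a‖ ≤ s := fun y e1 e2 =>
    s3 y e1 (by rw [hσd] at e2; linarith)
  have hloc := fun x (hx : ‖x - a‖ ≤ σ) => cluster_local h hd hσ (lt_of_le_of_lt hR1 hR') hC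
    (fun y e1 e2 => (hgap y e1 e2).trans hsσ) hx
  set f : E → ℝ := fun x => ∑ y ∈ C x, ‖y - a‖ ^ 2 with hf
  -- local formulas
  have hform : ∀ x, ‖x - a‖ ≤ σ → ∃ τ : E → E → E, (∀ y ∈ C x, τ y x = y ∧
      ContDiffAt ℝ 2 (τ y) x ∧ ∀ u, ‖u‖ ≤ 2 * ‖fderiv ℝ (τ y) x u‖ ∧
        ‖fderiv ℝ (fderiv ℝ (τ y)) x u u‖ ≤ β * ‖u‖ ^ 2) ∧
      (∀ᶠ z in 𝓝 x, f z = ∑ y ∈ C x, ‖τ y z - a‖ ^ 2) ∧
      ∀ᶠ z in 𝓝 x, (C z).card = (C x).card := by
    intro x hx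
    obtain ⟨τ, t1, t2⟩ := hloc x hx
    have t3 : ∀ᶠ z in 𝓝 x, InjOn (fun y => τ y z) (C x) ∧ C z = (C x).image fun y => τ y z := by
      filter_upwards [t2] with z hz
      refine ⟨hz.1, Finset.ext fun w => ?_⟩
      rw [hz.2 w, Finset.mem_image]
    refine ⟨τ, t1, ?_, ?_⟩
    · filter_upwards [t3] with z hz
      show ∑ y ∈ C z, ‖y - a‖ ^ 2 = _
      rw [hz.2, Finset.sum_image fun y hy y' hy' he => hz.1 hy hy' he]
    · filter_upwards [t3] with z hz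
      rw [hz.2, Finset.card_image_of_injOn hz.1]
  have hBm : ∀ x, x ∈ closedBall a σ ↔ ‖x - a‖ ≤ σ := fun x => mem_closedBall_iff_norm
  have hfc : ∀ x ∈ closedBall a σ, ContinuousAt f x := fun x hx => by
    obtain ⟨τ, t1, t2, -⟩ := hform x ((hBm x).1 hx)
    refine ContinuousAt.congr ?_ (EventuallyEq.symm t2)
    exact tendsto_finsetSum _ fun y hy =>
      (((t1 y hy).2.1.continuousAt.sub continuousAt_const).norm.pow 2)
  have haB : a ∈ closedBall a σ := mem_closedBall_self hσ.le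
  obtain ⟨x, hx, hmin⟩ := (isCompact_closedBall a σ).exists_isMinOn ⟨a, haB⟩
    fun x hx => (hfc x hx).continuousWithinAt
  have hcard : (C x).card = (C a).card :=
    (convex_closedBall a σ).isPreconnected.constant (f := fun z => (C z).card) (fun z hz => by
      obtain ⟨τ, -, -, t3⟩ := hform z ((hBm z).1 hz)
      exact (continuousAt_const.congr (EventuallyEq.symm t3)).continuousWithinAt) hx haB
  have hself : ∀ z, ‖z - a‖ ≤ σ → z ∈ C z := fun z hz => (hC z z).2 ⟨by linarith, rfl⟩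
  have hbC : b ∈ C a := (hC a b).2 ⟨lt_of_le_of_lt (norm_sub_le _ _) (by linarith), hab.symm⟩
  have h2c : 1 < (C x).card := by
    rw [hcard]
    exact Finset.one_lt_card.2 ⟨a, hself a ((hBm a).1 haB), b, hbC, hne⟩
  obtain ⟨y, hy, hyx⟩ := Finset.exists_mem_ne h2c x
  have hfa : f a ≤ σ ^ 2 := by
    have c1 : (C a).card ≤ K := hK.finset (q := Ψ a) (fun w hw => hin w ((hC a w).1 hw).1)
      fun w hw => ((hC a w).1 hw).2
    have c2 : f a ≤ (C a).card • s ^ 2 := Finset.sum_le_card_nsmul _ _ _ fun w hw => by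
      have := hgap w ((hC a w).1 hw).2 (by linarith [((hC a w).1 hw).1])
      gcongr
    have c3 : ((C a).card : ℝ) ≤ k := by
      rw [hk]; exact_mod_cast Nat.le_succ_of_le c1
    rw [nsmul_eq_mul] at c2
    have c4 : k * s ^ 2 ≤ σ ^ 2 := by
      rw [hσd, mul_pow]; gcongr; nlinarith
    nlinarith [sq_nonneg s]
  have hyB : y ∈ closedBall a σ := by
    rw [hBm]
    have c1 : ‖y - a‖ ^ 2 ≤ f x :=
      Finset.single_le_sum (f := fun w => ‖w - a‖ ^ 2) (fun w _ => sq_nonneg _) hy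
    have c2 : f x ≤ f a := hmin haB
    exact (pow_le_pow_iff_left₀ (norm_nonneg _) hσ.le two_ne_zero).1 (by linarith)
  have hfy : f y = f x := by
    have : C y = C x := Finset.ext fun w => by rw [hC, hC, ((hC x y).1 hy).2]
    show ∑ w ∈ C y, _ = ∑ w ∈ C x, _
    rw [this]
  set v := y - x with hv
  have hv0 : 0 < ‖v‖ := norm_pos_iff.2 (sub_ne_zero.2 hyx)
  have hseg : ∀ t ∈ Icc (0 : ℝ) 1, x + t • v ∈ closedBall a σ := fun t ht =>
    (convex_closedBall a σ).add_smul_sub_mem hx hyB ht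
  have hl : Continuous fun t : ℝ => x + t • v := by fun_prop
  have hconv : StrictConvexOn ℝ (Icc (0 : ℝ) 1) fun t => f (x + t • v) := by
    refine strictConvexOn_of_deriv2_pos' (convex_Icc 0 1) (fun t ht =>
      (ContinuousAt.comp (f := fun t : ℝ => x + t • v) (hfc _ (hseg t ht))
        hl.continuousAt).continuousWithinAt) fun t ht => ?_
    have hz := (hBm _).1 (hseg t ht)
    obtain ⟨τ, t1, t2, -⟩ := hform _ hz
    have d1 := (D2.sum fun w (hw : w ∈ C (x + t • v)) =>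
      D2_sq (a := a) (t1 w hw).2.1).congr (ψ := fun t => f (x + t • v))
      (hl.continuousAt.eventually t2)
    rw [d1.deriv2]
    refine Finset.sum_pos (fun w hw => ?_) ⟨_, hself _ hz⟩
    obtain ⟨u1, -, u2⟩ := t1 w hw
    obtain ⟨u3, u4⟩ := u2 v
    have u5 := ((hC _ w).1 hw).1
    have u6 := abs_real_inner_le_norm (τ w (x + t • v) - a)
      (fderiv ℝ (fderiv ℝ (τ w)) (x + t • v) v v)
    rw [u1] at u6 ⊢
    have u7 : ‖w - a‖ * ‖fderiv ℝ (fderiv ℝ (τ w)) (x + t • v) v v‖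
        ≤ (ρ * P) * (β * ‖v‖ ^ 2) := by gcongr; linarith
    have u8 : ‖v‖ ^ 2 ≤ 4 * ‖fderiv ℝ (τ w) (x + t • v) v‖ ^ 2 := by nlinarith
    have u9 : (ρ * P) * (β * ‖v‖ ^ 2) < ‖v‖ ^ 2 / 8 := by
      have : 0 < ‖v‖ ^ 2 := by positivity
      nlinarith
    have u10 := neg_abs_le ⟪w - a, fderiv ℝ (fderiv ℝ (τ w)) (x + t • v) v v⟫
    have : 0 < ‖v‖ ^ 2 := by positivity
    linarith
  have c1 := hconv.2 (left_mem_Icc.2 zero_le_one) (right_mem_Icc.2 zero_le_one) zero_ne_one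
    (show (0 : ℝ) < 1 / 2 by norm_num) (show (0 : ℝ) < 1 / 2 by norm_num) (by norm_num)
  have c2 : f x ≤ f (x + ((1 / 2 : ℝ) • (0 : ℝ) + (1 / 2 : ℝ) • (1 : ℝ)) • v) :=
    hmin (hseg _ (by norm_num))
  have c3 : x + (1 : ℝ) • v = y := by rw [one_smul, hv]; abel
  simp only [zero_smul, add_zero, c3, hfy, smul_eq_mul] at c1 c2
  linarith

end Crest.Agent.N207.F

end
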