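import Crest.Agent.N207.F.InjB
import Crest.Agent.R249.B2Iso_474
import Crest.Agent.R247.Ms1_322

/-!
# Row 207, block F3 (helper26): an almost Euclidean immersion of a ball is a partial covering

`Imm g Γ Ψ R β`: `Ψ` is a local isometry `(ball 0 R, g) → M`, `1/2 ≤ g ≤ 2`, `|Γ| ≤ β`.
`Imm.cov`, `Imm.deck`, and `Imm.injOn`: injectivity on a definite ball from a volume lower bound.
-/

set_option autoImplicit false
set_option linter.unusedSectionVars false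

open Bundle Set Filter Topology MeasureTheory Metric
open scoped ContDiff Manifold ENNReal NNReal
open Crest.Agent.R244.CF (IsLC LocIsoAt)
open Crest.Agent.R226 Crest.Agent.R226.ChartMet842 Crest.Agent.R226.GeoBasic616
open Crest.GeometryTopology.MTW
open Crest.Agent.R249.B2Iso_474

noncomputable section

namespace Crest.Agent.N207.F

variable {n : ℕ}

local notation "𝔼" => EuclideanSpace ℝ (Fin n)

theorem enorm_le_two {A B : Type*} [SeminormedAddCommGroup A] [SeminormedAddCommGroup B]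
    {a : A} {b : B} (h : ‖a‖ ≤ 2 * ‖b‖) : ‖a‖ₑ ≤ ((2 : ℝ≥0) : ℝ≥0∞) * ‖b‖ₑ := by
  rw [← ofReal_norm, ← ofReal_norm]
  refine (ENNReal.ofReal_le_ofReal h).trans (le_of_eq ?_)
  rw [ENNReal.ofReal_mul zero_le_two]
  simp

theorem exists_cle {B : 𝔼 →L[ℝ] 𝔼} (h : Function.Surjective B) :
    ∃ A : 𝔼 ≃L[ℝ] 𝔼, (A : 𝔼 →L[ℝ] 𝔼) = B := by
  have hi : Function.Injective (B : 𝔼 →ₗ[ℝ] 𝔼) :=
    (LinearMap.injective_iff_surjective (f := (B : 𝔼 →ₗ[ℝ] 𝔼))).2 h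
  exact ⟨(LinearEquiv.ofBijective (B : 𝔼 →ₗ[ℝ] 𝔼) ⟨hi, h⟩).toContinuousLinearEquiv, by
    ext v; rfl⟩

/-- smooth local inverse -/
theorem exists_inv {φ : 𝔼 → 𝔼} {x : 𝔼} (hs : ∀ᶠ y in 𝓝 x, ContDiffAt ℝ ∞ φ y)
    (hsurj : ∀ᶠ y in 𝓝 x, Function.Surjective (fderiv ℝ φ y)) :
    ∃ ψ : 𝔼 → 𝔼, ψ (φ x) = x ∧ (∀ᶠ w in 𝓝 (φ x), ContDiffAt ℝ ∞ ψ w) ∧
      (∀ᶠ w in 𝓝 (φ x), φ (ψ w) = w) ∧ ∀ᶠ z in 𝓝 x, ψ (φ z) = z := by
  obtain ⟨A, hA⟩ := exists_cle hsurj.self_of_nhds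
  have h1 := hs.self_of_nhds
  have hd : HasFDerivAt φ (A : 𝔼 →L[ℝ] 𝔼) x := by
    rw [hA]; exact (h1.differentiableAt (by simp)).hasFDerivAt
  set e := h1.toOpenPartialHomeomorph φ hd (by simp) with he
  have hx : x ∈ e.source := h1.mem_toOpenPartialHomeomorph_source hd (by simp)
  have hco : (e : 𝔼 → 𝔼) = φ := rfl
  have ht : e.target ∈ 𝓝 (φ x) := e.open_target.mem_nhds (e.map_source hx)
  have hl : e.symm (φ x) = x := e.left_inv hx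
  have hc : Tendsto e.symm (𝓝 (φ x)) (𝓝 x) := e.tendsto_symm hx
  refine ⟨e.symm, hl, ?_, ?_, ?_⟩
  · filter_upwards [ht, hc.eventually hs, hc.eventually hsurj] with w h2 h3 h4
    obtain ⟨B, hB⟩ := exists_cle h4
    refine e.contDiffAt_symm h2 (f₀' := B) ?_ h3
    rw [hB]; exact (h3.differentiableAt (by simp)).hasFDerivAt
  · filter_upwards [ht] with w h2 using e.right_inv h2
  · filter_upwards [e.open_source.mem_nhds hx] with z h2 using e.left_inv h2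

theorem locIso_of_comp {U U' : Set 𝔼} {g g' : 𝔼 → 𝔼 →L[ℝ] 𝔼 →L[ℝ] ℝ}
    {Γ : 𝔼 → 𝔼 →L[ℝ] 𝔼 →L[ℝ] 𝔼} (hLC : IsLC U g Γ) {φ τ : 𝔼 → 𝔼} {x : 𝔼}
    (h1 : LocIsoAt U g U' g' φ x) (h2 : LocIsoAt U g U' g' φ (τ x))
    (hτ : ∀ᶠ z in 𝓝 x, ContDiffAt ℝ ∞ τ z) (he : ∀ᶠ z in 𝓝 x, φ (τ z) = φ z) :
    LocIsoAt U g U g τ x := by
  have hc := hτ.self_of_nhds.continuousAt
  have hiso : ∀ᶠ z in 𝓝 x, ∀ u v, g z u v = g (τ z) (fderiv ℝ τ z u) (fderiv ℝ τ z v) := by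
    filter_upwards [h1.iso, hc.eventually h2.iso, hc.eventually h2.smooth', hτ,
      he.eventually_nhds] with z a1 a2 a3 a4 a5 u v
    have a6 : fderiv ℝ φ z = (fderiv ℝ φ (τ z)).comp (fderiv ℝ τ z) := by
      rw [← fderiv_comp z (a3.differentiableAt (by simp)) (a4.differentiableAt (by simp))]
      exact (EventuallyEq.fderiv_eq (f₁ := φ ∘ τ) a5).symm
    rw [a1, a2, a5.self_of_nhds, a6]
    rfl
  refine ⟨h1.mem, h2.mem, hτ, ?_, hiso⟩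
  filter_upwards [hiso, hLC.isOpen.mem_nhds h1.mem] with z a1 a2
  refine (LinearMap.injective_iff_surjective (f := (fderiv ℝ τ z : 𝔼 →ₗ[ℝ] 𝔼))).1 ?_
  rw [← LinearMap.ker_eq_bot, LinearMap.ker_eq_bot']
  intro u hu
  by_contra hne
  have a3 := hLC.g_pos z a2 u hne
  have a4 : fderiv ℝ τ z u = 0 := hu
  rw [a1 u u, a4, map_zero] at a3
  exact lt_irrefl _ a3

variable {M : Type*} [MetricSpace M] [ChartedSpace (EuclideanSpace ℝ (Fin n)) M]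
  [IsManifold (𝓡 n) ∞ M]
  [RiemannianBundle (fun p : M => TangentSpace (𝓡 n) p)]
  [IsContMDiffRiemannianBundle (𝓡 n) ∞ (EuclideanSpace ℝ (Fin n))
    (fun p : M => TangentSpace (𝓡 n) p)]
  [IsRiemannianManifold (𝓡 n) M]

/-- an almost Euclidean isometric immersion of a ball (`C⁰` part) -/
structure Imm0 (g : 𝔼 → 𝔼 →L[ℝ] 𝔼 →L[ℝ] ℝ) (Γ : 𝔼 → 𝔼 →L[ℝ] 𝔼 →L[ℝ] 𝔼) (Ψ : 𝔼 → M)
    (R : ℝ) : Prop where
  lc : IsLC (ball 0 R) g Γ
  iso : ∀ x ∈ ball (0 : 𝔼) R, IsoM g Ψ x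
  lo : ∀ x ∈ ball (0 : 𝔼) R, ∀ u, ‖u‖ ^ 2 ≤ 2 * g x u u
  hi : ∀ x ∈ ball (0 : 𝔼) R, ∀ u, g x u u ≤ 2 * ‖u‖ ^ 2

theorem geo_of (G : GeoData n M) : Geo M := fun p q => by
  obtain ⟨v, h1, h2⟩ := G.surj p q
  refine ⟨fun t => G.ex p (t • v), by beta_reduce; rw [zero_smul, G.ex_zero],
    by beta_reduce; rw [one_smul, h1], fun s t => ?_⟩
  rw [← h2]
  exact G.dist_le p v s t

variable {g : EE n → EE n →L[ℝ] EE n →L[ℝ] ℝ} {Γ : EE n → EE n →L[ℝ] EE n →L[ℝ] EE n}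
  {Ψ : EE n → M} {R : ℝ}

theorem Imm0.sm (h : Imm0 g Γ Ψ R) {x : 𝔼} (hx : x ∈ ball (0 : 𝔼) R) :
    ContMDiffAt 𝓘(ℝ, 𝔼) (𝓡 n) ∞ Ψ x := (h.iso x hx).1.self_of_nhds

theorem Imm0.lip (h : Imm0 g Γ Ψ R) {x y : 𝔼} (hx : x ∈ ball (0 : 𝔼) R)
    (hy : y ∈ ball (0 : 𝔼) R) : dist (Ψ x) (Ψ y) ≤ 2 * ‖x - y‖ := by
  have h1 := R247.Ms322.edist_le_of_convex (I := 𝓡 n) (f := Ψ) (convex_ball (0 : 𝔼) R)
    isOpen_ball (fun z hz => ((h.sm hz).of_le (by simp)).contMDiffWithinAt) (C := 2)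
    (fun z hz v => by
      have a1 := h.hi z hz v
      rw [(h.iso z hz).2.self_of_nhds, real_inner_self_eq_norm_sq] at a1
      have a2 : ‖(mfderiv 𝓘(ℝ, 𝔼) (𝓡 n) Ψ z v : TangentSpace (𝓡 n) (Ψ z))‖ ≤ 2 * ‖v‖ :=
        (pow_le_pow_iff_left₀ (norm_nonneg _) (by positivity) two_ne_zero).1
          (by nlinarith [sq_nonneg ‖v‖])
      exact enorm_le_two a2) hx hy
  rw [edist_dist, edist_dist, dist_eq_norm] at h1
  have h2 : ((2 : ℝ≥0) : ℝ≥0∞) * ENNReal.ofReal ‖x - y‖ = ENNReal.ofReal (2 * ‖x - y‖) := by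
    rw [ENNReal.ofReal_mul zero_le_two]; simp
  rw [h2] at h1
  exact (ENNReal.ofReal_le_ofReal_iff (by positivity)).1 h1

/-- the local section -/
theorem Imm0.sec (h : Imm0 g Γ Ψ R) {x : 𝔼} (hx : x ∈ ball (0 : 𝔼) R) {q : M} (hq : Ψ x = q) :
    LocIsoAt (ball 0 R) g (chartAt 𝔼 q).target (gm (n := n) q) (FC Ψ q) x ∧
    (∀ᶠ z in 𝓝 x, Ψ z ∈ (chartAt 𝔼 q).source) ∧
    ∃ ψ : 𝔼 → 𝔼, ψ (FC (n := n) Ψ q x) = x ∧ (∀ᶠ w in 𝓝 (FC (n := n) Ψ q x), ContDiffAt ℝ ∞ ψ w) ∧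
      (∀ᶠ w in 𝓝 (FC (n := n) Ψ q x), FC Ψ q (ψ w) = w) ∧ ∀ᶠ z in 𝓝 x, ψ (FC Ψ q z) = z := by
  have hs : Ψ x ∈ (chartAt 𝔼 q).source := by rw [hq]; exact mem_chart_source _ _
  have hL := (h.iso x hx).locIso h.lc hx hs
  exact ⟨hL, (h.sm hx).continuousAt.eventually ((chartAt 𝔼 q).open_source.mem_nhds hs),
    exists_inv hL.smooth' hL.surj⟩

theorem Imm0.locinj (h : Imm0 g Γ Ψ R) {x : 𝔼} (hx : x ∈ ball (0 : 𝔼) R) :
    ∃ ε > 0, InjOn Ψ (ball x ε) := by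
  obtain ⟨-, -, ψ, -, -, -, h4⟩ := h.sec hx rfl
  obtain ⟨ε, hε, h5⟩ := Metric.eventually_nhds_iff_ball.1 h4
  refine ⟨ε, hε, fun a ha b hb hab => ?_⟩
  rw [← h5 a ha, ← h5 b hb]
  unfold FC
  rw [hab]

theorem Imm0.colip (G : GeoData n M) (h : Imm0 g Γ Ψ R) (x : 𝔼) (q : M)
    (hR : ‖x‖ + 2 * dist (Ψ x) q < R) : ∃ x', Ψ x' = q ∧ ‖x' - x‖ ≤ 2 * dist (Ψ x) q := by
  obtain ⟨v, hv1, hv2⟩ := G.surj (Ψ x) q
  set d := dist (Ψ x) q with hd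
  have hd0 : 0 ≤ d := dist_nonneg
  rcases hd0.eq_or_lt with hz | hpos
  · exact ⟨x, dist_eq_zero.1 hz.symm, by rw [sub_self, norm_zero]; positivity⟩
  set γ : ℝ → M := fun t => G.ex (Ψ x) (t • v) with hγ
  have hγs : ∀ t, ContMDiffAt 𝓘(ℝ, ℝ) (𝓡 n) ∞ γ t := contMDiff_ray G (Ψ x) v
  have hγc : Continuous γ := (contMDiff_ray G (Ψ x) v).continuous
  have hin : ∀ y : 𝔼, ‖y - x‖ ≤ 2 * d → y ∈ ball (0 : 𝔼) R := fun y hy => by
    rw [mem_ball_zero_iff]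
    have e : y = (y - x) + x := by abel
    rw [e]
    exact lt_of_le_of_lt (norm_add_le _ _) (by linarith)
  set S : Set ℝ := {s | ∃ x', Ψ x' = γ s ∧ ‖x' - x‖ ≤ 2 * d * s} with hS
  have hcl : IsClosed (S ∩ Icc 0 1) := by
    set K : Set (ℝ × 𝔼) := (Icc 0 1 ×ˢ closedBall x (2 * d)) ∩
      (fun p : ℝ × 𝔼 => (dist (Ψ p.2) (γ p.1), ‖p.2 - x‖ - 2 * d * p.1)) ⁻¹' ({0} ×ˢ Iic 0) with hK
    have hc : IsCompact (Icc (0 : ℝ) 1 ×ˢ closedBall x (2 * d)) :=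
      isCompact_Icc.prod (isCompact_closedBall _ _)
    have hΨ : ContinuousOn (fun p : ℝ × 𝔼 => Ψ p.2) (Icc (0 : ℝ) 1 ×ˢ closedBall x (2 * d)) :=
      fun p hp => (ContinuousAt.comp (f := fun p : ℝ × 𝔼 => p.2)
        (h.sm (hin _ (mem_closedBall_iff_norm.1 hp.2))).continuousAt
        continuousAt_snd).continuousWithinAt
    have hKc : IsCompact K := hc.of_isClosed_subset
      (ContinuousOn.preimage_isClosed_of_isClosed
        ((continuous_dist.comp_continuousOn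
          (hΨ.prodMk (hγc.comp continuous_fst).continuousOn)).prodMk (by fun_prop))
        hc.isClosed (isClosed_singleton.prod isClosed_Iic)) inter_subset_left
    have he : S ∩ Icc 0 1 = Prod.fst '' K := by
      ext s
      constructor
      · rintro ⟨⟨x', a1, a2⟩, a3⟩
        refine ⟨(s, x'), ⟨⟨a3, mem_closedBall_iff_norm.2 (a2.trans ?_)⟩, ?_, ?_⟩, rfl⟩
        · nlinarith [a3.2]
        · exact dist_eq_zero.2 a1
        · exact sub_nonpos.2 a2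
      · rintro ⟨⟨s, x'⟩, ⟨⟨a1, -⟩, a2, a3⟩, rfl⟩
        exact ⟨⟨x', dist_eq_zero.1 a2, sub_nonpos.1 a3⟩, a1⟩
    rw [he]
    exact (hKc.image continuous_fst).isClosed
  have h0 : (0 : ℝ) ∈ S := ⟨x, by simp only [hγ]; rw [zero_smul, G.ex_zero], by simp⟩
  have hsub : Icc (0 : ℝ) 1 ⊆ S := by
    refine hcl.Icc_subset_of_forall_mem_nhdsWithin h0 ?_
    rintro s ⟨⟨y, a1, a2⟩, a3⟩
    have hy := hin y (a2.trans (by nlinarith [a3.2]))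
    obtain ⟨hL, b0, ψ, b1, b2, b3, -⟩ := h.sec hy a1
    have hsrc : γ s ∈ (chartAt 𝔼 (γ s)).source := mem_chart_source _ _
    have hw : FC (n := n) Ψ (γ s) y = chartAt 𝔼 (γ s) (γ s) := by unfold FC; rw [a1]
    have c1 := hasDerivAt_chart (n := n) (γ s) ((hγs s).mdifferentiableAt (by simp)) hsrc
    rw [hw] at b1 b2 b3
    have c2 : DifferentiableAt ℝ (fun t => ψ (chartAt 𝔼 (γ s) (γ t))) s :=
      DifferentiableAt.comp (g := ψ) s (b2.self_of_nhds.differentiableAt (by simp))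
        c1.differentiableAt
    set c : ℝ → 𝔼 := fun t => ψ (chartAt 𝔼 (γ s) (γ t)) with hc
    have c3 : c s = y := b1
    have c4 : ∀ᶠ t in 𝓝 s, FC (n := n) Ψ (γ s) (c t) = chartAt 𝔼 (γ s) (γ t) :=
      c1.continuousAt.eventually b3
    have c5 : fderiv ℝ (FC (n := n) Ψ (γ s)) y (deriv c s) = dC (γ s) (γ s) (curveVel n γ s) := by
      have e1 : HasFDerivAt (FC (n := n) Ψ (γ s)) (fderiv ℝ (FC (n := n) Ψ (γ s)) y) (c s) := by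
        rw [c3]; exact hL.hasFDerivAt
      exact ((e1.comp_hasDerivAt s c2.hasDerivAt).congr_of_eventuallyEq
        (EventuallyEq.symm c4)).unique c1
    have c6 : g y (deriv c s) (deriv c s) = d ^ 2 := by
      rw [hL.iso.self_of_nhds, c5, hw, ← norm_sq_curveVel (γ s) hsrc, G.norm_vel, hv2]
    have c7 : ‖deriv c s‖ < 2 * d := by
      have := h.lo y hy (deriv c s)
      rw [c6] at this
      exact lt_of_pow_lt_pow_left₀ 2 (by positivity) (by nlinarith)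
    have c8 := (c2.hasDerivAt.hasDerivWithinAt (s := Ioi s)).limsup_norm_slope_le c7
    have c9 : Tendsto c (𝓝 s) (𝓝 y) := by rw [← c3]; exact c2.continuousAt
    have c10 : ∀ᶠ t in 𝓝 s, γ t ∈ (chartAt 𝔼 (γ s)).source :=
      hγc.continuousAt.eventually ((chartAt 𝔼 (γ s)).open_source.mem_nhds hsrc)
    filter_upwards [c8, self_mem_nhdsWithin, mem_nhdsWithin_of_mem_nhds c4,
      mem_nhdsWithin_of_mem_nhds c10, mem_nhdsWithin_of_mem_nhds (c9.eventually b0)]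
      with t e1 e2 e3 e4 e5
    have e6 : 0 < t - s := sub_pos.2 e2
    refine ⟨c t, (chartAt 𝔼 (γ s)).injOn e5 e4 e3, ?_⟩
    rw [Real.norm_of_nonneg e6.le, inv_mul_lt_iff₀ e6, c3] at e1
    have e : c t - x = (c t - y) + (y - x) := by abel
    rw [e]
    exact (norm_add_le _ _).trans (by linarith)
  obtain ⟨x', a1, a2⟩ := hsub ⟨zero_le_one, le_rfl⟩
  refine ⟨x', ?_, by linarith⟩
  rw [a1]
  simp only [hγ]
  rw [one_smul, hv1]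

theorem Imm0.cov (G : GeoData n M) (h : Imm0 g Γ Ψ R) : Cov Ψ R :=
  ⟨fun _ hx _ hy => h.lip hx hy, h.colip G, fun _ hx => h.locinj hx⟩

theorem Imm0.deck (h : Imm0 g Γ Ψ R) {β : ℝ} (hβ : 0 ≤ β)
    (hΓ : ∀ x ∈ ball (0 : 𝔼) R, ∀ u, ‖Γ x u u‖ ≤ β * ‖u‖ ^ 2) : Deck Ψ R (6 * β) := by
  intro x hx y hy hxy
  obtain ⟨hLx, a0, -⟩ := h.sec hx hxy
  obtain ⟨hLy, b0, ψ, b1, b2, b3, -⟩ := h.sec hy rfl
  have hw : FC (n := n) Ψ (Ψ y) y = FC Ψ (Ψ y) x := by unfold FC; rw [hxy]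
  rw [hw] at b1 b2 b3
  set τ : 𝔼 → 𝔼 := fun z => ψ (FC (n := n) Ψ (Ψ y) z) with hτ
  have t1 : τ x = y := b1
  have hc := hLx.smooth.continuousAt
  have t2 : ∀ᶠ z in 𝓝 x, ContDiffAt ℝ ∞ τ z := by
    filter_upwards [hc.eventually b2, hLx.smooth'] with z e1 e2 using ContDiffAt.comp z e1 e2
  have t3 : ∀ᶠ z in 𝓝 x, FC (n := n) Ψ (Ψ y) (τ z) = FC Ψ (Ψ y) z := hc.eventually b3
  have hL : LocIsoAt (ball 0 R) g (ball 0 R) g τ x :=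
    locIso_of_comp h.lc hLx (by rw [t1]; exact hLy) t2 t3
  have t4 : Tendsto τ (𝓝 x) (𝓝 y) := by rw [← t1]; exact t2.self_of_nhds.continuousAt
  have hi := hL.iso.self_of_nhds
  rw [t1] at hi
  have up : ∀ u, ‖fderiv ℝ τ x u‖ ≤ 2 * ‖u‖ := fun u => by
    have e1 := h.lo y hy (fderiv ℝ τ x u)
    have e2 := h.hi x hx u
    rw [hi] at e2
    exact (pow_le_pow_iff_left₀ (norm_nonneg _) (by positivity) two_ne_zero).1 (by nlinarith)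
  refine ⟨τ, t1, t2.self_of_nhds.of_le R244.CF.two_le_infty, ?_, fun u => ⟨?_, ?_⟩⟩
  · filter_upwards [t3, a0, t4.eventually b0] with z e1 e2 e3
    exact (chartAt 𝔼 (Ψ y)).injOn e3 e2 e1
  · have e1 := h.hi y hy (fderiv ℝ τ x u)
    have e2 := h.lo x hx u
    rw [hi] at e2
    exact (pow_le_pow_iff_left₀ (norm_nonneg _) (by positivity) two_ne_zero).1 (by nlinarith)
  · have e1 := hL.gamma h.lc h.lc u u
    rw [t1] at e1
    have e2 : fderiv ℝ (fderiv ℝ τ) x u u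
        = fderiv ℝ τ x (Γ x u u) - Γ y (fderiv ℝ τ x u) (fderiv ℝ τ x u) := by rw [e1]; abel
    rw [e2]
    have e3 := up (Γ x u u)
    have e4 := hΓ x hx u
    have e5 := hΓ y hy (fderiv ℝ τ x u)
    have e6 : ‖fderiv ℝ τ x u‖ ^ 2 ≤ (2 * ‖u‖) ^ 2 := by gcongr; exact up u
    have e7 : β * ‖fderiv ℝ τ x u‖ ^ 2 ≤ β * (2 * ‖u‖) ^ 2 := by gcongr
    refine (norm_sub_le _ _).trans ?_
    nlinarith

end Crest.Agent.N207.F

end
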