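import Crest.Agent.N207.F.Tm2
import Crest.Agent.N207.F.Nc8
import Crest.Agent.N207.AI.Par2
import Crest.Agent.N207.Sk.Defs

/-!
# Row 207, block F (helper7): `LOCF` from the static chart
-/

set_option autoImplicit false
set_option linter.unusedSectionVars false

open Set Metric Filter Topology Function MeasureTheory
open scoped ContDiff BigOperators Manifold
open Crest.GeometryTopology.CoordMetric Crest.GeometryTopology.ChartCurvature
open Crest.Agent.R202.Tens Crest.Agent.N207.Sk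

noncomputable section

namespace Crest.Agent.N207.F

theorem NC.mono_ball {n : ℕ} {G : MetricField n} {R R' : ℝ} (h : NC G (ball 0 R) R) (hR : 0 < R')
    (hle : R' ≤ R) : NC G (ball 0 R') R' :=
  NC.of_ball hR (riemOn_mono h.riem isOpen_ball (ball_subset_ball hle)) h.one
    fun x hx => h.rad x (ball_subset_ball hle hx)

theorem abs_bil_sub_le {n : ℕ} {A : Matrix (Fin n) (Fin n) ℝ} {ε : ℝ}
    (h : ∀ a b, |A a b - (1 : Matrix (Fin n) (Fin n) ℝ) a b| ≤ ε) (v : En n) :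
    |bil A v v - ‖v‖ ^ 2| ≤ n ^ 2 * ε * ‖v‖ ^ 2 := by
  have e : bil A v v - ‖v‖ ^ 2 = ∑ i, (∑ j, A i j * v i * v j -
      ∑ j, (1 : Matrix (Fin n) (Fin n) ℝ) i j * v i * v j) := by
    rw [← Ar.bil_one, bil_apply, bil_apply, ← Finset.sum_sub_distrib]
  rw [e]
  refine (Finset.abs_sum_le_sum_abs _ _).trans ?_
  have h1 : ∀ i, |∑ j, A i j * v i * v j - ∑ j, (1 : Matrix (Fin n) (Fin n) ℝ) i j * v i * v j| ≤
      n * (ε * ‖v‖ ^ 2) := by
    intro i
    rw [← Finset.sum_sub_distrib]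
    refine (Finset.abs_sum_le_sum_abs _ _).trans ?_
    have h2 : ∀ j, |A i j * v i * v j - (1 : Matrix (Fin n) (Fin n) ℝ) i j * v i * v j| ≤
        ε * ‖v‖ ^ 2 := by
      intro j
      have hi : |v i| ≤ ‖v‖ := by simpa using PiLp.norm_apply_le v i
      have hj : |v j| ≤ ‖v‖ := by simpa using PiLp.norm_apply_le v j
      have hε : 0 ≤ ε := (abs_nonneg _).trans (h i j)
      rw [← sub_mul, ← sub_mul, abs_mul, abs_mul, sq, ← mul_assoc]
      gcongr
      exact h i j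
    simpa using Finset.sum_le_sum fun j (_ : j ∈ Finset.univ) => h2 j
  refine (Finset.sum_le_sum fun i _ => h1 i).trans (le_of_eq ?_)
  simp only [Finset.sum_const, Finset.card_univ, Fintype.card_fin, nsmul_eq_mul]
  ring

variable {M : Type*} [TopologicalSpace M] [ChartedSpace E4 M] [IsManifold 𝓘(ℝ, E4) ∞ M]
  [T3Space M] [ConnectedSpace M] [MeasurableSpace M] [BorelSpace M]

/-- the static chart (helper26) -/
def StatCh (M : Type*) [TopologicalSpace M] [ChartedSpace E4 M] [IsManifold 𝓘(ℝ, E4) ∞ M]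
    [T3Space M] [ConnectedSpace M] [MeasurableSpace M] [BorelSpace M] : Prop :=
  ∀ K κ : ℝ, 0 < κ → ∃ c0 : ℝ, 0 < c0 ∧ c0 ≤ 1 / 8 ∧ ∀ (g : Met 4 M) (x : M) (r : ℝ), 0 < r →
    (∀ j ≤ 1, ∀ p ∈ g.ball x r, g.rm j p ≤ (K / r ^ (j + 2)) ^ 2) →
    (∀ p ∈ g.ball x r, ∀ s ∈ Ioc 0 r, κ * s ^ 4 ≤ g.vol.real (g.ball p s)) →
    ∃ φ : E4 → M, BallCh φ x (c0 * r) ∧ (∀ s ∈ Ioc 0 (c0 * r), φ '' ball 0 s = g.ball x s) ∧
      NC (g.pm φ) (ball 0 (c0 * r)) (c0 * r)

/-- two-sided static persistence of the curvature bounds -/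
theorem estat2 {F : Flow M} (hB : Base F) : ∃ ε0 c r0 : ℝ, 0 < ε0 ∧ 0 < c ∧ 0 < r0 ∧
    ∃ A : ℕ → ℝ, (∀ k, 0 < A k) ∧ ∀ t ∈ late F, ∀ x r, 0 < r → r ≤ r0 → en (F.m t) x r ≤ ε0 →
      ∀ y ∈ (F.m t).ball x (r / 2), ∀ s < F.T, |s - t| ≤ c * r → ∀ k,
        (F.m s).rm k y ≤ (A k / r ^ (k + 2)) ^ 2 ∧ (F.m s).rc k y ≤ (A k / r ^ (k + 1)) ^ 2 := by
  have hT : 0 < F.T / 2 := half_pos F.hT
  obtain ⟨e1, c1, r1, he1, hc1, hr1, h1⟩ := hB.e.stat _ hT
  obtain ⟨e2, c2, r2, he2, hc2, hr2, -, h2⟩ := hB.e.statB _ hT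
  choose C1 hC1 h1 using h1
  choose C2 hC2 h2 using h2
  refine ⟨min e1 e2, min c1 c2, min r1 r2, lt_min he1 he2, lt_min hc1 hc2, lt_min hr1 hr2,
    fun k => √(C1 k + C2 k), fun k => Real.sqrt_pos.2 (add_pos (hC1 k) (hC2 k)), ?_⟩
  intro t ht x r hr hrr he y hy s hs hst k
  have hy' : y ∈ F.hc.B t x (r / 2) := by
    have : (F.m t).d y x < r / 2 := hy
    show dist (α := Sl (F.m t)) x y < r / 2
    rwa [dist_comm]
  have he' : F.hc.en t x r = en (F.m t) x r := by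
    have : F.hc.B t x r = (F.m t).ball x r := by
      ext z
      show dist (α := Sl (F.m t)) x z < r ↔ dist (α := Sl (F.m t)) z x < r
      rw [dist_comm]
    rw [HC.en, this]; rfl
  have key : (F.m s).rm k y ≤ (C1 k + C2 k) / r ^ (4 + 2 * k) ∧
      (F.m s).rc k y ≤ (C1 k + C2 k) / r ^ (2 + 2 * k) := by
    have := hC1 k
    have := hC2 k
    rcases le_total t s with hts | hts
    · have h := h1 k t ht x r hr (hrr.trans (min_le_left _ _))
        (he' ▸ he.trans (min_le_left _ _)) y hy' s ⟨hts, hs⟩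
        ((le_abs_self _).trans (hst.trans (by gcongr; exact min_le_left _ _)))
      exact ⟨h.1.trans (by gcongr; linarith), h.2.trans (by gcongr; linarith)⟩
    · have h := h2 k t ht x r hr (hrr.trans (min_le_right _ _))
        (he' ▸ he.trans (min_le_right _ _)) y hy' s hts
        ((le_abs_self _).trans ((abs_sub_comm _ _).trans_le
          (hst.trans (by gcongr; exact min_le_right _ _))))
      exact ⟨h.1.trans (by gcongr; linarith), h.2.trans (by gcongr; linarith)⟩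
  have hs0 := Real.sq_sqrt (add_pos (hC1 k) (hC2 k)).le
  simp only [div_pow, hs0, ← pow_mul]
  rw [show (k + 2) * 2 = 4 + 2 * k by ring, show (k + 1) * 2 = 2 + 2 * k by ring]
  exact key

theorem locf_of {F : Flow M} (hS : StatCh M) (hB : Base F) : LOCF F := by
  obtain ⟨ε0, cE, r0, hε0, hcE, hr0, A, hA, hE⟩ := estat2 hB
  obtain ⟨κ, hκ, hvol⟩ := hB.c.lo _ (half_pos F.hT)
  obtain ⟨c0, hc0, hc08, hS⟩ := hS (A 0 + A 1) κ hκ
  set K : ℕ → ℝ := fun j => ∑ k ∈ Finset.range (j + 1), A k with hK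
  have hKA : ∀ {k j}, k ≤ j → A k ≤ K j := fun {k j} h =>
    Finset.single_le_sum (f := A) (fun k _ => (hA k).le) (Finset.mem_range.2 (by omega))
  have hK0 : ∀ j, 0 < K j := fun j => (hA 0).trans_le (hKA (Nat.zero_le j))
  choose C1 hC1 h1 using fun j => ck_bound 4 j (K j)
  choose Cs hCs h2 using time_bound 4 1 A fun j => C1 j * K j
  refine ⟨ε0, min r0 1, hε0, lt_min hr0 one_pos, fun m η hη => ?_⟩
  obtain ⟨c, hc, hc1, hc2, hc3, hc4⟩ : ∃ c : ℝ, 0 < c ∧ c ≤ c0 / 2 ∧ c ≤ cE ∧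
      c * (C1 0 * K 0) ≤ 1 / 32 ∧ c * Cs m ≤ η := by
    have h3 : ∀ᶠ c in 𝓝[>] (0 : ℝ), c ≤ c0 / 2 ∧ c ≤ cE ∧ c * (C1 0 * K 0) ≤ 1 / 32 ∧
        c * Cs m ≤ η := by
      have hl : ∀ a b : ℝ, 0 < b → ∀ᶠ c in 𝓝 (0 : ℝ), c * a ≤ b := fun a b hb =>
        (((continuous_id.mul continuous_const).tendsto' 0 0 (by simp)).eventually
          (ge_mem_nhds hb) :)
      refine nhdsWithin_le_nhds ?_
      filter_upwards [hl 1 _ (half_pos hc0), hl 1 _ hcE, hl (C1 0 * K 0) (1 / 32) (by norm_num),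
        hl (Cs m) η hη] with c a1 a2 a3 a4
      exact ⟨by simpa using a1, by simpa using a2, a3, a4⟩
    obtain ⟨c, h4, h5⟩ := (h3.and self_mem_nhdsWithin).exists
    exact ⟨c, h5, h4⟩
  have hc5 : c ≤ 1 := by linarith
  have hcc : c ^ 2 ≤ c := by nlinarith
  refine ⟨c, Cs, hc, by linarith, fun t ht x r hr hrr he => ?_⟩
  have hr1 : r ≤ 1 := hrr.trans (min_le_right _ _)
  have hE := hE t ht x r hr (hrr.trans (min_le_left _ _)) he
  obtain ⟨φ, hφ, him, hnc⟩ := hS (F.m t) x (r / 2) (half_pos hr) (fun j hj p hp => by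
      refine (hE p hp t ht.2 (by simpa using by positivity) j).1.trans ?_
      have := hA 0
      have := hA 1
      have h3 : A j ≤ A 0 + A 1 := by interval_cases j <;> linarith
      have := hA j
      gcongr
      linarith) (fun p _ s hs => by
      have h3 := hvol t ht p s ⟨hs.1, by linarith [hs.2]⟩
      have : F.hc.B t p s = (F.m t).ball p s := by
        ext z
        show dist (α := Sl (F.m t)) p z < s ↔ dist (α := Sl (F.m t)) z p < s
        rw [dist_comm]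
      rwa [this] at h3)
  have hρ : 0 < c * r := by positivity
  have hle : c * r ≤ c0 * (r / 2) := by nlinarith
  have hsub := ball_subset_ball (x := (0 : E4)) hle
  have hP : Par φ (ball 0 (c * r)) := hφ.par.mono isOpen_ball hsub
  have hN := hnc.mono_ball hρ hle
  have hin : ∀ y ∈ ball (0 : E4) (c * r), φ y ∈ (F.m t).ball x (r / 2) := by
    intro y hy
    have h3 : φ y ∈ (F.m t).ball x (c * r) := him _ ⟨hρ, hle⟩ ▸ mem_image_of_mem φ hy
    have h4 : (F.m t).d (φ y) x < c * r := h3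
    show (F.m t).d (φ y) x < r / 2
    nlinarith
  refine ⟨φ, ⟨hφ.ctr, hP, hφ.inj.mono hsub⟩, fun s hs => him s ⟨hs.1, hs.2.trans hle⟩,
    fun s hs hst y hy => ?_⟩
  have hT4 : 0 < F.T / 4 := by have := F.hT; positivity
  have hwin : ∀ σ ∈ uIcc t s, σ ∈ Ioo 0 F.T ∧ |σ - t| ≤ cE * r := by
    intro σ hσ
    refine ⟨(ordConnected_Ioo.uIcc_subset ⟨(half_pos F.hT).trans_le ht.1, ht.2⟩
      ⟨hT4.trans hs.1, hs.2⟩) hσ, le_trans ?_ (hst.trans (by gcongr; linarith))⟩
    simpa [Real.dist_eq, abs_sub_comm] using Real.dist_le_of_mem_uIcc hσ left_mem_uIcc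
  have hjet : ∀ j, ∀ z ∈ ball (0 : E4) (c * r), ∀ a b, (c * r) ^ j * ‖iteratedFDeriv ℝ j
      (fun y => (F.m t).pm φ y a b - (1 : Matrix (Fin 4) (Fin 4) ℝ) a b) z‖ ≤
        C1 j * K j * c ^ 2 := by
    intro j z hz a b
    have hKj := hK0 j
    have h3 := h1 j hN (δ := K j * c ^ 2) (by positivity)
      (mul_le_of_le_one_right hKj.le (hcc.trans hc5)) (fun k hk w hw => by
        rw [← hP.par_rm _ k hw]
        refine (hE _ (hin w hw) t ht.2 (by simpa using by positivity) k).1.trans ?_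
        have := hA k
        refine pow_le_pow_left₀ (by positivity) ?_ 2
        rw [div_le_div_iff₀ (by positivity) (by positivity), mul_pow, pow_add c]
        have h4 : c ^ k ≤ 1 := pow_le_one₀ hc.le hc5
        have h5 : A k * c ^ k ≤ K j := (mul_le_of_le_one_right this.le h4).trans (hKA hk)
        calc A k * (c ^ k * c ^ 2 * r ^ (k + 2)) = A k * c ^ k * c ^ 2 * r ^ (k + 2) := by ring
          _ ≤ _ := by gcongr) j le_rfl z hz a b
    rw [le_div_iff₀ (by positivity), mul_comm] at h3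
    exact h3.trans_eq (by ring)
  have hclose : ∀ z ∈ ball (0 : E4) (c * r), ∀ v : E4,
      |bil ((F.m t).pm φ z) v v - ‖v‖ ^ 2| ≤ 1 / 2 * ‖v‖ ^ 2 := by
    intro z hz v
    refine (abs_bil_sub_le (ε := 1 / 32) (fun a b => ?_) v).trans (le_of_eq (by norm_num))
    have h3 := hjet 0 z hz a b
    rw [pow_zero, one_mul, norm_iteratedFDeriv_zero, Real.norm_eq_abs] at h3
    have := mul_nonneg (hC1 0) (hK0 0).le
    nlinarith
  let d : TDat 4 1 A fun j => C1 j * K j :=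
    { D := hN.dom, G := fun σ => (F.m σ).pm φ, J := Ioo 0 F.T, t := t, s := s, τ := c ^ 2 * r
      δ := c ^ 2, fl := hP.cflow F, sub := fun σ hσ => (hwin σ hσ).1, hτ := by positivity
      le := hst, hδ := by positivity, hK := hcc.trans hc5
      ric := fun j σ hσ z hz => by
        rw [← hP.par_rc _ j hz]
        refine (hE _ (hin z hz) σ (hwin σ hσ).1.2 (hwin σ hσ).2 j).2.trans ?_
        have := hA j
        refine pow_le_pow_left₀ (by positivity) ?_ 2
        show _ ≤ A j * c ^ 2 / (c ^ 2 * r * (c * r) ^ j)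
        rw [div_le_div_iff₀ (by positivity) (by positivity), mul_pow, pow_succ r j]
        have h4 : c ^ j ≤ 1 := pow_le_one₀ hc.le hc5
        calc A j * (c ^ 2 * r * (c ^ j * r ^ j)) = A j * c ^ 2 * (r ^ j * r) * c ^ j := by ring
          _ ≤ _ := mul_le_of_le_one_right (by positivity) h4
      lo := fun z hz v => by linarith [(abs_le.1 (hclose z hz v)).1]
      up := fun z hz v => by nlinarith [(abs_le.1 (hclose z hz v)).2, sq_nonneg ‖v‖]
      jet := hjet }
  have hout : ∀ k, ∀ j ≤ k, ∀ a b,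
      ‖iteratedFDeriv ℝ j (dv ((F.m s).pm φ) a b) y‖ * (c * r) ^ j ≤ Cs k * c ^ 2 :=
    fun k j hj a b => (mul_comm _ _).trans_le (h2 k d j hj y hy a b)
  refine ⟨fun k hk a b => (hout m k hk a b).trans ?_, fun k a b => (hout k k le_rfl a b).trans ?_⟩
  · have := hCs m
    nlinarith
  · exact mul_le_mul_of_nonneg_left (hcc.trans hc5) (hCs k)

end Crest.Agent.N207.F
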