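import Crest.Agent.N207.F.Stat
import Crest.Agent.N207.F.Loc

/-! # Row 207, block F: the statement `LOCF` -/

set_option autoImplicit false

open scoped ContDiff Manifold

namespace Crest.Agent.N207.F

variable {M : Type*} [TopologicalSpace M] [ChartedSpace E4 M] [IsManifold 𝓘(ℝ, E4) ∞ M]
  [T3Space M] [ConnectedSpace M] [MeasurableSpace M] [BorelSpace M] [CompactSpace M]

theorem statCh : StatCh M := fun K κ hκ => by
  obtain ⟨c, h0, h1, hc⟩ := static_chart K κ hκ
  refine ⟨c, h0, h1, fun g x r hr hK hV => ?_⟩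
  obtain ⟨φ, -, a1, a2, a3⟩ := hc g x r hr hK hV
  exact ⟨φ, a1, fun s _ => a2 s, a3⟩

theorem locf {F : Flow M} (hB : Sk.Base F) : Sk.LOCF F := locf_of statCh hB

end Crest.Agent.N207.F
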