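import Crest.Agent.N207.Tens

/-!
# Row 207, block F1 (helper7): uniformly bounded families and the radial ODE lemma

`Bd r m f`: the family `f i` (smooth on the star-shaped domain `r i`) has scale invariant partial derivatives of
order `≤ m` bounded uniformly in `i`.  `Bd.ode`: a solution of `X u + c u = L u + f`
(`X` the Euler field, `|L| ≤ C |x| / r`) lies in `Bd r m` when `L` and `f` do.
-/

set_option autoImplicit false

open Set Metric Filter Topology
open scoped ContDiff BigOperators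
open Crest.GeometryTopology.CoordMetric

noncomputable section

namespace Crest.Agent.N207.F

variable {n : ℕ}

/-- an open star-shaped domain inside the ball of radius `ρ` -/
structure Dom (n : ℕ) where
  U : Set (En n)
  ρ : ℝ
  op : IsOpen U
  star : StarConvex ℝ 0 U
  zero : (0 : En n) ∈ U
  sub : U ⊆ ball 0 ρ

theorem Dom.pos (r : Dom n) : 0 < r.ρ := by simpa using r.sub r.zero

theorem Dom.norm_lt (r : Dom n) {x : En n} (hx : x ∈ r.U) : ‖x‖ < r.ρ :=
  mem_ball_zero_iff.1 (r.sub hx)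

/-- smooth on the domain -/
abbrev Sm (r : Dom n) (f : En n → ℝ) : Prop := ContDiffOn ℝ ∞ f r.U

theorem Sm.cda {r : Dom n} {f : En n → ℝ} (hf : Sm r f) {x : En n} (hx : x ∈ r.U) :
    ContDiffAt ℝ ∞ f x := hf.contDiffAt (r.op.mem_nhds hx)

theorem Sm.da {r : Dom n} {f : En n → ℝ} (hf : Sm r f) {x : En n} (hx : x ∈ r.U) :
    DifferentiableAt ℝ f x := (hf.cda hx).differentiableAt (by simp)

theorem Sm.pd {r : Dom n} {f : En n → ℝ} (hf : Sm r f) (k : Fin n) : Sm r (pderiv k f) := by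
  have h : ContDiffOn ℝ ∞ (fderiv ℝ f) r.U := hf.fderiv_of_isOpen r.op (by simp)
  exact h.clm_apply contDiffOn_const

theorem sm_coord (r : Dom n) (k : Fin n) : Sm r (fun x : En n => x k) :=
  (EuclideanSpace.proj k : En n →L[ℝ] ℝ).contDiff.contDiffOn

theorem pderiv_congr {r : Dom n} {f g : En n → ℝ} (h : EqOn f g r.U) (k : Fin n) :
    EqOn (pderiv k f) (pderiv k g) r.U := by
  intro x hx
  have : f =ᶠ[𝓝 x] g := h.eventuallyEq_of_mem (r.op.mem_nhds hx)
  simp only [pderiv, this.fderiv_eq]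

theorem pd_add {f g : En n → ℝ} {x : En n} (hf : DifferentiableAt ℝ f x)
    (hg : DifferentiableAt ℝ g x) (k : Fin n) :
    pderiv k (fun y => f y + g y) x = pderiv k f x + pderiv k g x := by
  simp only [pderiv, fderiv_fun_add hf hg, add_apply]

theorem pd_sub {f g : En n → ℝ} {x : En n} (hf : DifferentiableAt ℝ f x)
    (hg : DifferentiableAt ℝ g x) (k : Fin n) :
    pderiv k (fun y => f y - g y) x = pderiv k f x - pderiv k g x := by
  simp only [pderiv, fderiv_fun_sub hf hg, sub_apply]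

theorem pd_mul {f g : En n → ℝ} {x : En n} (hf : DifferentiableAt ℝ f x)
    (hg : DifferentiableAt ℝ g x) (k : Fin n) :
    pderiv k (fun y => f y * g y) x = pderiv k f x * g x + f x * pderiv k g x := by
  simp only [pderiv, fderiv_fun_mul hf hg, add_apply,
    smul_apply, smul_eq_mul]
  ring

theorem pd_const (c : ℝ) (x : En n) (k : Fin n) : pderiv k (fun _ => c) x = 0 := by
  simp [pderiv]

theorem pd_sum {κ : Type*} (s : Finset κ) {f : κ → En n → ℝ} {x : En n}
    (hf : ∀ a ∈ s, DifferentiableAt ℝ (f a) x) (k : Fin n) :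
    pderiv k (fun y => ∑ a ∈ s, f a y) x = ∑ a ∈ s, pderiv k (f a) x := by
  simp only [pderiv, fderiv_fun_sum hf, sum_apply]

theorem pd_coord (j : Fin n) (x : En n) (k : Fin n) :
    pderiv k (fun y : En n => y j) x = if j = k then 1 else 0 := by
  have : (fun y : En n => y j) = (EuclideanSpace.proj j : En n →L[ℝ] ℝ) := rfl
  rw [pderiv, this, ContinuousLinearMap.fderiv]
  simp

theorem pd_comm {r : Dom n} {f : En n → ℝ} (hf : Sm r f) {x : En n} (hx : x ∈ r.U)
    (i j : Fin n) : pderiv i (pderiv j f) x = pderiv j (pderiv i f) x := by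
  have h2 : ContDiffAt ℝ 2 f x := (hf.cda hx).of_le (by norm_cast)
  have hs := h2.isSymmSndFDerivAt (by simp)
  have hd : DifferentiableAt ℝ (fderiv ℝ f) x :=
    (h2.fderiv_right (m := 1) (by norm_num)).differentiableAt (by simp)
  have e : ∀ u v : En n, fderiv ℝ (fun y => fderiv ℝ f y v) x u = fderiv ℝ (fderiv ℝ f) x u v := by
    intro u v
    rw [fderiv_clm_apply hd (differentiableAt_const _)]
    simp
  unfold pderiv
  rw [e, e, hs.eq]

theorem fderiv_eq_sum (f : En n → ℝ) (x v : En n) :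
    fderiv ℝ f x v = ∑ j, v j * pderiv j f x := by
  conv_lhs => rw [show v = ∑ j, v j • EuclideanSpace.single j (1 : ℝ) from by
    ext k; simp [Pi.single_apply]]
  simp [pderiv, map_sum]

/-- the Euler derivative `X f = Σ xʲ ∂ⱼ f` -/
def eul (f : En n → ℝ) (x : En n) : ℝ := ∑ j, x j * pderiv j f x

theorem eul_eq (f : En n → ℝ) (x : En n) : eul f x = fderiv ℝ f x x := (fderiv_eq_sum f x x).symm

theorem pd_eul {r : Dom n} {f : En n → ℝ} (hf : Sm r f) {x : En n} (hx : x ∈ r.U)
    (k : Fin n) : pderiv k (eul f) x = eul (pderiv k f) x + pderiv k f x := by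
  unfold eul
  rw [pd_sum (f := fun j y => y j * pderiv j f y) _
    (fun j _ => ((sm_coord r j).da hx).mul ((hf.pd j).da hx))]
  simp only [pd_mul ((sm_coord r _).da hx) ((hf.pd _).da hx), pd_coord, Finset.sum_add_distrib,
    ite_mul, one_mul, zero_mul, Finset.sum_ite_eq', Finset.mem_univ, if_true, pd_comm hf hx k]
  ring

theorem hasDerivAt_ray {f : En n → ℝ} {y : En n} {t : ℝ} (hf : DifferentiableAt ℝ f (t • y)) :
    HasDerivAt (fun s : ℝ => f (s • y)) (fderiv ℝ f (t • y) y) t := by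
  have h1 : HasDerivAt (fun s : ℝ => s • y) y t := by
    simpa using (hasDerivAt_id t).smul_const y
  exact hf.hasFDerivAt.comp_hasDerivAt t h1

theorem ray_mem {r : Dom n} {y : En n} (hy : y ∈ r.U) {t : ℝ} (ht : t ∈ Icc (0 : ℝ) 1) :
    t • y ∈ r.U := by
  exact r.star.smul_mem hy ht.1 ht.2

/-- derivative of `t ^ (c+1) u (t y)` along a ray -/
theorem hasDerivAt_pow_ray {f : En n → ℝ} {y : En n} {t : ℝ} (c : ℕ)
    (hf : DifferentiableAt ℝ f (t • y)) :
    HasDerivAt (fun s : ℝ => s ^ (c + 1) * f (s • y))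
      (t ^ c * (eul f (t • y) + (c + 1 : ℕ) * f (t • y))) t := by
  have h := (hasDerivAt_pow (c + 1) t).mul (hasDerivAt_ray hf)
  refine h.congr_deriv ?_
  rw [eul_eq, map_smul, smul_eq_mul]
  simp only [Nat.add_sub_cancel]
  ring

section Class

variable {ι : Type*} (r : ι → Dom n)

/-- uniformly bounded on the domains -/
def Bd0 (f : ι → En n → ℝ) : Prop := ∃ C : ℝ, ∀ i, ∀ x ∈ (r i).U, |f i x| ≤ C

/-- scale invariant partial derivative -/
def D (k : Fin n) (f : ι → En n → ℝ) : ι → En n → ℝ := fun i x => (r i).ρ * pderiv k (f i) x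

/-- smooth with scale invariant derivatives of order `≤ m` uniformly bounded -/
def Bd : ℕ → (ι → En n → ℝ) → Prop
  | 0, f => (∀ i, Sm (r i) (f i)) ∧ Bd0 r f
  | m + 1, f => ((∀ i, Sm (r i) (f i)) ∧ Bd0 r f) ∧ ∀ k, Bd m (D r k f)

variable {r}

theorem Bd.zero {m : ℕ} {f : ι → En n → ℝ} (h : Bd r m f) : Bd r 0 f := by
  cases m with
  | zero => exact h
  | succ m => exact h.1

theorem Bd.sm {m : ℕ} {f : ι → En n → ℝ} (h : Bd r m f) (i : ι) : Sm (r i) (f i) := h.zero.1 i

theorem Bd.bd0 {m : ℕ} {f : ι → En n → ℝ} (h : Bd r m f) : Bd0 r f := h.zero.2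

theorem Bd.pred {m : ℕ} : ∀ {f : ι → En n → ℝ}, Bd r (m + 1) f → Bd r m f := by
  induction m with
  | zero => exact fun h => h.zero
  | succ m ih => exact fun h => ⟨h.1, fun k => ih (h.2 k)⟩

theorem Bd.mono {m m' : ℕ} {f : ι → En n → ℝ} (h : Bd r m' f) (hm : m ≤ m') : Bd r m f := by
  induction hm with
  | refl => exact h
  | step _ ih => exact ih h.pred

theorem Bd.congr {m : ℕ} : ∀ {f g : ι → En n → ℝ}, Bd r m f →
    (∀ i, EqOn (g i) (f i) (r i).U) → Bd r m g := by
  have h0 : ∀ {f g : ι → En n → ℝ}, Bd r 0 f →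
      (∀ i, EqOn (g i) (f i) (r i).U) → Bd r 0 g := by
    intro f g hf h
    obtain ⟨C, hC⟩ := hf.2
    exact ⟨fun i => (hf.1 i).congr (h i), C, fun i x hx => by rw [h i hx]; exact hC i x hx⟩
  induction m with
  | zero => exact h0
  | succ m ih =>
    intro f g hf h
    refine ⟨h0 hf.1 h, fun k => ih (hf.2 k) fun i x hx => ?_⟩
    simp only [D, pderiv_congr (h i) k hx]

theorem Bd.add {m : ℕ} : ∀ {f g : ι → En n → ℝ}, Bd r m f → Bd r m g →
    Bd r m (fun i x => f i x + g i x) := by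
  have h0 : ∀ {f g : ι → En n → ℝ}, Bd r 0 f → Bd r 0 g → Bd r 0 (fun i x => f i x + g i x) := by
    intro f g hf hg
    obtain ⟨C, hC⟩ := hf.2
    obtain ⟨C', hC'⟩ := hg.2
    exact ⟨fun i => (hf.1 i).add (hg.1 i), C + C', fun i x hx =>
      (abs_add_le _ _).trans (add_le_add (hC i x hx) (hC' i x hx))⟩
  induction m with
  | zero => exact h0
  | succ m ih =>
    intro f g hf hg
    refine ⟨h0 hf.1 hg.1, fun k => (ih (hf.2 k) (hg.2 k)).congr fun i x hx => ?_⟩
    simp only [D, pd_add ((hf.sm i).da hx) ((hg.sm i).da hx)]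
    ring

theorem Bd.mul {m : ℕ} : ∀ {f g : ι → En n → ℝ}, Bd r m f → Bd r m g →
    Bd r m (fun i x => f i x * g i x) := by
  have h0 : ∀ {f g : ι → En n → ℝ}, Bd r 0 f → Bd r 0 g → Bd r 0 (fun i x => f i x * g i x) := by
    intro f g hf hg
    obtain ⟨C, hC⟩ := hf.2
    obtain ⟨C', hC'⟩ := hg.2
    refine ⟨fun i => (hf.1 i).mul (hg.1 i), C * C', fun i x hx => ?_⟩
    rw [abs_mul]
    exact mul_le_mul (hC i x hx) (hC' i x hx) (abs_nonneg _) ((abs_nonneg _).trans (hC i x hx))
  induction m with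
  | zero => exact h0
  | succ m ih =>
    intro f g hf hg
    refine ⟨h0 hf.1 hg.1, fun k =>
      ((ih (hf.2 k) hg.pred).add (ih hf.pred (hg.2 k))).congr fun i x hx => ?_⟩
    simp only [D, pd_mul ((hf.sm i).da hx) ((hg.sm i).da hx)]
    ring

/-- a bounded family of constants -/
theorem Bd.const {m : ℕ} : ∀ {c : ι → ℝ}, (∃ C, ∀ i, |c i| ≤ C) →
    Bd r m (fun i (_ : En n) => c i) := by
  have h0 : ∀ {c : ι → ℝ}, (∃ C, ∀ i, |c i| ≤ C) → Bd r 0 (fun i (_ : En n) => c i) :=
    fun ⟨C, hC⟩ => ⟨fun _ => contDiffOn_const, C, fun i _ _ => hC i⟩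
  induction m with
  | zero => exact h0
  | succ m ih =>
    intro c hc
    refine ⟨h0 hc, fun k => (ih (c := fun _ => 0) ⟨0, by simp⟩).congr fun i x _ => ?_⟩
    simp only [D, pd_const, mul_zero]

theorem Bd.const' {m : ℕ} (c : ℝ) : Bd r m (fun _ (_ : En n) => c) := Bd.const ⟨|c|, fun _ => le_rfl⟩

theorem Bd.neg {m : ℕ} {f : ι → En n → ℝ} (hf : Bd r m f) : Bd r m (fun i x => -f i x) :=
  ((Bd.const' (-1)).mul hf).congr fun i x _ => by simp

theorem Bd.sub {m : ℕ} {f g : ι → En n → ℝ} (hf : Bd r m f) (hg : Bd r m g) :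
    Bd r m (fun i x => f i x - g i x) :=
  (hf.add hg.neg).congr fun i x _ => by simp [sub_eq_add_neg]

theorem Bd.sum {m : ℕ} {κ : Type*} (s : Finset κ) {f : κ → ι → En n → ℝ}
    (hf : ∀ a ∈ s, Bd r m (f a)) : Bd r m (fun i x => ∑ a ∈ s, f a i x) := by
  classical
  induction s using Finset.induction_on with
  | empty => simpa using Bd.const' 0
  | insert a s ha ih =>
    simp only [Finset.sum_insert ha]
    exact (hf a (Finset.mem_insert_self _ _)).add
      (ih fun b hb => hf b (Finset.mem_insert_of_mem hb))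

theorem abs_coord_div_le {ρ : ℝ} (hρ : 0 < ρ) (x : En n) (k : Fin n) :
    |x k / ρ| ≤ ‖x‖ / ρ := by
  rw [abs_div, abs_of_pos hρ]
  exact div_le_div_of_nonneg_right (by simpa using PiLp.norm_apply_le x k) hρ.le

theorem Bd.coord {m : ℕ} (k : Fin n) :
    Bd r m (fun i (x : En n) => x k / (r i).ρ) := by
  have h0 : Bd r 0 (fun i (x : En n) => x k / (r i).ρ) := by
    refine ⟨fun i => (sm_coord _ k).div_const _, 1, fun i x hx => ?_⟩
    refine (abs_coord_div_le (r i).pos x k).trans ?_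
    rw [div_le_one (r i).pos]
    exact ((r i).norm_lt hx).le
  cases m with
  | zero => exact h0
  | succ m =>
    refine ⟨h0, fun j => (Bd.const' (if k = j then 1 else 0)).congr fun i x hx => ?_⟩
    have : pderiv j (fun x : En n => x k / (r i).ρ) x = (if k = j then 1 else 0) / (r i).ρ := by
      simp only [div_eq_mul_inv]
      rw [pd_mul ((sm_coord _ k).da hx) (differentiableAt_const _), pd_coord, pd_const]
      ring
    simp only [D, this]
    field_simp [(r i).pos.ne']

end Class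

end Crest.Agent.N207.F
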