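import Crest.Agent.N207.F.Nc1

/-!
# Row 207, block F1 (helper7): the radial ODE lemma and the passage to `iteratedFDeriv`
-/

set_option autoImplicit false

open Set Metric Filter Topology
open scoped ContDiff BigOperators
open Crest.GeometryTopology.CoordMetric

noncomputable section

namespace Crest.Agent.N207.F

variable {n : ℕ}

/-- `C⁰` bound for `X u + (c+1) u = L u + f`. -/
theorem ode0 {κ : Type*} [Fintype κ] {ρ : Dom n} {A F : ℝ} (hA : 0 ≤ A) (hF : 0 ≤ F) (c : ℕ)
    {u f : κ → En n → ℝ} {L : κ → κ → En n → ℝ} (hu : ∀ a, Sm ρ (u a))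
    (heq : ∀ a, ∀ x ∈ ρ.U,
      eul (u a) x + (c + 1 : ℕ) * u a x = ∑ b, L a b x * u b x + f a x)
    (hL : ∀ a b, ∀ x ∈ ρ.U, |L a b x| ≤ A * (‖x‖ / ρ.ρ))
    (hf : ∀ a, ∀ x ∈ ρ.U, |f a x| ≤ F) (a : κ) {y : En n}
    (hy : y ∈ ρ.U) : |u a y| ≤ gronwallBound 0 (Fintype.card κ * A) F 1 := by
  set v : ℝ → κ → ℝ := fun t a => t ^ (c + 1) * u a (t • y) with hv
  set v' : ℝ → κ → ℝ := fun t a => t ^ c * (eul (u a) (t • y) + (c + 1 : ℕ) * u a (t • y))
    with hv'
  have hd : ∀ t ∈ Icc (0 : ℝ) 1, HasDerivAt v (v' t) t := fun t ht =>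
    hasDerivAt_pi.2 fun a => hasDerivAt_pow_ray c ((hu a).da (ray_mem hy ht))
  have h := norm_le_gronwallBound_of_norm_deriv_right_le (f := v) (f' := v') (δ := 0)
    (K := Fintype.card κ * A) (ε := F) (a := 0) (b := 1)
    (fun t ht => (hd t ht).continuousAt.continuousWithinAt)
    (fun t ht => (hd t (Ico_subset_Icc_self ht)).hasDerivWithinAt)
    (by
      have : v 0 = 0 := by ext a; simp [hv]
      simp [this])
    (by
      intro t ht
      have ht' := Ico_subset_Icc_self ht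
      have hx := ray_mem hy ht'
      refine (pi_norm_le_iff_of_nonneg (by positivity)).2 fun a => ?_
      have ht1 : t ^ c ≤ 1 := pow_le_one₀ ht.1 ht.2.le
      have htc : 0 ≤ t ^ c := pow_nonneg ht.1 c
      have hr1 : ‖t • y‖ / ρ.ρ ≤ t := by
        rw [div_le_iff₀ ρ.pos, norm_smul, Real.norm_of_nonneg ht.1]
        exact mul_le_mul_of_nonneg_left (ρ.norm_lt hy).le ht.1
      simp only [hv']
      rw [heq a _ hx, Real.norm_eq_abs, mul_add, Finset.mul_sum]
      refine (abs_add_le _ _).trans (add_le_add ?_ ?_)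
      · refine (Finset.abs_sum_le_sum_abs _ _).trans ?_
        rw [mul_assoc, ← nsmul_eq_mul, ← Finset.card_univ, ← Finset.sum_const]
        refine Finset.sum_le_sum fun b _ => ?_
        have h1 : |v t b| ≤ ‖v t‖ := by simpa using norm_le_pi_norm (v t) b
        have h2 : |L a b (t • y)| ≤ A * t :=
          (hL a b _ hx).trans (mul_le_mul_of_nonneg_left hr1 hA)
        have h3 : |v t b| = t ^ c * t * |u b (t • y)| := by
          simp only [hv, abs_mul, pow_succ]
          rw [abs_of_nonneg htc, abs_of_nonneg ht.1]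
        calc |t ^ c * (L a b (t • y) * u b (t • y))|
            = t ^ c * |L a b (t • y)| * |u b (t • y)| := by
              rw [abs_mul, abs_mul, abs_of_nonneg htc]; ring
          _ ≤ t ^ c * (A * t) * |u b (t • y)| := by gcongr
          _ = A * |v t b| := by rw [h3]; ring
          _ ≤ A * ‖v t‖ := by gcongr
      · rw [abs_mul, abs_of_nonneg htc]
        exact (mul_le_of_le_one_left (abs_nonneg _) ht1).trans (hf a _ hx))
    1 ⟨zero_le_one, le_rfl⟩
  have h1 : |v 1 a| ≤ ‖v 1‖ := by simpa using norm_le_pi_norm (v 1) a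
  simpa [hv] using h1.trans h

/-- `X u + u = F` with `|F| ≤ A` on the ray gives `|u| ≤ A`. -/
theorem ode_ray {ρ : Dom n} {A : ℝ} {u : En n → ℝ} (hu : Sm ρ u) {y : En n} (hy : y ∈ ρ.U)
    (h : ∀ t ∈ Icc (0 : ℝ) 1, |eul u (t • y) + u (t • y)| ≤ A) : |u y| ≤ A := by
  have hd : ∀ t ∈ Icc (0 : ℝ) 1, HasDerivWithinAt (fun s : ℝ => s ^ (0 + 1) * u (s • y))
      (eul u (t • y) + u (t • y)) (Icc 0 1) t := fun t ht => by
    simpa using (hasDerivAt_pow_ray 0 (hu.da (ray_mem hy ht))).hasDerivWithinAt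
  have := norm_image_sub_le_of_norm_deriv_le_segment_01' hd
    (fun t ht => by simpa using h t (Ico_subset_Icc_self ht))
  simpa using this

variable {ι : Type*} {r : ι → Dom n}

theorem exists_bd0 {κ : Type*} [Fintype κ] {f : κ → ι → En n → ℝ} (hf : ∀ a, Bd0 r (f a)) :
    ∃ F, 0 ≤ F ∧ ∀ a i, ∀ x ∈ (r i).U, |f a i x| ≤ F := by
  choose C hC using hf
  refine ⟨∑ a, |C a|, by positivity, fun a i x hx => (hC a i x hx).trans ?_⟩
  exact (le_abs_self _).trans
    (Finset.single_le_sum (f := fun a => |C a|) (fun _ _ => abs_nonneg _) (Finset.mem_univ a))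

/-- **radial ODE lemma.** -/
theorem Bd.ode {κ : Type*} [Fintype κ] {L : κ → κ → ι → En n → ℝ} {A : ℝ}
    (hA : 0 ≤ A) (hLA : ∀ a b i, ∀ x ∈ (r i).U, |L a b i x| ≤ A * (‖x‖ / (r i).ρ))
    (m : ℕ) : ∀ (c : ℕ) {u f : κ → ι → En n → ℝ}, (∀ a i, Sm (r i) (u a i)) →
      (∀ a i, ∀ x ∈ (r i).U,
        eul (u a i) x + (c + 1 : ℕ) * u a i x = ∑ b, L a b i x * u b i x + f a i x) →
      (∀ a b, Bd r m (L a b)) → (∀ a, Bd r m (f a)) → ∀ a, Bd r m (u a) := by
  have h0 : ∀ (c : ℕ) {u f : κ → ι → En n → ℝ}, (∀ a i, Sm (r i) (u a i)) →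
      (∀ a i, ∀ x ∈ (r i).U,
        eul (u a i) x + (c + 1 : ℕ) * u a i x = ∑ b, L a b i x * u b i x + f a i x) →
      (∀ a, Bd r 0 (f a)) → ∀ a, Bd r 0 (u a) := by
    intro c u f hu heq hf a
    obtain ⟨F, hF, hfF⟩ := exists_bd0 fun a => (hf a).bd0
    exact ⟨hu a, _, fun i x hx => ode0 hA hF c (fun a => hu a i) (fun a => heq a i)
      (fun a b => hLA a b i) (fun a => hfF a i) a hx⟩
  induction m with
  | zero => exact fun c u f hu heq _ hf => h0 c hu heq hf
  | succ m ih =>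
    intro c u f hu heq hL hf a
    have hum := ih c hu heq (fun a b => (hL a b).pred) (fun a => (hf a).pred)
    refine ⟨h0 c hu heq (fun a => (hf a).zero) a, fun k => ?_⟩
    refine ih (c + 1) (u := fun a => D r k (u a))
      (f := fun a i x => ∑ b, D r k (L a b) i x * u b i x + D r k (f a) i x)
      (fun a i => contDiffOn_const.mul ((hu a i).pd k)) ?_ (fun a b => (hL a b).pred)
      (fun a => (Bd.sum _ fun b _ => ((hL a b).2 k).mul (hum b)).add ((hf a).2 k)) a
    intro a i x hx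
    have e := pderiv_congr (r := r i) (f := fun x => eul (u a i) x + (c + 1 : ℕ) * u a i x)
      (g := fun x => ∑ b, L a b i x * u b i x + f a i x) (fun x hx => heq a i x hx) k hx
    have hes : Sm (r i) (eul (u a i)) :=
      ContDiffOn.sum fun j _ => (sm_coord _ j).mul ((hu a i).pd j)
    have hLu : ∀ b, DifferentiableAt ℝ (fun x => L a b i x * u b i x) x := fun b =>
      (((hL a b).sm i).da hx).mul ((hu b i).da hx)
    rw [pd_add (hes.da hx) (((hu a i).da hx).const_mul _),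
      pd_mul (differentiableAt_const _) ((hu a i).da hx), pd_const, pd_eul (hu a i) hx,
      pd_add (DifferentiableAt.fun_sum fun b _ => hLu b) (((hf a).sm i).da hx),
      pd_sum _ (fun b _ => hLu b)] at e
    simp only [pd_mul (((hL a _).sm i).da hx) ((hu _ i).da hx), Finset.sum_add_distrib] at e
    have e1 : eul (D r k (u a) i) x = (r i).ρ * eul (pderiv k (u a i)) x := by
      simp only [eul, Finset.mul_sum]
      refine Finset.sum_congr rfl fun j _ => ?_
      have : pderiv j (D r k (u a) i) x = (r i).ρ * pderiv j (pderiv k (u a i)) x := by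
        unfold D
        rw [pd_mul (differentiableAt_const _) (((hu a i).pd k).da hx), pd_const]
        ring
      rw [this]; ring
    have e2 : ∑ b, L a b i x * D r k (u b) i x = (r i).ρ * ∑ b, L a b i x * pderiv k (u b i) x := by
      simp only [D, Finset.mul_sum]
      exact Finset.sum_congr rfl fun b _ => by ring
    have e3 : ∑ b, D r k (L a b) i x * u b i x = (r i).ρ * ∑ b, pderiv k (L a b i) x * u b i x := by
      simp only [D, Finset.mul_sum]
      exact Finset.sum_congr rfl fun b _ => by ring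
    rw [e1, e2, e3]
    simp only [D]
    push_cast at e ⊢
    linear_combination (r i).ρ * e

theorem norm_iteratedFDeriv_succ_le {ρ : Dom n} {f : En n → ℝ} (hf : Sm ρ f) {x : En n}
    (hx : x ∈ ρ.U) (m : ℕ) :
    ‖iteratedFDeriv ℝ (m + 1) f x‖ ≤ ∑ k, ‖iteratedFDeriv ℝ m (pderiv k f) x‖ := by
  rw [← norm_iteratedFDeriv_fderiv]
  set P : Fin n → ℝ →L[ℝ] (En n →L[ℝ] ℝ) := fun k =>
    ContinuousLinearMap.toSpanSingleton ℝ (EuclideanSpace.proj k : En n →L[ℝ] ℝ) with hP
  have e : fderiv ℝ f = fun y => ∑ k, (P k ∘ pderiv k f) y := by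
    funext y
    ext v
    rw [fderiv_eq_sum]
    simp [hP, mul_comm]
  have hc : ∀ k, ContDiffAt ℝ m (pderiv k f) x := fun k =>
    ((hf.pd k).cda hx).of_le (by exact_mod_cast le_top)
  rw [e, iteratedFDeriv_fun_sum_apply (fun k _ => (P k).contDiff.contDiffAt.comp x (hc k))]
  refine (norm_sum_le _ _).trans (Finset.sum_le_sum fun k _ => ?_)
  refine ((P k).norm_iteratedFDeriv_comp_left (hc k) le_rfl).trans ?_
  refine mul_le_of_le_one_left (norm_nonneg _) ?_
  rw [hP, ContinuousLinearMap.norm_toSpanSingleton]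
  refine ContinuousLinearMap.opNorm_le_bound _ zero_le_one fun v => ?_
  simpa using PiLp.norm_apply_le v k

/-- passage to `iteratedFDeriv` -/
theorem Bd.norm_iteratedFDeriv (m : ℕ) : ∀ {f : ι → En n → ℝ}, Bd r m f →
    ∃ C, 0 ≤ C ∧ ∀ i, ∀ x ∈ (r i).U,
      (r i).ρ ^ m * ‖iteratedFDeriv ℝ m (f i) x‖ ≤ C := by
  induction m with
  | zero =>
    intro f hf
    obtain ⟨C, hC⟩ := hf.2
    exact ⟨|C|, abs_nonneg _, fun i x hx => by
      simpa [norm_iteratedFDeriv_zero] using (hC i x hx).trans (le_abs_self C)⟩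
  | succ m ih =>
    intro f hf
    choose C hC0 hC using fun k => ih (hf.2 k)
    refine ⟨∑ k, C k, Finset.sum_nonneg fun k _ => hC0 k, fun i x hx => ?_⟩
    refine (mul_le_mul_of_nonneg_left (norm_iteratedFDeriv_succ_le (hf.sm i) hx m)
      (pow_nonneg (r i).pos.le _)).trans ?_
    rw [Finset.mul_sum]
    refine Finset.sum_le_sum fun k _ => le_trans (le_of_eq ?_) (hC k i x hx)
    have hc : ContDiffAt ℝ m (pderiv k (f i)) x :=
      (((hf.sm i).pd k).cda hx).of_le (by exact_mod_cast le_top)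
    have : iteratedFDeriv ℝ m (D r k f i) x = (r i).ρ • iteratedFDeriv ℝ m (pderiv k (f i)) x :=
      iteratedFDeriv_const_smul_apply' (a := (r i).ρ) hc
    rw [this, norm_smul, Real.norm_of_nonneg (r i).pos.le]
    ring

theorem Bd.norm_iteratedFDeriv_le {m : ℕ} {f : ι → En n → ℝ} (hf : Bd r m f) :
    ∃ C, 0 ≤ C ∧ ∀ j ≤ m, ∀ i, ∀ x ∈ (r i).U,
      (r i).ρ ^ j * ‖iteratedFDeriv ℝ j (f i) x‖ ≤ C := by
  choose C hC0 hC using fun j : Fin (m + 1) =>
    Bd.norm_iteratedFDeriv j (hf.mono (Nat.lt_succ_iff.1 j.2))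
  refine ⟨∑ j, C j, Finset.sum_nonneg fun j _ => hC0 j, fun j hj i x hx => ?_⟩
  exact (hC ⟨j, Nat.lt_succ_iff.2 hj⟩ i x hx).trans
    (Finset.single_le_sum (f := C) (fun _ _ => hC0 _) (Finset.mem_univ _))

end Crest.Agent.N207.F
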