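import Crest.Agent.N207.F.Nc1
import Crest.Agent.Lib.ODEFlow

/-!
# Row 207, block F1 (helper7): smooth solutions of linear ODEs along rays
-/

set_option autoImplicit false

open Set Metric Filter Topology
open scoped ContDiff BigOperators
open Crest.Agent.Lib.ODEFlow

noncomputable section

namespace Crest.Agent.N207.F

variable {n : ℕ}

/-- `y ↦ (t ↦ (t y, y))` -/
def rayL (n : ℕ) : En n →L[ℝ] C(I, En n × En n) :=
  LinearMap.toContinuousLinearMap
    { toFun := fun y => ⟨fun t => ((t : ℝ) • y, y), by fun_prop⟩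
      map_add' := by intro y z; ext t <;> simp
      map_smul' := by intro c y; ext t <;> simp [mul_left_comm] }

theorem rayL_apply (y : En n) (t : I) : rayL n y t = ((t : ℝ) • y, y) := rfl

/-- **radial transport**: a smooth `w` with `w 0 = v₀` and `X w = B(x)(x) w`. -/
theorem exists_radial {V : Type} [NormedAddCommGroup V] [NormedSpace ℝ V] [CompleteSpace V]
    {ρ : Dom n} (B : En n → En n →L[ℝ] V →L[ℝ] V) (hB : ContDiffOn ℝ ∞ B ρ.U)
    (v0 : V) : ∃ w : En n → V, ContDiffOn ℝ ∞ w ρ.U ∧ w 0 = v0 ∧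
      ∀ x ∈ ρ.U, fderiv ℝ w x x = B x x (w x) := by
  set g : En n × En n → V →L[ℝ] V := fun p => B p.1 p.2 with hg
  set U : Set (En n × En n) := ρ.U ×ˢ univ with hU
  have hUo : IsOpen U := ρ.op.prod isOpen_univ
  have hgU : ContDiffOn ℝ ∞ g U :=
    (hB.comp contDiff_fst.contDiffOn fun p hp => hp.1).clm_apply contDiff_snd.contDiffOn
  have hray : ∀ y ∈ ρ.U, rayL n y ∈ mapsIn I U := fun y hy t =>
    ⟨ray_mem hy t.2, mem_univ _⟩
  set op : En n → C(I, V) →L[ℝ] C(I, V) := fun y =>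
    ContinuousLinearMap.id ℝ C(I, V) - vol ∘L applyB (nem g (rayL n y)) with hop
  have hinv : ∀ y, (op y).IsInvertible := fun y =>
    isInvertible_id_sub_vol_comp _ (norm_nonneg (nem g (rayL n y))) fun h t => by
      rw [applyB_apply]
      exact ((nem g (rayL n y)) t).le_of_opNorm_le ((nem g (rayL n y)).norm_coe_le_norm t) _
  have hops : ContDiffOn ℝ ∞ op ρ.U := by
    have h1 : ContDiffOn ℝ ∞ (fun y => nem g (rayL n y)) ρ.U :=
      (contDiffOn_nem (n := ⊤) hUo hgU).comp (rayL n).contDiff.contDiffOn hray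
    have h3 : ContDiff ℝ ∞ (fun A : C(I, V →L[ℝ] V) => (applyB A : C(I, V) →L[ℝ] C(I, V))) := by
      fun_prop
    have h2 : ContDiffOn ℝ ∞ (fun y => applyB (nem g (rayL n y))) ρ.U :=
      h3.comp_contDiffOn h1
    exact contDiffOn_const.sub (contDiffOn_const.clm_comp h2)
  set W : En n → C(I, V) := fun y => (op y).inverse (ContinuousMap.const I v0) with hW
  have hWs : ContDiffOn ℝ ∞ W ρ.U := by
    have h1 : ContDiffOn ℝ ∞ (fun y => (op y).inverse) ρ.U := fun y hy =>
      (hinv y).contDiffAt_map_inverse.comp_contDiffWithinAt y (hops y hy)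
    exact h1.clm_apply contDiffOn_const
  have hWeq : ∀ y, op y (W y) = ContinuousMap.const I v0 := fun y =>
    (hinv y).self_apply_inverse _
  have hopap : ∀ y ∈ ρ.U, ∀ (h : C(I, V)) (t : I), op y h t =
      h t - ∫ s in (0 : ℝ)..t, B ((pr s : ℝ) • y) y (h (pr s)) := by
    intro y hy h t
    have : ∀ s : I, applyB (nem g (rayL n y)) h s = B ((s : ℝ) • y) y (h s) := fun s => by
      rw [applyB_apply, nem_apply hgU.continuousOn (hray y hy)]; rfl
    simp only [hop, sub_apply, ContinuousLinearMap.id_apply, ContinuousLinearMap.comp_apply,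
      ContinuousMap.sub_apply, vol_apply, this]
  have hint : ∀ y ∈ ρ.U, ∀ t : I,
      W y t = v0 + ∫ s in (0 : ℝ)..t, B ((pr s : ℝ) • y) y (W y (pr s)) := by
    intro y hy t
    have := hopap y hy (W y) t
    rw [hWeq] at this
    simp only [ContinuousMap.const_apply] at this
    rw [this]; abel
  have hscale : ∀ y ∈ ρ.U, ∀ θ ∈ Icc (0 : ℝ) 1, W (θ • y) = scale θ (W y) := by
    intro y hy θ hθ
    have h1 : op (θ • y) (scale θ (W y)) = ContinuousMap.const I v0 := by
      ext t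
      rw [hopap _ (ray_mem hy hθ), scale_apply, hint y hy, pr_of_mem (mul_mem_I hθ t.2),
        ContinuousMap.const_apply]
      have h2 := intervalIntegral.smul_integral_comp_mul_left (a := 0) (b := (t : ℝ))
        (fun s : ℝ => B ((pr s : ℝ) • y) y (W y (pr s))) θ
      rw [mul_zero] at h2
      rw [← h2, ← intervalIntegral.integral_smul]
      have h3 : ∫ s in (0 : ℝ)..t, θ • B ((pr (θ * s) : ℝ) • y) y (W y (pr (θ * s))) =
          ∫ s in (0 : ℝ)..t, B ((pr s : ℝ) • θ • y) (θ • y) (scale θ (W y) (pr s)) := by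
        refine intervalIntegral.integral_congr fun s hs => ?_
        rw [uIcc_of_le t.2.1] at hs
        have hs' : s ∈ Icc (0 : ℝ) 1 := ⟨hs.1, hs.2.trans t.2.2⟩
        simp only [scale_apply, pr_of_mem hs', pr_of_mem (mul_mem_I hθ hs'), map_smul,
          smul_apply, smul_smul, mul_comm s θ]
      rw [h3]; abel
    have := (hinv (θ • y)).inverse_apply_self (scale θ (W y))
    rw [h1] at this
    exact this
  set w : En n → V := fun y => W y ⟨1, zero_le_one, le_rfl⟩ with hw
  have hws : ContDiffOn ℝ ∞ w ρ.U := by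
    have : ContDiff ℝ ∞ (fun f : C(I, V) =>
        (ContinuousMap.evalCLM ℝ (⟨1, zero_le_one, le_rfl⟩ : I) : C(I, V) →L[ℝ] V) f) := by
      fun_prop
    exact this.comp_contDiffOn hWs
  have hwr : ∀ y ∈ ρ.U, ∀ θ ∈ Icc (0 : ℝ) 1,
      w (θ • y) = v0 + ∫ s in (0 : ℝ)..θ, B ((pr s : ℝ) • y) y (W y (pr s)) := by
    intro y hy θ hθ
    have e : w (θ • y) = W y (pr θ) := by
      show W (θ • y) ⟨1, zero_le_one, le_rfl⟩ = _
      rw [hscale y hy θ hθ, scale_apply, mul_one]
    rw [e, hint y hy (pr θ), pr_of_mem hθ]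
  refine ⟨w, hws, ?_, fun x hx => ?_⟩
  · simpa using hwr 0 ρ.zero 0 ⟨le_rfl, zero_le_one⟩
  · have hFc : Continuous fun s : ℝ => B ((pr s : ℝ) • x) x (W x (pr s)) := by
      have := continuous_comp_pr (applyB (nem g (rayL n x)) (W x))
      refine this.congr fun s => ?_
      rw [applyB_apply, nem_apply hgU.continuousOn (hray x hx)]; rfl
    have h1 : HasDerivAt (fun θ : ℝ => v0 + ∫ s in (0 : ℝ)..θ, B ((pr s : ℝ) • x) x (W x (pr s)))
        (B ((pr 1 : ℝ) • x) x (W x (pr 1))) 1 :=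
      (intervalIntegral.integral_hasDerivAt_right (hFc.intervalIntegrable _ _)
        (hFc.stronglyMeasurableAtFilter _ _) hFc.continuousAt).const_add v0
    have hd : DifferentiableAt ℝ w x :=
      (hws.contDiffAt (ρ.op.mem_nhds hx)).differentiableAt (by simp)
    have h2 : HasDerivAt (fun θ : ℝ => w (θ • x)) (fderiv ℝ w x x) 1 := by
      have h3 : HasDerivAt (fun s : ℝ => s • x) x 1 := by
        simpa using (hasDerivAt_id (1 : ℝ)).smul_const x
      have h4 : HasFDerivAt w (fderiv ℝ w x) ((1 : ℝ) • x) := by simpa using hd.hasFDerivAt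
      exact h4.comp_hasDerivAt (1 : ℝ) h3
    have h5 : HasDerivWithinAt (fun θ : ℝ => w (θ • x)) (B ((pr 1 : ℝ) • x) x (W x (pr 1)))
        (Icc 0 1) 1 :=
      h1.hasDerivWithinAt.congr (fun θ hθ => hwr x hx θ hθ) (hwr x hx 1 ⟨zero_le_one, le_rfl⟩)
    have h6 := (uniqueDiffOn_Icc zero_lt_one 1 ⟨zero_le_one, le_rfl⟩).eq_deriv _
      h2.hasDerivWithinAt h5
    rw [h6, pr_of_mem ⟨zero_le_one, le_rfl⟩, one_smul]
    congr 2
    exact Subtype.ext (pr_of_mem ⟨zero_le_one, le_rfl⟩)

end Crest.Agent.N207.F
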