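import Crest.Agent.N207.F.Nc3

/-!
# Row 207, block F1 (helper7): matrix calculus and the radial parallel frame
-/

set_option autoImplicit false

open Set Metric Filter Topology Matrix
open scoped ContDiff BigOperators
open Crest.GeometryTopology.CoordMetric Crest.GeometryTopology.ChartCurvature
  Crest.GeometryTopology.MetricFamily
open Crest.Agent.R202.Tens Crest.Agent.R247.Bo84

noncomputable section

namespace Crest.Agent.N207.F

variable {n : ℕ}

/-- entrywise smooth matrix field -/
def SmM (ρ : Dom n) (A : MetricField n) : Prop := ∀ a b, Sm ρ fun y => A y a b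

/-- entrywise partial derivative -/
def pdM (i : Fin n) (A : MetricField n) : MetricField n := fun x =>
  Matrix.of fun a b => pderiv i (fun y => A y a b) x

/-- entrywise Euler derivative -/
def eulM (A : MetricField n) : MetricField n := fun x => ∑ j, x j • pdM j A x

theorem pdM_apply (i : Fin n) (A : MetricField n) (x : En n) (a b : Fin n) :
    pdM i A x a b = pderiv i (fun y => A y a b) x := rfl

theorem eulM_apply (A : MetricField n) (x : En n) (a b : Fin n) :
    eulM A x a b = eul (fun y => A y a b) x := by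
  simp [eulM, eul, Matrix.sum_apply, pdM_apply]

variable {ρ : Dom n} {A B : MetricField n} {x : En n}

theorem SmM.mul (hA : SmM ρ A) (hB : SmM ρ B) : SmM ρ fun y => A y * B y := fun a b => by
  simp only [Matrix.mul_apply]
  exact ContDiffOn.sum fun k _ => (hA a k).mul (hB k b)

theorem SmM.add (hA : SmM ρ A) (hB : SmM ρ B) : SmM ρ fun y => A y + B y := fun a b =>
  (hA a b).add (hB a b)

theorem SmM.tr (hA : SmM ρ A) : SmM ρ fun y => (A y)ᵀ := fun a b => hA b a

theorem SmM.pdM (hA : SmM ρ A) (i : Fin n) : SmM ρ (pdM i A) := fun a b => (hA a b).pd i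

theorem pdM_mul (hA : SmM ρ A) (hB : SmM ρ B) (hx : x ∈ ρ.U) (i : Fin n) :
    pdM i (fun y => A y * B y) x = pdM i A x * B x + A x * pdM i B x := by
  ext a b
  simp only [pdM_apply, Matrix.mul_apply, Matrix.add_apply]
  rw [pd_sum (f := fun k y => A y a k * B y k b) _
    (fun k _ => ((hA a k).da hx).mul ((hB k b).da hx)), ← Finset.sum_add_distrib]
  exact Finset.sum_congr rfl fun k _ => pd_mul ((hA a k).da hx) ((hB k b).da hx) i

theorem pdM_add (hA : SmM ρ A) (hB : SmM ρ B) (hx : x ∈ ρ.U) (i : Fin n) :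
    pdM i (fun y => A y + B y) x = pdM i A x + pdM i B x := by
  ext a b
  exact pd_add ((hA a b).da hx) ((hB a b).da hx) i

theorem pdM_tr (A : MetricField n) (x : En n) (i : Fin n) :
    pdM i (fun y => (A y)ᵀ) x = (pdM i A x)ᵀ := rfl

theorem pdM_comm (hA : SmM ρ A) (hx : x ∈ ρ.U) (i j : Fin n) :
    pdM i (pdM j A) x = pdM j (pdM i A) x := by
  ext a b
  exact pd_comm (hA a b) hx i j

theorem pdM_congr (h : ∀ y ∈ ρ.U, A y = B y) (hx : x ∈ ρ.U)
    (i : Fin n) : pdM i A x = pdM i B x := by
  ext a b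
  exact pderiv_congr (f := fun y => A y a b) (g := fun y => B y a b)
    (fun y hy => by simp only [h y hy]) i hx

theorem pdM_const (C : Matrix (Fin n) (Fin n) ℝ) (x : En n) (i : Fin n) :
    pdM i (fun _ => C) x = 0 := by
  ext a b
  exact pd_const _ x i

theorem pdM_radial {Q : Fin n → MetricField n} (hQ : ∀ j, SmM ρ (Q j))
    (hx : x ∈ ρ.U) (i : Fin n) :
    pdM i (fun y => ∑ j, y j • Q j y) x = Q i x + ∑ j, x j • pdM i (Q j) x := by
  ext a b
  simp only [pdM_apply, Matrix.sum_apply, Matrix.smul_apply, smul_eq_mul, Matrix.add_apply]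
  rw [pd_sum (f := fun j y => y j * Q j y a b) _
    (fun j _ => ((sm_coord ρ j).da hx).mul ((hQ j a b).da hx))]
  simp only [pd_mul ((sm_coord ρ _).da hx) ((hQ _ a b).da hx), pd_coord, Finset.sum_add_distrib,
    ite_mul, one_mul, zero_mul, Finset.sum_ite_eq', Finset.mem_univ, if_true]

theorem eulM_mul (hA : SmM ρ A) (hB : SmM ρ B) (hx : x ∈ ρ.U) :
    eulM (fun y => A y * B y) x = eulM A x * B x + A x * eulM B x := by
  simp only [eulM, pdM_mul hA hB hx, smul_add, Finset.sum_add_distrib, Finset.sum_mul,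
    Finset.mul_sum, smul_mul_assoc, mul_smul_comm]

theorem eulM_tr (A : MetricField n) (x : En n) : eulM (fun y => (A y)ᵀ) x = (eulM A x)ᵀ := by
  ext a b
  simp only [eulM_apply, Matrix.transpose_apply]

/-- a function killed by the Euler field along a ray is constant on it -/
theorem ray_const {u : En n → ℝ} (hu : Sm ρ u) {y : En n} (hy : y ∈ ρ.U)
    (h : ∀ t ∈ Ioo (0 : ℝ) 1, eul u (t • y) = 0) : u y = u 0 := by
  have hd : ∀ t ∈ Icc (0 : ℝ) 1, HasDerivAt (fun s : ℝ => u (s • y)) (fderiv ℝ u (t • y) y) t :=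
    fun t ht => hasDerivAt_ray (hu.da (ray_mem hy ht))
  obtain ⟨c, hc, e⟩ := exists_hasDerivAt_eq_slope (fun s : ℝ => u (s • y))
    (fun t => fderiv ℝ u (t • y) y) zero_lt_one
    (fun t ht => (hd t ht).continuousAt.continuousWithinAt)
    (fun t ht => hd t (Ioo_subset_Icc_self ht))
  have h1 := h c hc
  rw [eul_eq, map_smul, smul_eq_mul, e] at h1
  have h2 := (mul_eq_zero.1 h1).resolve_left hc.1.ne'
  simp only [one_smul, zero_smul, sub_zero, div_one] at h2
  linarith

/-- the connection matrices `(Γᵢ)ˡₖ = Γˡᵢₖ` -/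
def Gm (G : MetricField n) (i : Fin n) : MetricField n := fun x =>
  Matrix.of fun l k => christoffel G x l i k

/-- `Γ(x) = Σ xʲ Γⱼ` -/
def GX (G : MetricField n) : MetricField n := fun x => ∑ j, x j • Gm G j x

variable {G : MetricField n}

theorem smM_metric (hG : IsRiemannianOn G ρ.U) : SmM ρ G := hG.contDiffOn

theorem smM_Gm (hG : IsRiemannianOn G ρ.U) (i : Fin n) : SmM ρ (Gm G i) := fun l k =>
  contDiffOn_christoffel hG l i k

theorem metric_tr (hG : IsRiemannianOn G ρ.U) (hx : x ∈ ρ.U) :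
    (G x)ᵀ = G x := by
  ext i j
  exact metric_symm hG hx j i

theorem pdM_metric (hG : IsRiemannianOn G ρ.U) (hx : x ∈ ρ.U) (i : Fin n) :
    pdM i G x = (Gm G i x)ᵀ * G x + G x * Gm G i x := by
  ext j k
  have hdet : IsUnit (G x).det := (det_pos hG hx).ne'.isUnit
  have h1 := sum_g_christoffel hdet k i j
  have h2 := sum_g_christoffel hdet j i k
  simp only [Matrix.add_apply, Matrix.mul_apply, Matrix.transpose_apply, Gm, Matrix.of_apply,
    pdM_apply]
  have h3 : ∑ l, christoffel G x l i j * G x l k = ∑ l, G x k l * christoffel G x l i j :=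
    Finset.sum_congr rfl fun l _ => by rw [metric_symm hG hx l k, mul_comm]
  rw [h3, h1, h2, low, low, pderiv_metric_symm hG hx i k j, pderiv_metric_symm hG hx k i j,
    pderiv_metric_symm hG hx j i k]
  ring

theorem riemann_eq (G : MetricField n) (x : En n) (j i m k : Fin n) :
    (pdM j (Gm G i) x - pdM i (Gm G j) x + (Gm G j x * Gm G i x - Gm G i x * Gm G j x)) m k =
      riemann G x m k j i := by
  simp only [riemann, Matrix.add_apply, Matrix.sub_apply, Matrix.mul_apply, pdM_apply, Gm,
    Matrix.of_apply, Finset.sum_sub_distrib]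

/-- a radially parallel frame (the columns of `E`) -/
structure RF (G : MetricField n) (ρ : Dom n) (E : MetricField n) : Prop where
  riem : IsRiemannianOn G ρ.U
  zero : G 0 = 1
  rad : ∀ x ∈ ρ.U, ∀ k, ∑ i, ∑ j, christoffel G x k i j * x i * x j = 0
  sm : SmM ρ E
  E0 : E 0 = 1
  par : ∀ x ∈ ρ.U, eulM E x = -(GX G x * E x)

theorem exists_RF (hG : IsRiemannianOn G ρ.U) (h0 : G 0 = 1)
    (hrad : ∀ x ∈ ρ.U, ∀ k, ∑ i, ∑ j, christoffel G x k i j * x i * x j = 0) :
    ∃ E, RF G ρ E := by
  have hB : ContDiffOn ℝ ∞ (fun x => -Gam G x) ρ.U := fun x hx =>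
    (contDiffAt_Gam hG hx).neg.contDiffWithinAt
  choose w hw hw0 hwd using fun a : Fin n =>
    exists_radial (fun x => -Gam G x) hB (EuclideanSpace.single a (1 : ℝ))
  have hs : ∀ k a, Sm ρ fun y => w a y k := fun k a =>
    (EuclideanSpace.proj k : En n →L[ℝ] ℝ).contDiff.comp_contDiffOn (hw a)
  refine ⟨fun x => Matrix.of fun k a => w a x k, hG, h0, hrad, hs, ?_, fun x hx => ?_⟩
  · ext k a
    simp [hw0, Matrix.one_apply]
  · ext k a
    have hd : DifferentiableAt ℝ (w a) x :=
      ((hw a).contDiffAt (ρ.op.mem_nhds hx)).differentiableAt (by simp)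
    have h1 : fderiv ℝ (fun y => w a y k) x x = fderiv ℝ (w a) x x k := by
      have := ((EuclideanSpace.proj k : En n →L[ℝ] ℝ).hasFDerivAt.comp x hd.hasFDerivAt).fderiv
      exact congrArg (fun L : En n →L[ℝ] ℝ => L x) this
    rw [eulM_apply, eul_eq]
    simp only [Matrix.of_apply]
    rw [h1, hwd a x hx]
    show -(Gam G x x (w a x) k) = _
    simp only [Gam_apply, Matrix.neg_apply, Matrix.mul_apply, GX, Gm,
      Matrix.sum_apply, Matrix.smul_apply, Matrix.of_apply, smul_eq_mul, Finset.sum_mul]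
    rw [neg_inj]
    exact Finset.sum_congr rfl fun i _ => Finset.sum_congr rfl fun j _ => by ring

end Crest.Agent.N207.F
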