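import Crest.Agent.N207.F.Nc4

/-!
# Row 207, block F1 (helper7): Cartan's structure equations in the radial gauge
-/

set_option autoImplicit false

open Set Metric Filter Topology Matrix
open scoped ContDiff BigOperators
open Crest.GeometryTopology.CoordMetric Crest.GeometryTopology.ChartCurvature
  Crest.GeometryTopology.MetricFamily
open Crest.Agent.R202.Tens Crest.Agent.R247.Bo84

noncomputable section

namespace Crest.Agent.N207.F

variable {n : ℕ}

/-- the coframe `θ = Eᵀ G` -/
def th (G E : MetricField n) : MetricField n := fun x => (E x)ᵀ * G x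

/-- `∇ᵢ E` -/
def Qm (G E : MetricField n) (i : Fin n) : MetricField n := fun x => pdM i E x + Gm G i x * E x

/-- the connection form `ωᵢ = θ ∇ᵢ E` -/
def om (G E : MetricField n) (i : Fin n) : MetricField n := fun x => th G E x * Qm G E i x

/-- the curvature matrix `R(∂ⱼ, ∂ᵢ)` -/
def Rm (G : MetricField n) (j i : Fin n) : MetricField n := fun x =>
  Matrix.of fun m k => riemann G x m k j i

namespace RF

variable {G E : MetricField n} {ρ : Dom n} {x : En n}

theorem sm_th (h : RF G ρ E) : SmM ρ (th G E) := h.sm.tr.mul (smM_metric h.riem)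

theorem sm_Qm (h : RF G ρ E) (i : Fin n) : SmM ρ (Qm G E i) :=
  (h.sm.pdM i).add ((smM_Gm h.riem i).mul h.sm)

theorem sm_om (h : RF G ρ E) (i : Fin n) : SmM ρ (om G E i) := h.sm_th.mul (h.sm_Qm i)

theorem eul_metric (h : RF G ρ E) (hx : x ∈ ρ.U) :
    eulM G x = (GX G x)ᵀ * G x + G x * GX G x := by
  simp only [eulM, GX, pdM_metric h.riem hx, smul_add, Finset.sum_add_distrib,
    Matrix.transpose_sum, Matrix.transpose_smul, Finset.sum_mul, Finset.mul_sum, smul_mul_assoc,
    mul_smul_comm]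

theorem eul_th (h : RF G ρ E) (hx : x ∈ ρ.U) :
    eulM (th G E) x = th G E x * GX G x := by
  unfold th
  rw [eulM_mul h.sm.tr (smM_metric h.riem) hx, eulM_tr, h.par x hx, h.eul_metric hx]
  simp only [Matrix.transpose_neg, Matrix.transpose_mul, Matrix.mul_add, Matrix.neg_mul,
    Matrix.mul_assoc]
  abel

theorem th_zero (h : RF G ρ E) : th G E 0 = 1 := by simp [th, h.E0, h.zero]

theorem th_mul (h : RF G ρ E) (hx : x ∈ ρ.U) : th G E x * E x = 1 := by
  ext a b
  have h1 := ray_const ((h.sm_th.mul h.sm) a b) hx fun t ht => by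
    have hy := ray_mem hx (Ioo_subset_Icc_self ht)
    rw [← eulM_apply (fun y => th G E y * E y), eulM_mul h.sm_th h.sm hy, h.eul_th hy,
      h.par _ hy]
    simp [Matrix.mul_assoc]
  simpa [h.th_zero, h.E0] using h1

theorem mul_th (h : RF G ρ E) (hx : x ∈ ρ.U) : E x * th G E x = 1 :=
  mul_eq_one_comm.1 (h.th_mul hx)

theorem metric_mul (h : RF G ρ E) (hx : x ∈ ρ.U) :
    G x * E x = (th G E x)ᵀ := by
  simp [th, Matrix.transpose_mul, metric_tr h.riem hx]

theorem metric_eq (h : RF G ρ E) (hx : x ∈ ρ.U) :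
    G x = (th G E x)ᵀ * th G E x := by
  rw [← h.metric_mul hx, Matrix.mul_assoc, h.mul_th hx, Matrix.mul_one]

theorem inv_eq (h : RF G ρ E) (hx : x ∈ ρ.U) : (G x)⁻¹ = E x * (E x)ᵀ := by
  refine Matrix.inv_eq_right_inv ?_
  rw [← Matrix.mul_assoc, h.metric_mul hx, ← Matrix.transpose_mul, h.mul_th hx,
    Matrix.transpose_one]

theorem GX_apply (G : MetricField n) (x : En n) (l k : Fin n) :
    GX G x l k = ∑ j, x j * christoffel G x l j k := by
  simp [GX, Gm, Matrix.sum_apply]

/-- `θ(x) x = x` -/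
theorem th_rad (h : RF G ρ E) (hx : x ∈ ρ.U) (a : Fin n) :
    ∑ k, th G E x a k * x k = x a := by
  have hs : Sm ρ fun y => ∑ k, th G E y a k * x k :=
    ContDiffOn.sum fun k _ => (h.sm_th a k).mul contDiffOn_const
  have h1 := ray_const hs hx fun t ht => by
    have hy := ray_mem hx (Ioo_subset_Icc_self ht)
    have e : eul (fun y => ∑ k, th G E y a k * x k) (t • x) =
        ∑ k, eulM (th G E) (t • x) a k * x k := by
      simp only [eulM_apply, eul_eq]
      rw [fderiv_fun_sum fun k _ => ((h.sm_th a k).da hy).mul_const _]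
      simp only [_root_.sum_apply, fderiv_mul_const ((h.sm_th a _).da hy), _root_.smul_apply,
        smul_eq_mul, mul_comm]
    rw [e, h.eul_th hy]
    simp only [Matrix.mul_apply, Finset.sum_mul]
    rw [Finset.sum_comm]
    refine Finset.sum_eq_zero fun l _ => ?_
    have h2 := h.rad _ hy l
    have h3 : t * ∑ k, GX G (t • x) l k * x k = 0 := by
      rw [← h2, Finset.sum_comm, Finset.mul_sum]
      refine Finset.sum_congr rfl fun k _ => ?_
      simp only [GX_apply, Finset.sum_mul, Finset.mul_sum, PiLp.smul_apply, smul_eq_mul]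
      exact Finset.sum_congr rfl fun j _ => by ring
    have h4 := (mul_eq_zero.1 h3).resolve_left ht.1.ne'
    simp only [mul_assoc, ← Finset.mul_sum, h4, mul_zero]
  simpa [h.th_zero, Matrix.one_apply] using h1

/-- `E(x) x = x` -/
theorem E_rad (h : RF G ρ E) (hx : x ∈ ρ.U) (k : Fin n) :
    ∑ a, E x k a * x a = x k := by
  have h1 : ∑ a, E x k a * x a = ∑ l, (E x * th G E x) k l * x l := by
    simp only [Matrix.mul_apply, Finset.sum_mul]
    rw [Finset.sum_comm]
    refine Finset.sum_congr rfl fun a _ => ?_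
    rw [← h.th_rad hx a, Finset.mul_sum]
    exact Finset.sum_congr rfl fun l _ => by ring
  rw [h1, h.mul_th hx]
  simp [Matrix.one_apply]

theorem E_om (h : RF G ρ E) (hx : x ∈ ρ.U) (i : Fin n) :
    E x * om G E i x = Qm G E i x := by
  rw [om, ← Matrix.mul_assoc, h.mul_th hx, Matrix.one_mul]

/-- `∂ᵢ E = E ωᵢ - Γᵢ E` -/
theorem pd_E (h : RF G ρ E) (hx : x ∈ ρ.U) (i : Fin n) :
    pdM i E x = E x * om G E i x - Gm G i x * E x := by
  rw [h.E_om hx, Qm]; abel

/-- `∂ᵢ θ = θ Γᵢ - ωᵢ θ` -/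
theorem pd_th (h : RF G ρ E) (hx : x ∈ ρ.U) (i : Fin n) :
    pdM i (th G E) x = th G E x * Gm G i x - om G E i x * th G E x := by
  have h1 : pdM i (fun y => th G E y * E y) x = 0 := by
    rw [pdM_congr (B := fun _ => 1) (fun y hy => h.th_mul hy) hx, pdM_const]
  rw [pdM_mul h.sm_th h.sm hx, h.pd_E hx] at h1
  have h2 := congrArg (· * th G E x) h1
  simp only [Matrix.add_mul, Matrix.mul_sub, Matrix.sub_mul, Matrix.mul_assoc, h.mul_th hx,
    Matrix.mul_one, Matrix.zero_mul] at h2
  rw [← Matrix.mul_assoc (th G E x) (E x), h.th_mul hx, Matrix.one_mul] at h2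
  rw [← sub_eq_zero, ← h2]; abel

/-- **first structure equation** -/
theorem eq1 (h : RF G ρ E) (hx : x ∈ ρ.U) (a i : Fin n) :
    eul (fun y => th G E y a i) x + th G E x a i =
      (if a = i then 1 else 0) + ∑ b, om G E i x a b * x b := by
  have h1 := pderiv_congr (f := fun y => ∑ k, th G E y a k * y k) (g := fun y => y a)
    (fun y hy => h.th_rad hy a) i hx
  rw [pd_coord, pd_sum (f := fun k y => th G E y a k * y k) _
    (fun k _ => ((h.sm_th a k).da hx).mul ((sm_coord ρ k).da hx))] at h1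
  simp only [pd_mul ((h.sm_th a _).da hx) ((sm_coord ρ _).da hx), pd_coord,
    Finset.sum_add_distrib, mul_ite, mul_one, mul_zero, Finset.sum_ite_eq', Finset.mem_univ,
    if_true, ← pdM_apply i (th G E), h.pd_th hx, Matrix.sub_apply, sub_mul,
    Finset.sum_sub_distrib] at h1
  have h2 : ∑ k, (th G E x * Gm G i x) a k * x k = eul (fun y => th G E y a i) x := by
    rw [← eulM_apply, h.eul_th hx]
    simp only [Matrix.mul_apply, Finset.sum_mul, GX_apply, Finset.mul_sum, Gm, Matrix.of_apply]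
    rw [Finset.sum_comm]
    refine Finset.sum_congr rfl fun l _ => Finset.sum_congr rfl fun k _ => ?_
    rw [christoffel_symm h.riem hx l i k]; ring
  have h3 : ∑ k, (om G E i x * th G E x) a k * x k = ∑ b, om G E i x a b * x b := by
    simp only [Matrix.mul_apply, Finset.sum_mul]
    rw [Finset.sum_comm]
    refine Finset.sum_congr rfl fun b _ => ?_
    rw [← h.th_rad hx b, Finset.mul_sum]
    exact Finset.sum_congr rfl fun l _ => by ring
  rw [h2, h3] at h1
  linarith

theorem rad_Qm (h : RF G ρ E) (hx : x ∈ ρ.U) : ∑ j, x j • Qm G E j x = 0 := by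
  have h1 := h.par x hx
  simp only [eulM, GX, Finset.sum_mul, smul_mul_assoc] at h1
  simp only [Qm, smul_add, Finset.sum_add_distrib, h1, neg_add_cancel]

theorem pd_Qm (h : RF G ρ E) (hx : x ∈ ρ.U) (j i : Fin n) :
    pdM j (Qm G E i) x - pdM i (Qm G E j) x =
      Rm G j i x * E x + Gm G i x * Qm G E j x - Gm G j x * Qm G E i x := by
  have e : Rm G j i x =
      pdM j (Gm G i) x - pdM i (Gm G j) x + (Gm G j x * Gm G i x - Gm G i x * Gm G j x) := by
    ext m k
    rw [riemann_eq]; rfl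
  have e1 : ∀ j i, pdM j (Qm G E i) x =
      pdM j (pdM i E) x + (pdM j (Gm G i) x * E x + Gm G i x * pdM j E x) := by
    intro j i
    unfold Qm
    rw [pdM_add (h.sm.pdM i) ((smM_Gm h.riem i).mul h.sm) hx,
      pdM_mul (smM_Gm h.riem i) h.sm hx]
  rw [e1, e1, e, pdM_comm h.sm hx j i]
  simp only [Qm, Matrix.add_mul, Matrix.sub_mul, Matrix.mul_add, Matrix.mul_assoc]
  abel

theorem eul_Qm (h : RF G ρ E) (hx : x ∈ ρ.U) (i : Fin n) :
    eulM (Qm G E i) x + Qm G E i x =
      (∑ j, x j • Rm G j i x) * E x - GX G x * Qm G E i x := by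
  have h1 : pdM i (fun y => ∑ j, y j • Qm G E j y) x = 0 := by
    rw [pdM_congr (B := fun _ => 0) (fun y hy => h.rad_Qm hy) hx, pdM_const]
  rw [pdM_radial h.sm_Qm hx] at h1
  have h2 : ∑ j, x j • (pdM j (Qm G E i) x - pdM i (Qm G E j) x) =
      (∑ j, x j • Rm G j i x) * E x + Gm G i x * (∑ j, x j • Qm G E j x) -
        GX G x * Qm G E i x := by
    simp only [h.pd_Qm hx, smul_sub, smul_add, Finset.sum_sub_distrib, Finset.sum_add_distrib,
      GX, Finset.sum_mul, Finset.mul_sum, smul_mul_assoc, mul_smul_comm]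
  rw [h.rad_Qm hx, Matrix.mul_zero, add_zero] at h2
  simp only [smul_sub, Finset.sum_sub_distrib] at h2
  rw [← h2, eulM, eq_neg_of_add_eq_zero_left h1]
  abel

/-- **second structure equation** -/
theorem eq2 (h : RF G ρ E) (hx : x ∈ ρ.U) (i : Fin n) :
    eulM (om G E i) x + om G E i x = th G E x * (∑ j, x j • Rm G j i x) * E x := by
  unfold om
  rw [eulM_mul h.sm_th (h.sm_Qm i) hx, h.eul_th hx, add_assoc, ← Matrix.mul_add, h.eul_Qm hx]
  simp only [Matrix.mul_sub, Matrix.mul_assoc]
  abel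

theorem eq2_apply (h : RF G ρ E) (hx : x ∈ ρ.U) (i a b : Fin n) :
    eul (fun y => om G E i y a b) x + om G E i x a b =
      ∑ l, ∑ k, ∑ j, E x l a * E x k b * x j * riemannLower G x l k j i := by
  have e : ∀ l k, (G x * ∑ j, x j • Rm G j i x) l k = ∑ j, x j * riemannLower G x l k j i := by
    intro l k
    rw [Matrix.mul_apply]
    simp only [Matrix.sum_apply, Matrix.smul_apply, Rm, Matrix.of_apply, smul_eq_mul,
      riemannLower, Finset.mul_sum]
    rw [Finset.sum_comm]
    exact Finset.sum_congr rfl fun j _ => Finset.sum_congr rfl fun m _ => by ring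
  rw [← eulM_apply, ← Matrix.add_apply, h.eq2 hx, th, Matrix.mul_assoc (E x)ᵀ,
    Matrix.mul_assoc (E x)ᵀ, Matrix.mul_apply]
  refine Finset.sum_congr rfl fun l _ => ?_
  rw [Matrix.mul_apply, Finset.mul_sum]
  refine Finset.sum_congr rfl fun k _ => ?_
  rw [e, Finset.sum_mul, Finset.mul_sum, Matrix.transpose_apply]
  exact Finset.sum_congr rfl fun j _ => by ring

end RF

end Crest.Agent.N207.F
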