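import Crest.Agent.N207.F.Nc5
import Crest.Agent.N207.AI.Ev
import Crest.Agent.N207.A.Co1

/-!
# Row 207, block F1 (helper7): frame components of tensors
-/

set_option autoImplicit false

open Set Metric Filter Topology Matrix Function
open scoped ContDiff BigOperators
open Crest.GeometryTopology.CoordMetric Crest.GeometryTopology.ChartCurvature
  Crest.GeometryTopology.MetricFamily
open Crest.Agent.R202.Tens Crest.Agent.R247.Bo84 Crest.Agent.N207.AI

noncomputable section

namespace Crest.Agent.N207.F

variable {n k : ℕ}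

/-- the frame vectors -/
def col (E : MetricField n) (x : En n) (a : Fin n) : En n := WithLp.toLp 2 fun l => E x l a

/-- frame components -/
def fc (E : MetricField n) (T : Tn n k) (I : Fin k → Fin n) (x : En n) : ℝ :=
  frA (col E x) (T x) I

namespace RF

variable {G E : MetricField n} {ρ : Dom n} {x : En n}

theorem sm_col (h : RF G ρ E) (a : Fin n) : ContDiffOn ℝ ∞ (fun y => col E y a) ρ.U :=
  fun _ hy => (contDiffAt_toLp fun l => (h.sm l a).cda hy).contDiffWithinAt

theorem sm_fc (h : RF G ρ E) {T : Tn n k} (hT : SmT T ρ.U) (I : Fin k → Fin n) :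
    Sm ρ (fc E T I) := contDiffOn_evT hT fun s => h.sm_col (I s)

theorem nsq_eq (h : RF G ρ E) (hx : x ∈ ρ.U) (T : Tn n k) :
    nsq G T x = ∑ I, fc E T I x * fc E T I x := by
  refine ipA_frame (fun i j => ?_) _ _
  rw [h.inv_eq hx, Matrix.mul_apply]
  rfl

theorem abs_fc_le (h : RF G ρ E) (hx : x ∈ ρ.U) {T : Tn n k} {B : ℝ} (hB : 0 ≤ B)
    (hT : nsq G T x ≤ B ^ 2) (I : Fin k → Fin n) : |fc E T I x| ≤ B := by
  refine abs_le_of_sq_le_sq' ?_ hB |> abs_le.2
  rw [h.nsq_eq hx] at hT
  refine le_trans ?_ hT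
  rw [sq]
  exact Finset.single_le_sum (f := fun I => fc E T I x * fc E T I x)
    (fun _ _ => mul_self_nonneg _) (Finset.mem_univ I)

theorem eb_eq (h : RF G ρ E) (hx : x ∈ ρ.U) (i : Fin n) :
    (eb i : En n) = ∑ c, th G E x c i • col E x c := by
  ext l
  have := congrFun (congrFun (h.mul_th hx) l) i
  rw [Matrix.mul_apply, Matrix.one_apply] at this
  simp only [PiLp.single_apply, ← this, WithLp.ofLp_sum, Finset.sum_apply, PiLp.smul_apply, col,
    smul_eq_mul, mul_comm]

theorem cov_col (h : RF G ρ E) (hx : x ∈ ρ.U) (i a : Fin n) :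
    fderiv ℝ (fun y => col E y a) x (eb i) + Gam G x (eb i) (col E x a) =
      ∑ b, om G E i x b a • col E x b := by
  ext l
  have hd : DifferentiableAt ℝ (fun y => col E y a) x :=
    ((h.sm_col a).contDiffAt (ρ.op.mem_nhds hx)).differentiableAt (by simp)
  have h1 : fderiv ℝ (fun y => col E y a) x (eb i) l = pdM i E x l a := by
    have := ((EuclideanSpace.proj l : En n →L[ℝ] ℝ).hasFDerivAt.comp x hd.hasFDerivAt).fderiv
    exact (congrArg (fun L : En n →L[ℝ] ℝ => L (eb i)) this).symm
  have h2 := congrFun (congrFun (h.E_om hx i) l) a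
  rw [PiLp.add_apply, h1, Gam_apply]
  simp only [WithLp.ofLp_sum, Finset.sum_apply, PiLp.smul_apply, col, smul_eq_mul,
    PiLp.single_apply, mul_ite, mul_one, mul_zero, ite_mul, zero_mul]
  rw [Finset.sum_comm]
  simp only [Finset.sum_ite_eq', Finset.mem_univ, if_true]
  rw [Matrix.mul_apply, Qm, Matrix.add_apply, Matrix.mul_apply] at h2
  simp only [Gm, Matrix.of_apply] at h2
  rw [← h2]
  exact Finset.sum_congr rfl fun b _ => mul_comm _ _

/-- **derivative of frame components** -/
theorem pd_fc (h : RF G ρ E) (hx : x ∈ ρ.U) {T : Tn n k} (hT : SmT T ρ.U)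
    (I : Fin k → Fin n) (i : Fin n) :
    pderiv i (fc E T I) x = ∑ c, th G E x c i * fc E (cov G T) (Fin.cons c I) x +
      ∑ s, ∑ b, om G E i x b (I s) * fc E T (update I s b) x := by
  have h1 := fderiv_evT_cov G (T := T) (c := fun y : En n => y)
    (v := fun y s => col E y (I s)) (p := x) (hT.dAt ρ.op hx) differentiableAt_id
    (fun s => ((h.sm_col (I s)).contDiffAt (ρ.op.mem_nhds hx)).differentiableAt (by simp))
    (eb i)
  simp only [fderiv_fun_id, ContinuousLinearMap.id_apply, h.cov_col hx, evT_update_sum] at h1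
  refine h1.trans ?_
  congr 1
  · rw [← Fin.update_cons_zero (α := fun _ => En n) 0 (fun s => col E x (I s)) (eb i),
      h.eb_eq hx i, evT_update_sum]
    refine Finset.sum_congr rfl fun c _ => ?_
    rw [Fin.update_cons_zero, fc, frA_apply]
    congr 2
    funext s
    refine Fin.cases rfl (fun _ => rfl) s
  · refine Finset.sum_congr rfl fun s _ => Finset.sum_congr rfl fun b _ => ?_
    rw [fc, frA_apply]
    congr 2
    exact (Function.comp_update (col E x) I s b).symm

/-- the second structure equation in frame components -/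
theorem eq2_fc (h : RF G ρ E) (hx : x ∈ ρ.U) (i a b : Fin n) :
    eul (fun y => om G E i y a b) x + om G E i x a b =
      ∑ d, (∑ c, fc E (rmT G) ![a, b, c, d] x * x c) * th G E x d i := by
  set M : Matrix (Fin n) (Fin n) ℝ :=
    Matrix.of fun j m => ∑ l, ∑ q, E x l a * E x q b * riemannLower G x l q j m with hM
  have h1 : ∀ c d, fc E (rmT G) ![a, b, c, d] x = ((E x)ᵀ * M * E x) c d := by
    intro c d
    rw [fc, frA_apply, evT_four, Matrix.mul_assoc, Matrix.mul_apply]
    simp only [Matrix.mul_apply, hM, Matrix.of_apply, Matrix.transpose_apply, Finset.mul_sum,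
      Finset.sum_mul]
    have e : ∀ F : Fin n → Fin n → Fin n → Fin n → ℝ,
        ∑ l, ∑ q, ∑ j, ∑ m, F l q j m = ∑ j, ∑ m, ∑ l, ∑ q, F l q j m := by
      intro F
      rw [← Fintype.sum_prod_type', ← Fintype.sum_prod_type' (f := fun j m => ∑ l, ∑ q, F l q j m)]
      simp only [← Fintype.sum_prod_type' (f := fun j m => F _ _ j m),
        ← Fintype.sum_prod_type' (f := fun l q => F l q _ _)]
      exact Finset.sum_comm
    rw [e]
    refine Finset.sum_congr rfl fun j _ => Finset.sum_congr rfl fun m _ =>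
      Finset.sum_congr rfl fun l _ => Finset.sum_congr rfl fun q _ => ?_
    simp only [col, rmT, Matrix.cons_val_zero, Matrix.cons_val_one, Matrix.cons_val]
    ring
  have h2 : ∑ d, (∑ c, ((E x)ᵀ * M * E x) c d * x c) * th G E x d i =
      ∑ c, ((E x)ᵀ * M * E x * th G E x) c i * x c := by
    simp only [Matrix.mul_apply (M := (E x)ᵀ * M * E x), Finset.sum_mul]
    rw [Finset.sum_comm]
    exact Finset.sum_congr rfl fun c _ => Finset.sum_congr rfl fun d _ => by ring
  simp only [h1]
  rw [h2, Matrix.mul_assoc, h.mul_th hx, Matrix.mul_one, h.eq2_apply hx]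
  simp only [Matrix.mul_apply, Matrix.transpose_apply, Finset.sum_mul]
  rw [Finset.sum_comm (f := fun c j => E x j c * M j i * x c)]
  have h3 : ∀ j, ∑ c, E x j c * M j i * x c = x j * M j i := by
    intro j
    rw [← h.E_rad hx j, Finset.sum_mul]
    exact Finset.sum_congr rfl fun c _ => by ring
  rw [Finset.sum_congr rfl fun j _ => h3 j]
  simp only [hM, Matrix.of_apply, Finset.mul_sum]
  rw [Finset.sum_comm (f := fun j l => ∑ q, x j * (E x l a * E x q b * riemannLower G x l q j i))]
  refine Finset.sum_congr rfl fun l _ => ?_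
  rw [Finset.sum_comm]
  exact Finset.sum_congr rfl fun j _ => Finset.sum_congr rfl fun q _ => by ring

end RF

end Crest.Agent.N207.F
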