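import Crest.Agent.N207.F.Nc6
import Crest.Agent.N207.F.Nc2

/-!
# Row 207, block F1 (helper7): uniform bounds for the coframe, the connection form and the metric
-/

set_option autoImplicit false

open Set Metric Filter Topology Matrix Function
open scoped ContDiff BigOperators
open Crest.GeometryTopology.CoordMetric Crest.GeometryTopology.ChartCurvature
  Crest.GeometryTopology.MetricFamily

noncomputable section

namespace Crest.Agent.N207.F

/-- a metric in normal coordinates with scale invariant curvature bounds -/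
structure Dat (n M : ℕ) (K : ℝ) where
  D : Dom n
  δ : ℝ
  G : MetricField n
  E : MetricField n
  hδ : 0 < δ
  hK : δ ≤ K
  rf : RF G D E
  bd : ∀ j ≤ M, ∀ x ∈ D.U, nsq G (covN G (rmT G) j) x ≤ (δ / D.ρ ^ (j + 2)) ^ 2

namespace Dat

variable {n M : ℕ} {K : ℝ}

/-- normalised frame components of `∇ʲ Rm` -/
def FR (n M : ℕ) (K : ℝ) (j : ℕ) (I : Fin (4 + j) → Fin n) (d : Dat n M K) (x : En n) : ℝ :=
  d.D.ρ ^ (j + 2) / d.δ * fc d.E (covN d.G (rmT d.G) j) I x

/-- `(θ - 1) / δ` -/
def U (n M : ℕ) (K : ℝ) (a i : Fin n) (d : Dat n M K) (x : En n) : ℝ :=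
  (th d.G d.E x a i - if a = i then 1 else 0) / d.δ

/-- `ρ ω / δ` -/
def W (n M : ℕ) (K : ℝ) (i a b : Fin n) (d : Dat n M K) (x : En n) : ℝ :=
  d.D.ρ / d.δ * om d.G d.E i x a b

theorem smT (d : Dat n M K) (j : ℕ) : SmT (covN d.G (rmT d.G) j) d.D.U :=
  (SmT.rmT d.rf.riem).covN d.rf.riem j

theorem sm_FR (j : ℕ) (I : Fin (4 + j) → Fin n) (d : Dat n M K) : Sm d.D (FR n M K j I d) :=
  contDiffOn_const.mul (d.rf.sm_fc (d.smT j) I)

theorem sm_U (a i : Fin n) (d : Dat n M K) : Sm d.D (U n M K a i d) :=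
  ((d.rf.sm_th a i).sub contDiffOn_const).div_const _

theorem sm_W (i a b : Fin n) (d : Dat n M K) : Sm d.D (W n M K i a b d) :=
  contDiffOn_const.mul (d.rf.sm_om i a b)

theorem abs_FR_le {j : ℕ} (hj : j ≤ M) (I : Fin (4 + j) → Fin n) (d : Dat n M K) {x : En n}
    (hx : x ∈ d.D.U) : |FR n M K j I d x| ≤ 1 := by
  have hρ := d.D.pos
  have hδ := d.hδ
  have h := d.rf.abs_fc_le hx (by positivity) (d.bd j hj x hx) I
  rw [FR, abs_mul, abs_of_pos (by positivity)]
  refine (mul_le_mul_of_nonneg_left h (by positivity)).trans (le_of_eq ?_)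
  field_simp

theorem th_eq (d : Dat n M K) (x : En n) (a i : Fin n) :
    th d.G d.E x a i = d.δ * U n M K a i d x + if a = i then 1 else 0 := by
  have := d.hδ.ne'
  rw [U]; field_simp; ring

theorem eul_U (a i : Fin n) (d : Dat n M K) {x : En n} (hx : x ∈ d.D.U) :
    eul (U n M K a i d) x + U n M K a i d x = ∑ b, x b / d.D.ρ * W n M K i a b d x := by
  have hρ := d.D.pos.ne'
  have hδ := d.hδ.ne'
  have h1 : eul (U n M K a i d) x = eul (fun y => th d.G d.E y a i) x / d.δ := by
    simp only [eul_eq]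
    unfold U
    simp only [div_eq_mul_inv]
    rw [fderiv_mul_const (((d.rf.sm_th a i).da hx).sub_const _), fderiv_sub_const]
    simp [mul_comm]
  have h2 : ∑ b, x b / d.D.ρ * W n M K i a b d x = (∑ b, om d.G d.E i x a b * x b) / d.δ := by
    rw [Finset.sum_div]
    refine Finset.sum_congr rfl fun b _ => ?_
    rw [W]; field_simp
  rw [h1, h2, U, ← add_div]
  congr 1
  linarith [d.rf.eq1 hx a i]

theorem eul_W (i a b : Fin n) (d : Dat n M K) {x : En n} (hx : x ∈ d.D.U) :
    eul (W n M K i a b d) x + W n M K i a b d x =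
      ∑ e, (∑ c, FR n M K 0 ![a, b, c, e] d x * (x c / d.D.ρ)) * th d.G d.E x e i := by
  have hρ := d.D.pos.ne'
  have hδ := d.hδ.ne'
  have h1 : eul (W n M K i a b d) x = d.D.ρ / d.δ * eul (fun y => om d.G d.E i y a b) x := by
    simp only [eul_eq]
    unfold W
    rw [fderiv_const_mul ((d.rf.sm_om i a b).da hx)]
    simp
  rw [h1, W, ← mul_add, d.rf.eq2_fc hx, Finset.mul_sum]
  refine Finset.sum_congr rfl fun e _ => ?_
  rw [← mul_assoc, Finset.mul_sum]
  congr 1
  refine Finset.sum_congr rfl fun c _ => ?_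
  have : FR n M K 0 ![a, b, c, e] d x = d.D.ρ ^ 2 / d.δ * fc d.E (rmT d.G) ![a, b, c, e] x := rfl
  rw [this]; field_simp

theorem bd_del {m : ℕ} : Bd (n := n) (fun d : Dat n M K => d.D) m fun d _ => d.δ :=
  Bd.const ⟨K, fun d => by rw [abs_of_pos d.hδ]; exact d.hK⟩

theorem abs_S_le (a b e : Fin n) (d : Dat n M K) {x : En n} (hx : x ∈ d.D.U) :
    |∑ c, FR n M K 0 ![a, b, c, e] d x * (x c / d.D.ρ)| ≤ n * (‖x‖ / d.D.ρ) := by
  refine (Finset.abs_sum_le_sum_abs _ _).trans ?_
  have : ∀ c, |FR n M K 0 ![a, b, c, e] d x * (x c / d.D.ρ)| ≤ ‖x‖ / d.D.ρ := fun c => by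
    rw [abs_mul]
    exact (mul_le_of_le_one_left (abs_nonneg _) (abs_FR_le (Nat.zero_le _) _ d hx)).trans
      (abs_coord_div_le d.D.pos x c)
  simpa using Finset.sum_le_sum fun c (_ : c ∈ Finset.univ) => this c

/-- bounds for `θ` and `ω` from bounds for the curvature -/
theorem bd_UW {m : ℕ} (hF : ∀ I, Bd (fun d : Dat n M K => d.D) m (FR n M K 0 I)) (i : Fin n) :
    (∀ a, Bd (fun d : Dat n M K => d.D) m (U n M K a i)) ∧
      ∀ a b, Bd (fun d : Dat n M K => d.D) m (W n M K i a b) := by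
  set S : Fin n → Fin n → Fin n → Dat n M K → En n → ℝ := fun a b e d x =>
    ∑ c, FR n M K 0 ![a, b, c, e] d x * (x c / d.D.ρ) with hS
  have hSb : ∀ a b e, Bd (fun d : Dat n M K => d.D) m (S a b e) := fun a b e =>
    Bd.sum _ fun c _ => (hF _).mul (Bd.coord c)
  let L : Fin n ⊕ Fin n × Fin n → Fin n ⊕ Fin n × Fin n → Dat n M K → En n → ℝ := fun p q =>
    match p, q with
    | .inl a, .inr (a', b) => fun d x => (if a' = a then 1 else 0) * (x b / d.D.ρ)
    | .inr (a, b), .inl e => fun d x => d.δ * S a b e d x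
    | _, _ => fun _ _ => 0
  have key := Bd.ode (r := fun d : Dat n M K => d.D) (L := L) (A := 1 + |K| * n)
    (by positivity) ?_ m 0
    (u := Sum.elim (fun a => U n M K a i) fun p => W n M K i p.1 p.2)
    (f := Sum.elim (fun _ _ _ => 0) fun p => S p.1 p.2 i) ?_ ?_ ?_ ?_
  · exact ⟨fun a => key (.inl a), fun a b => key (.inr (a, b))⟩
  · intro p q d x hx
    have h0 : 0 ≤ ‖x‖ / d.D.ρ := div_nonneg (norm_nonneg _) d.D.pos.le
    have hKn : 0 ≤ |K| * n := by positivity
    rcases p with a | ⟨a, b⟩ <;> rcases q with e | ⟨a', b'⟩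
    · simp only [L, abs_zero]; positivity
    · simp only [L, abs_mul]
      have h1 : |(if a' = a then 1 else 0 : ℝ)| ≤ 1 := by split_ifs <;> simp
      refine (mul_le_of_le_one_left (abs_nonneg _) h1).trans
        ((abs_coord_div_le d.D.pos x b').trans ?_)
      nlinarith
    · simp only [L, abs_mul, abs_of_pos d.hδ]
      have h1 := abs_S_le a b e d hx
      have h2 : d.δ ≤ |K| := d.hK.trans (le_abs_self K)
      calc d.δ * |S a b e d x| ≤ |K| * (n * (‖x‖ / d.D.ρ)) := by gcongr
        _ ≤ _ := by nlinarith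
    · simp only [L, abs_zero]; positivity
  · rintro (a | ⟨a, b⟩) d
    · exact sm_U a i d
    · exact sm_W i a b d
  · rintro (a | ⟨a, b⟩) d x hx
    · simp only [Sum.elim_inl, Sum.elim_inr, Fintype.sum_sum_type, Fintype.sum_prod_type, L,
        zero_mul, Finset.sum_const_zero, zero_add, add_zero, Nat.cast_one, one_mul, ite_mul,
        eul_U a i d hx]
      rw [Finset.sum_comm]
      simp
    · simp only [Sum.elim_inl, Sum.elim_inr, Fintype.sum_sum_type, L,
        zero_mul, Finset.sum_const_zero, zero_add, add_zero, Nat.cast_one, one_mul,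
        eul_W i a b d hx, d.th_eq, mul_add, Finset.sum_add_distrib, mul_ite, mul_one, mul_zero,
        Finset.sum_ite_eq', Finset.mem_univ, if_true]
      congr 1
      exact Finset.sum_congr rfl fun e _ => by simp only [hS]; ring
  · rintro (a | ⟨a, b⟩) (e | ⟨a', b'⟩)
    · exact Bd.const' 0
    · exact (Bd.const' _).mul (Bd.coord b')
    · exact bd_del.mul (hSb a b e)
    · exact Bd.const' 0
  · rintro (a | ⟨a, b⟩)
    · exact Bd.const' 0
    · exact hSb a b i

theorem bd_FR (m : ℕ) : ∀ j, j + m ≤ M → ∀ I, Bd (fun d : Dat n M K => d.D) m (FR n M K j I) := by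
  have h0 : ∀ j ≤ M, ∀ I, Bd (fun d : Dat n M K => d.D) 0 (FR n M K j I) := fun j hj I =>
    ⟨sm_FR j I, 1, fun d _ hx => abs_FR_le hj I d hx⟩
  induction m with
  | zero => exact h0
  | succ m ih =>
    intro j hj I
    refine ⟨h0 j (by omega) I, fun i => ?_⟩
    obtain ⟨hU, hW⟩ := bd_UW (ih 0 (by omega)) i
    have h1 : Bd (fun d : Dat n M K => d.D) m fun d x =>
        ∑ c, (d.δ * U n M K c i d x + if c = i then 1 else 0) *
            FR n M K (j + 1) (Fin.cons c I : Fin (4 + j + 1) → Fin n) d x +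
          ∑ s, ∑ b, d.δ * W n M K i b (I s) d x * FR n M K j (update I s b) d x :=
      (Bd.sum _ fun c _ => ((bd_del.mul (hU c)).add (Bd.const' _)).mul
        (ih (j + 1) (by omega) _)).add
        (Bd.sum _ fun s _ => Bd.sum _ fun b _ => (bd_del.mul (hW b (I s))).mul (ih j (by omega) _))
    refine h1.congr fun d x hx => ?_
    have hρ := d.D.pos.ne'
    have hδ := d.hδ.ne'
    have e : pderiv i (FR n M K j I d) x =
        d.D.ρ ^ (j + 2) / d.δ * pderiv i (fc d.E (covN d.G (rmT d.G) j) I) x := by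
      unfold FR
      rw [pd_mul (differentiableAt_const _) ((d.rf.sm_fc (d.smT j) I).da hx), pd_const]
      ring
    simp only [F.D]
    rw [e, d.rf.pd_fc hx (d.smT j), mul_add, mul_add, Finset.mul_sum, Finset.mul_sum,
      Finset.mul_sum, Finset.mul_sum]
    congr 1
    · refine Finset.sum_congr rfl fun c _ => ?_
      have : FR n M K (j + 1) (Fin.cons c I : Fin (4 + j + 1) → Fin n) d x =
          d.D.ρ ^ (j + 1 + 2) / d.δ *
            fc d.E (cov d.G (covN d.G (rmT d.G) j)) (Fin.cons c I) x := rfl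
      rw [← d.th_eq, this]
      ring
    · refine Finset.sum_congr rfl fun s _ => ?_
      rw [Finset.mul_sum, Finset.mul_sum]
      refine Finset.sum_congr rfl fun b _ => ?_
      rw [W, FR]
      field_simp

theorem bd_U (a i : Fin n) : Bd (fun d : Dat n M K => d.D) M (U n M K a i) :=
  (bd_UW (bd_FR M 0 (by omega)) i).1 a

theorem bd_W (i a b : Fin n) : Bd (fun d : Dat n M K => d.D) M (W n M K i a b) :=
  (bd_UW (bd_FR M 0 (by omega)) i).2 a b

theorem metric_sub (d : Dat n M K) {x : En n} (hx : x ∈ d.D.U) (a b : Fin n) :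
    (d.G x a b - (1 : Matrix (Fin n) (Fin n) ℝ) a b) / d.δ =
      ∑ c, d.δ * U n M K c a d x * U n M K c b d x + U n M K b a d x + U n M K a b d x := by
  have hδ := d.hδ.ne'
  rw [d.rf.metric_eq hx, Matrix.mul_apply, div_eq_iff hδ]
  simp only [Matrix.transpose_apply, d.th_eq, add_mul, mul_add, Finset.sum_add_distrib, mul_ite,
    ite_mul, mul_one, one_mul, mul_zero, zero_mul, Finset.sum_ite_eq', Finset.mem_univ, if_true,
    Matrix.one_apply, Finset.sum_mul]
  have : ∑ c, d.δ * U n M K c a d x * (d.δ * U n M K c b d x) =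
      ∑ c, d.δ * U n M K c a d x * U n M K c b d x * d.δ :=
    Finset.sum_congr rfl fun c _ => by ring
  rw [this]
  by_cases hab : a = b
  · subst hab; simp only [if_true]; ring
  · simp only [hab, Ne.symm hab, if_false]; ring

theorem bd_metric (a b : Fin n) : Bd (fun d : Dat n M K => d.D) M
    fun d x => (d.G x a b - (1 : Matrix (Fin n) (Fin n) ℝ) a b) / d.δ :=
  (((Bd.sum _ fun c _ => (bd_del.mul (bd_U c a)).mul (bd_U c b)).add (bd_U b a)).add
    (bd_U a b)).congr fun d _ hx => d.metric_sub hx a b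

end Dat

end Crest.Agent.N207.F
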