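import Crest.Agent.N207.F.Exp
import Crest.Agent.N207.Sk.Defs

/-!
# Row 207, block F (helper26): the static ball chart

`par_exp`: the exponential map is an almost Euclidean immersion on a ball of definite size;
`static_chart`: it is injective on a smaller ball of definite size (volume lower bound).
-/

set_option autoImplicit false
set_option linter.unusedSectionVars false
set_option maxSynthPendingDepth 3

open Bundle Set Filter Topology Metric MeasureTheory
open scoped ContDiff Manifold ENNReal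
open Crest.GeometryTopology.CoordMetric
open Crest.Agent.R244.CF (IsLC gB Gam gB_apply isLC_of_isRiemannianOn koszul_gB fderiv_gB_apply)
open Crest.Agent.R226
open Crest.Agent.R249.B2Pull_474

noncomputable section

namespace Crest.Agent.N207.F

variable {n : ℕ}

theorem abs_coord_le (u : En n) (i : Fin n) : |u i| ≤ ‖u‖ := by
  simpa using PiLp.norm_apply_le u i

theorem gB_near {G : MetricField n} {x : En n} {ε : ℝ}
    (h : ∀ a b, |G x a b - (1 : Matrix (Fin n) (Fin n) ℝ) a b| ≤ ε) (u : En n) :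
    |gB G x u u - ‖u‖ ^ 2| ≤ n ^ 2 * ε * ‖u‖ ^ 2 := by
  have e1 : ‖u‖ ^ 2 = ∑ i, ∑ j, (1 : Matrix (Fin n) (Fin n) ℝ) i j * u i * u j := by
    rw [EuclideanSpace.real_norm_sq_eq]
    refine Finset.sum_congr rfl fun i _ => ?_
    simp [Matrix.one_apply, sq]
  have e2 : gB G x u u - ‖u‖ ^ 2
      = ∑ i, ∑ j, (G x i j - (1 : Matrix (Fin n) (Fin n) ℝ) i j) * u i * u j := by
    rw [gB_apply, e1, ← Finset.sum_sub_distrib]
    refine Finset.sum_congr rfl fun i _ => ?_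
    rw [← Finset.sum_sub_distrib]
    exact Finset.sum_congr rfl fun j _ => by ring
  rw [e2]
  calc _ ≤ ∑ i, |∑ j, (G x i j - (1 : Matrix (Fin n) (Fin n) ℝ) i j) * u i * u j| :=
        Finset.abs_sum_le_sum_abs _ _
    _ ≤ ∑ _i : Fin n, ∑ _j : Fin n, ε * ‖u‖ * ‖u‖ := by
        refine Finset.sum_le_sum fun i _ => (Finset.abs_sum_le_sum_abs _ _).trans
          (Finset.sum_le_sum fun j _ => ?_)
        rw [abs_mul, abs_mul]
        have h0 : 0 ≤ ε := (abs_nonneg _).trans (h i j)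
        gcongr
        · exact h i j
        · exact abs_coord_le u i
        · exact abs_coord_le u j
    _ = _ := by simp; ring

theorem norm_Gam_le {G : MetricField n} {U : Set (En n)} (hG : IsRiemannianOn G U) {x : En n}
    (hx : x ∈ U) (hlo : ∀ u, ‖u‖ ^ 2 ≤ 2 * gB G x u u) {A : ℝ} (hA0 : 0 ≤ A)
    (hA : ∀ i j k, |pderiv i (fun y => G y j k) x| ≤ A) (u : En n) :
    ‖Gam G x u u‖ ≤ 3 * n ^ 3 * A * ‖u‖ ^ 2 := by
  have hD : ∀ a b c : En n, |fderiv ℝ (gB G) x a b c| ≤ n ^ 3 * A * (‖a‖ * ‖b‖ * ‖c‖) := by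
    intro a b c
    rw [fderiv_gB_apply hG hx]
    calc _ ≤ ∑ _i : Fin n, ∑ _j : Fin n, ∑ _k : Fin n, A * ‖a‖ * ‖b‖ * ‖c‖ := by
          refine (Finset.abs_sum_le_sum_abs _ _).trans (Finset.sum_le_sum fun i _ => ?_)
          refine (Finset.abs_sum_le_sum_abs _ _).trans (Finset.sum_le_sum fun j _ => ?_)
          refine (Finset.abs_sum_le_sum_abs _ _).trans (Finset.sum_le_sum fun k _ => ?_)
          rw [abs_mul, abs_mul, abs_mul]
          gcongr
          · exact hA i j k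
          · exact abs_coord_le a i
          · exact abs_coord_le b j
          · exact abs_coord_le c k
      _ = _ := by simp; ring
  set w := Gam G x u u with hw
  have h1 := hlo w
  have h2 : gB G x w w = _ := koszul_gB hG hx u u w
  have h3 := abs_le.1 (hD u u w)
  have h4 := abs_le.1 (hD w u u)
  have h5 : ‖w‖ * ‖w‖ ≤ 3 * n ^ 3 * A * ‖u‖ ^ 2 * ‖w‖ := by nlinarith
  rcases (norm_nonneg w).eq_or_lt with h6 | h6
  · rw [← h6]; positivity
  · exact le_of_mul_le_mul_right h5 h6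

universe u

/-- the exponential map is an almost Euclidean immersion on a ball of definite size -/
theorem par_exp (n : ℕ) (K : ℝ) : ∃ c, 0 < c ∧ c ≤ 1 ∧ ∀ {M : Type u} [TopologicalSpace M]
    [ChartedSpace (En n) M] [IsManifold 𝓘(ℝ, En n) ∞ M] [T3Space M] [ConnectedSpace M]
    {m : Met n M} {p : M} {Ψ : En n → M} {r : ℝ}, IsExp m p Ψ → 0 < r →
    (∀ q ∈ m.ball p r, m.rm 0 q ≤ (K / r ^ 2) ^ 2) → Par Ψ (ball 0 (c * r)) ∧
      ∀ x ∈ ball (0 : En n) (c * r), ∀ v,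
        ‖v‖ ^ 2 ≤ 2 * gB (m.pm Ψ) x v v ∧ gB (m.pm Ψ) x v v ≤ 2 * ‖v‖ ^ 2 := by
  set K' := |K| + 1 with hK'
  have hK0 : 0 < K' := by positivity
  obtain ⟨C, hC0, hC⟩ := c0_bound n K'
  set D : ℝ := 2 * n ^ 2 * (C * K') + 1 with hD
  have hD1 : 1 ≤ D := by rw [hD]; linarith [show 0 ≤ 2 * (n : ℝ) ^ 2 * (C * K') by positivity]
  have hD0 : 0 < D := by linarith
  refine ⟨1 / D, by positivity, by rw [div_le_one hD0]; exact hD1,
    fun {M _ _ _ _ _ m p Ψ r} h hr hK => ?_⟩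
  set G := m.pm Ψ with hG
  set ε : ℝ := C * K' * (1 / D) with hε
  have hcr : 1 / D * r ≤ r := by
    have : 1 / D ≤ 1 := by rw [div_le_one hD0]; exact hD1
    nlinarith
  have hnε : (n : ℝ) ^ 2 * ε ≤ 1 / 2 := by
    rw [hε, mul_one_div, ← mul_div_assoc, div_le_iff₀ hD0, hD]; linarith
  have hq : ∀ x, (∀ a b, |G x a b - (1 : Matrix (Fin n) (Fin n) ℝ) a b| ≤ ε) → ∀ v,
      ‖v‖ ^ 2 ≤ 2 * gB G x v v ∧ gB G x v v ≤ 2 * ‖v‖ ^ 2 := fun x hx v => by
    have a1 := abs_le.1 (gB_near hx v)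
    have a2 : (n : ℝ) ^ 2 * ε * ‖v‖ ^ 2 ≤ 1 / 2 * ‖v‖ ^ 2 := by gcongr
    constructor <;> nlinarith [sq_nonneg ‖v‖]
  have hpos : ∀ x, (∀ a b, |G x a b - (1 : Matrix (Fin n) (Fin n) ℝ) a b| ≤ ε) →
      ∀ v, v ≠ 0 → 0 < gB G x v v := fun x hx v hv => by
    have a1 := (hq x hx v).1
    have a2 : 0 < ‖v‖ ^ 2 := by positivity
    linarith
  have hε0 : 0 ≤ ε := by positivity
  -- the bound on every ball where `Ψ` is an immersion
  have hb : ∀ ρ, 0 < ρ → ρ ≤ 1 / D * r → Par Ψ (ball 0 ρ) → ∀ x ∈ ball (0 : En n) ρ, ∀ a b,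
      |G x a b - (1 : Matrix (Fin n) (Fin n) ℝ) a b| ≤ ε := by
    intro ρ h0 h1 hP x hx a b
    have hsub : ball (0 : En n) ρ ⊆ ball 0 r := ball_subset_ball (h1.trans hcr)
    have a1 := hC (h.nc hP ((convex_ball 0 ρ).starConvex (mem_ball_self h0)) (mem_ball_self h0)
      hsub) hK0 le_rfl (fun y hy => by
        refine le_trans (le_of_eq (hP.par_rm m 0 hy).symm) ((hK _ (h.mem_ball (hsub hy))).trans ?_)
        rw [div_pow, div_pow, ← sq_abs K]
        gcongr
        linarith) x hx a b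
    refine a1.trans ?_
    have a2 : ‖x‖ / r ≤ 1 / D := by
      rw [div_le_iff₀ hr]; exact (mem_ball_zero_iff.1 hx).le.trans h1
    have a3 : (‖x‖ / r) ^ 2 ≤ 1 / D := by
      have : 1 / D ≤ 1 := by rw [div_le_one hD0]; exact hD1
      have a4 : 0 ≤ ‖x‖ / r := by positivity
      nlinarith
    rw [hε]
    gcongr
  have hc : ∀ a b, Continuous fun y => G y a b := fun a b => (h.contDiff_pm a b).continuous
  have hgc : Continuous (gB G) := by
    have a1 : ContDiff ℝ ∞ (gB G) := by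
      unfold gB
      exact ContDiff.sum fun i _ => ContDiff.sum fun j _ =>
        (h.contDiff_pm i j).smul contDiff_const
    exact a1.continuous
  set U : Set (En n) := {x | ∀ v, v ≠ 0 → 0 < gB G x v v} with hU
  have hUo : IsOpen U := isOpen_iff_mem_nhds.2 fun x hx => eventually_pos hgc hx
  have hpar : ∀ ρ, ball (0 : En n) ρ ⊆ U → Par Ψ (ball 0 ρ) := fun ρ hρ =>
    ⟨isOpen_ball, h.sm.contMDiffOn, fun y hy => inj_of_pos m (hρ hy)⟩
  have h0U : (0 : En n) ∈ U := hpos 0 fun a b => by rw [hG, h.one, sub_self, abs_zero]; exact hε0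
  have hall : ball (0 : En n) (1 / D * r) ⊆ U := by
    intro x hx
    by_contra hxU
    have hK : IsCompact (closedBall (0 : En n) ‖x‖ ∩ Uᶜ) :=
      (isCompact_closedBall _ _).inter_right hUo.isClosed_compl
    obtain ⟨z, hz, hmin⟩ := hK.exists_isMinOn ⟨x, mem_closedBall_zero_iff.2 le_rfl, hxU⟩
      continuous_norm.continuousOn
    have hz1 : ‖z‖ ≤ ‖x‖ := mem_closedBall_zero_iff.1 hz.1
    have hz0 : 0 < ‖z‖ := norm_pos_iff.2 fun e => hz.2 (e ▸ h0U)
    have hin : ball (0 : En n) ‖z‖ ⊆ U := fun y hy => by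
      by_contra hyU
      have a1 := mem_ball_zero_iff.1 hy
      have a2 : ‖z‖ ≤ ‖y‖ := hmin ⟨mem_closedBall_zero_iff.2 (a1.le.trans hz1), hyU⟩
      linarith
    have a3 := hb ‖z‖ hz0 (hz1.trans (mem_ball_zero_iff.1 hx).le) (hpar _ hin)
    refine hz.2 (hpos z fun a b => ?_)
    have a4 : IsClosed {y : En n | |G y a b - (1 : Matrix (Fin n) (Fin n) ℝ) a b| ≤ ε} :=
      isClosed_le ((hc a b).sub continuous_const).abs continuous_const
    have a5 := closure_minimal (fun y hy => a3 y hy a b) a4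
    rw [closure_ball _ hz0.ne'] at a5
    exact a5 (mem_closedBall_zero_iff.2 le_rfl)
  exact ⟨hpar _ hall, fun x hx => hq x (hb _ (by positivity) le_rfl (hpar _ hall) x hx)⟩

/-- the exponential map is injective on a ball of definite size -/
theorem injOn_exp (n : ℕ) (K κ : ℝ) (hκ : 0 < κ) : ∃ c, 0 < c ∧ c ≤ 1 / 8 ∧
    ∀ {M : Type u} [TopologicalSpace M] [ChartedSpace (En n) M] [IsManifold 𝓘(ℝ, En n) ∞ M]
    [T3Space M] [ConnectedSpace M] [MeasurableSpace M] [BorelSpace M] [CompactSpace M]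
    {m : Met n M} {p : M} {Ψ : En n → M} {r : ℝ}, IsExp m p Ψ → 0 < r →
    (∀ j ≤ 1, ∀ q ∈ m.ball p r, m.rm j q ≤ (K / r ^ (j + 2)) ^ 2) →
    (∀ q ∈ m.ball p r, ∀ s ∈ Ioc 0 r, κ * s ^ n ≤ m.vol.real (m.ball q s)) →
    Par Ψ (ball 0 (c * r)) ∧ InjOn Ψ (ball 0 (c * r)) := by
  set K' := |K| + 1 with hK'
  have hK0 : 0 < K' := by positivity
  obtain ⟨c, hc0, hc1, hc⟩ := par_exp.{u} n K
  obtain ⟨C, hC0, hC⟩ := jet_bound n 1 K'
  set om : ℝ := (volume (ball (0 : En n) 1)).toReal with hom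
  have hom0 : 0 ≤ om := ENNReal.toReal_nonneg
  set N0 : ℕ := ⌈2 ^ n * 3 ^ n * om / κ⌉₊ with hN0
  set P : ℝ := (20 * ((N0 : ℝ) + 1)) ^ (N0 + 1) with hP
  have hP1 : 1 ≤ P := one_le_pow₀ (by linarith [Nat.cast_nonneg (α := ℝ) N0])
  set B : ℝ := 3 * n ^ 3 * (C * K') with hB
  have hB0 : 0 ≤ B := by positivity
  set c0 : ℝ := min (c / (12 * P)) (1 / (48 * B * P + 8)) with hc0d
  have hc00 : 0 < c0 := lt_min (by positivity) (by positivity)
  have hc01 : c0 ≤ c / (12 * P) := min_le_left _ _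
  have hc02 : c0 ≤ 1 / (48 * B * P + 8) := min_le_right _ _
  have hBP : 0 ≤ 48 * B * P := by positivity
  refine ⟨c0, hc00, hc02.trans (one_div_le_one_div_of_le (by norm_num) (by linarith)),
    fun {M _ _ _ _ _ _ _ _ m p Ψ r} h hr hK hV => ?_⟩
  obtain ⟨hPar, hq⟩ := hc h hr (hK 0 zero_le_one)
  obtain ⟨G⟩ := nonempty_geo m
  set R := c * r with hR
  have hR0 : 0 < R := by positivity
  have hRr : R ≤ r := by rw [hR]; nlinarith
  have hsub : ball (0 : En n) R ⊆ ball 0 r := ball_subset_ball hRr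
  have hriem := hPar.riem m
  have him : Imm0 (n := n) (M := Sl m) (gB (m.pm Ψ)) (Gam (m.pm Ψ)) Ψ R :=
    ⟨isLC_of_isRiemannianOn hriem, fun x hx => isoM_par m hPar hx, fun x hx v => (hq x hx v).1,
      fun x hx v => (hq x hx v).2⟩
  have hjet := hC (h.nc hPar ((convex_ball 0 R).starConvex (mem_ball_self hR0))
    (mem_ball_self hR0) hsub) hK0 le_rfl (fun j hj y hy => by
      refine le_trans (le_of_eq (hPar.par_rm m j hy).symm)
        ((hK j hj _ (h.mem_ball (hsub hy))).trans ?_)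
      rw [div_pow, div_pow, ← sq_abs K]
      gcongr
      linarith) 1 le_rfl one_ne_zero
  have hΓ : ∀ x ∈ ball (0 : En n) R, ∀ v, ‖Gam (m.pm Ψ) x v v‖ ≤ B / r * ‖v‖ ^ 2 := by
    intro x hx v
    refine (norm_Gam_le hriem hx (fun w => (hq x hx w).1) (A := C * K' / r) (by positivity)
      (fun i j k => ?_) v).trans (le_of_eq (by rw [hB]; ring))
    have a1 := hjet x hx j k
    rw [norm_iteratedFDeriv_one, pow_one] at a1
    refine le_trans ?_ a1
    have a2 := (fderiv ℝ (fun y => m.pm Ψ y j k) x).le_opNorm (EuclideanSpace.single i (1 : ℝ))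
    simpa [pderiv] using a2
  have hcov := him.cov G
  have hfib : Fib (X := Sl m) Ψ (R / 4) N0 := by
    intro N f q f1 f2 f3
    rcases Nat.eq_zero_or_pos N with hN | hN
    · omega
    have a1 := hcov.card_le (geo_of G) f1 (t := R / 4) f2 f3 (by linarith)
    have a2 : q ∈ m.ball p r := f3 ⟨0, hN⟩ ▸ h.mem_ball
      (mem_ball_zero_iff.2 (by linarith [f2 ⟨0, hN⟩]))
    have a3 : ENNReal.ofReal (κ * (R / 4) ^ n) ≤ m.vol (m.ball q (R / 4)) :=
      ENNReal.ofReal_le_of_le_toReal (hV q a2 (R / 4) ⟨by positivity, by linarith⟩)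
    have a4 : (N : ℝ≥0∞) * ENNReal.ofReal (κ * (R / 4) ^ n)
        ≤ 2 ^ n * volume (closedBall (0 : En n) (R / 4 + 2 * (R / 4))) :=
      le_trans (by gcongr; exact a3) a1
    rw [Measure.addHaar_closedBall _ _ (by positivity), finrank_euclideanSpace_fin] at a4
    have a5 := ENNReal.toReal_mono (ENNReal.mul_ne_top (by simp)
      (ENNReal.mul_ne_top ENNReal.ofReal_ne_top measure_ball_lt_top.ne)) a4
    rw [ENNReal.toReal_mul, ENNReal.toReal_mul, ENNReal.toReal_mul,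
      ENNReal.toReal_ofReal (by positivity), ENNReal.toReal_ofReal (by positivity),
      ENNReal.toReal_natCast, ENNReal.toReal_pow, ENNReal.toReal_ofNat, ← hom,
      show R / 4 + 2 * (R / 4) = 3 * (R / 4) by ring, mul_pow] at a5
    have a6 : (0 : ℝ) < (R / 4) ^ n := by positivity
    have a7 : (N : ℝ) ≤ 2 ^ n * 3 ^ n * om / κ := by
      rw [le_div_iff₀ hκ]
      exact le_of_mul_le_mul_right (by linarith) a6
    exact Nat.cast_le.1 (a7.trans (Nat.le_ceil _))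
  have hcP : c0 * (12 * P) ≤ c := by rwa [le_div_iff₀ (by positivity)] at hc01
  have hcB : c0 * (48 * B * P + 8) ≤ 1 := by rwa [le_div_iff₀ (by positivity)] at hc02
  refine ⟨hPar.mono isOpen_ball (ball_subset_ball ?_), ?_⟩
  · rw [hR]; gcongr; nlinarith
  · refine hcov.injOn (him.deck (by positivity) hΓ) (R' := R / 4) (by linarith) hfib
      (by positivity) ?_ ?_
    · rw [← hP, hR]; nlinarith
    · rw [← hP]
      have e : 8 * (6 * (B / r)) * (c0 * r) * P = c0 * (48 * B * P) := by field_simp; ring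
      rw [e]; nlinarith

/-- **the static ball chart** -/
theorem static_chart (K κ : ℝ) (hκ : 0 < κ) : ∃ c0, 0 < c0 ∧ c0 ≤ 1 / 8 ∧
    ∀ {M : Type u} [TopologicalSpace M] [ChartedSpace E4 M] [IsManifold 𝓘(ℝ, E4) ∞ M]
    [T3Space M] [ConnectedSpace M] [MeasurableSpace M] [BorelSpace M] [CompactSpace M]
    (g : Met 4 M) (x : M) (r : ℝ), 0 < r →
    (∀ j ≤ 1, ∀ p ∈ g.ball x r, g.rm j p ≤ (K / r ^ (j + 2)) ^ 2) →
    (∀ p ∈ g.ball x r, ∀ s ∈ Ioc 0 r, κ * s ^ 4 ≤ g.vol.real (g.ball p s)) →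
    ∃ φ : E4 → M, IsExp g x φ ∧ Sk.BallCh φ x (c0 * r) ∧
      (∀ s, φ '' ball 0 s = g.ball x s) ∧ NC (g.pm φ) (ball 0 (c0 * r)) (c0 * r) := by
  obtain ⟨c, h0, h1, hc⟩ := injOn_exp.{u} 4 K κ hκ
  refine ⟨c, h0, h1, fun {M _ _ _ _ _ _ _ _} g x r hr hK hV => ?_⟩
  obtain ⟨φ, hφ⟩ := exists_isExp g x
  obtain ⟨a1, a2⟩ := hc hφ hr hK hV
  have a3 : (0 : E4) ∈ ball (0 : E4) (c * r) := mem_ball_self (by positivity)
  exact ⟨φ, hφ, ⟨hφ.zero, a1, a2⟩, hφ.image_ball,
    hφ.nc a1 ((convex_ball _ _).starConvex a3) a3 subset_rfl⟩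

end Crest.Agent.N207.F

end
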