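import Crest.Agent.N207.F.Nc2
import Crest.Agent.N207.AI.GlobT

/-!
# Row 207, block F (helper7): uniform bounds along linear ODEs in time
-/

set_option autoImplicit false

open Set Metric Filter Topology
open scoped ContDiff BigOperators
open Crest.GeometryTopology.CoordMetric

noncomputable section

namespace Crest.Agent.N207.F

variable {n : ℕ}

/-- time and space derivatives commute -/
theorem dt_pd {J : Set ℝ} {U : Set (En n)} (hJ : IsOpen J) (hU : IsOpen U) {f : ℝ → En n → ℝ}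
    (hf : St f J U) {t : ℝ} (ht : t ∈ J) {f' : En n → ℝ}
    (hd : ∀ y ∈ U, HasDerivAt (fun s => f s y) (f' y) t) {x : En n} (hx : x ∈ U) (k : Fin n) :
    HasDerivAt (fun s => pderiv k (f s) x) (pderiv k f' x) t := by
  obtain ⟨F, hF⟩ : ∃ F : ℝ × En n → ℝ, F = fun p => f p.1 p.2 := ⟨_, rfl⟩
  have hfF : ∀ s y, f s y = F (s, y) := fun s y => by rw [hF]
  have hO : IsOpen (J ×ˢ U) := hJ.prod hU
  have hc : ∀ p ∈ J ×ˢ U, ContDiffAt ℝ 2 F p := fun p hp => by
    rw [hF]; exact (hf.contDiffAt (hO.mem_nhds hp)).of_le (by norm_cast)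
  have hda : ∀ p ∈ J ×ˢ U, HasFDerivAt F (fderiv ℝ F p) p := fun p hp =>
    ((hc p hp).differentiableAt (by simp)).hasFDerivAt
  have h2 := hc (t, x) ⟨ht, hx⟩
  have hs := h2.isSymmSndFDerivAt (by simp)
  have hD : HasFDerivAt (fderiv ℝ F) (fderiv ℝ (fderiv ℝ F) (t, x)) (t, x) :=
    ((h2.fderiv_right (m := 1) (by norm_num)).differentiableAt (by simp)).hasFDerivAt
  obtain ⟨e, he⟩ : ∃ e : En n, e = EuclideanSpace.single k 1 := ⟨_, rfl⟩
  have ht1 : ∀ y : En n, HasDerivAt (fun s : ℝ => (s, y)) ((1 : ℝ), (0 : En n)) t := fun y =>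
    (hasDerivAt_id t).prodMk (hasDerivAt_const t y)
  have e1 : (fun s => pderiv k (f s) x) =ᶠ[𝓝 t] fun s => fderiv ℝ F (s, x) (0, e) := by
    filter_upwards [hJ.mem_nhds ht] with s hs
    have h1 := HasFDerivAt.comp (g := F) (f := fun y : En n => (s, y)) x (hda (s, x) ⟨hs, hx⟩)
      (hasFDerivAt_prodMk_right (𝕜 := ℝ) s x)
    have h3 : f s = F ∘ fun y : En n => (s, y) := funext fun y => hfF s y
    rw [pderiv, h3, h1.fderiv, he]
    rfl
  have e2 : f' =ᶠ[𝓝 x] fun y => fderiv ℝ F (t, y) (1, 0) := by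
    filter_upwards [hU.mem_nhds hx] with y hy
    have h1 := HasFDerivAt.comp_hasDerivAt (l := F) (f := fun s : ℝ => (s, y)) t
      (hda (t, y) ⟨ht, hy⟩) (ht1 y)
    have h3 : (fun s => f s y) = F ∘ fun s : ℝ => (s, y) := funext fun s => hfF s y
    have h4 := hd y hy
    rw [h3] at h4
    exact h4.unique h1
  have h3 := (HasFDerivAt.comp_hasDerivAt (l := fderiv ℝ F) (f := fun s : ℝ => (s, x)) t hD
    (ht1 x)).clm_apply (hasDerivAt_const t ((0 : ℝ), e))
  have h4 := (HasFDerivAt.comp (g := fderiv ℝ F) (f := fun y : En n => (t, y)) x hD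
    (hasFDerivAt_prodMk_right (𝕜 := ℝ) t x)).clm_apply (hasFDerivAt_const ((1 : ℝ), (0 : En n)) x)
  have h5 : pderiv k f' x = fderiv ℝ (fderiv ℝ F) (t, x) (0, e) (1, 0) := by
    rw [pderiv, e2.fderiv_eq]
    have h6 : fderiv ℝ (fun y => fderiv ℝ F (t, y) (1, 0)) x = _ := h4.fderiv
    rw [h6, ← he]
    simp
  rw [h5, hs.eq]
  refine HasDerivAt.congr_of_eventuallyEq ?_ e1
  simpa using h3

/-- two-sided Grönwall estimate -/
theorem tgron {V : Type*} [NormedAddCommGroup V] [NormedSpace ℝ V] {v v' : ℝ → V}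
    {a b K F δ : ℝ} (hd : ∀ s ∈ uIcc a b, HasDerivAt v (v' s) s)
    (hb : ∀ s ∈ uIcc a b, |b - a| * ‖v' s‖ ≤ K * ‖v s‖ + F) (h0 : ‖v a‖ ≤ δ) :
    ‖v b‖ ≤ gronwallBound δ K F 1 := by
  have hm : ∀ σ ∈ Icc (0 : ℝ) 1, a + σ * (b - a) ∈ uIcc a b := by
    intro σ hσ
    have := (convex_uIcc a b).add_smul_sub_mem left_mem_uIcc right_mem_uIcc hσ
    simpa using this
  have hw : ∀ σ ∈ Icc (0 : ℝ) 1, HasDerivAt (fun σ => v (a + σ * (b - a)))
      ((b - a) • v' (a + σ * (b - a))) σ := by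
    intro σ hσ
    have h1 : HasDerivAt (fun σ : ℝ => a + σ * (b - a)) (b - a) σ := by
      simpa using ((hasDerivAt_id σ).mul_const (b - a)).const_add a
    exact (hd _ (hm σ hσ)).scomp σ h1
  have h := norm_le_gronwallBound_of_norm_deriv_right_le (δ := δ) (K := K) (ε := F)
    (a := 0) (b := 1) (fun σ hσ => (hw σ hσ).continuousAt.continuousWithinAt)
    (fun σ hσ => (hw σ (Ico_subset_Icc_self hσ)).hasDerivWithinAt) (by simpa using h0)
    (fun σ hσ => by
      rw [norm_smul, Real.norm_eq_abs]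
      exact hb _ (hm σ (Ico_subset_Icc_self hσ))) 1 ⟨zero_le_one, le_rfl⟩
  simpa using h

variable {ι : Type*}

/-- an index together with a time of its window -/
abbrev TI (t s : ι → ℝ) : Type _ := {p : ι × ℝ // p.2 ∈ uIcc (t p.1) (s p.1)}

/-- time windows -/
structure Win (t s τ : ι → ℝ) (J : ι → Set ℝ) : Prop where
  op : ∀ i, IsOpen (J i)
  sub : ∀ i, uIcc (t i) (s i) ⊆ J i
  pos : ∀ i, 0 < τ i
  le : ∀ i, |s i - t i| ≤ τ i

variable {r : ι → Dom n} {t s τ : ι → ℝ} {J : ι → Set ℝ}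

theorem Bd.lift {m : ℕ} {κ : Type*} (φ : κ → ι) : ∀ {f : ι → En n → ℝ}, Bd r m f →
    Bd (fun p => r (φ p)) m fun p => f (φ p) := by
  have h0 : ∀ {f : ι → En n → ℝ}, Bd r 0 f → Bd (fun p => r (φ p)) 0 fun p => f (φ p) :=
    fun ⟨h1, C, hC⟩ => ⟨fun p => h1 _, C, fun p => hC _⟩
  induction m with
  | zero => exact h0
  | succ m ih => exact fun hf => ⟨h0 hf.1, fun k => ih (hf.2 k)⟩

/-- **linear ODEs in time.** -/
theorem Bd.tode (W : Win t s τ J) {κ Q : Type*} [Fintype κ] [Fintype Q] (π : κ → Q → κ)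
    {C : κ → Q → ι → ℝ → En n → ℝ} (m : ℕ) : ∀ {u f : κ → ι → ℝ → En n → ℝ},
      (∀ a i, St (u a i) (J i) (r i).U) →
      (∀ a i, ∀ σ ∈ uIcc (t i) (s i), ∀ x ∈ (r i).U, HasDerivAt (fun σ => u a i σ x)
        ((∑ q, C a q i σ x * u (π a q) i σ x + f a i σ x) / τ i) σ) →
      (∀ a q, Bd (fun p : TI t s => r p.1.1) m fun p => C a q p.1.1 p.1.2) →
      (∀ a, Bd (fun p : TI t s => r p.1.1) m fun p => f a p.1.1 p.1.2) →
      (∀ a, Bd r m fun i => u a i (t i)) →
      ∀ a, Bd (fun p : TI t s => r p.1.1) m fun p => u a p.1.1 p.1.2 := by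
  have h0 : ∀ {u f : κ → ι → ℝ → En n → ℝ}, (∀ a i, St (u a i) (J i) (r i).U) →
      (∀ a i, ∀ σ ∈ uIcc (t i) (s i), ∀ x ∈ (r i).U, HasDerivAt (fun σ => u a i σ x)
        ((∑ q, C a q i σ x * u (π a q) i σ x + f a i σ x) / τ i) σ) →
      (∀ a q, Bd (fun p : TI t s => r p.1.1) 0 fun p => C a q p.1.1 p.1.2) →
      (∀ a, Bd (fun p : TI t s => r p.1.1) 0 fun p => f a p.1.1 p.1.2) →
      (∀ a, Bd r 0 fun i => u a i (t i)) →
      ∀ a, Bd (fun p : TI t s => r p.1.1) 0 fun p => u a p.1.1 p.1.2 := by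
    intro u f hu hd hC hf hi a
    obtain ⟨A, hA0, hA⟩ := exists_bd0 (f := fun (c : κ × Q) (p : TI t s) => C c.1 c.2 p.1.1 p.1.2)
      fun c => (hC c.1 c.2).bd0
    obtain ⟨F, hF0, hF⟩ := exists_bd0 fun a => (hf a).bd0
    obtain ⟨B, hB0, hB⟩ := exists_bd0 fun a => (hi a).bd0
    refine ⟨fun p => st_slice (hu a p.1.1) (W.sub _ p.2), gronwallBound B (Fintype.card Q * A) F 1,
      ?_⟩
    rintro ⟨⟨i, σ⟩, hσ⟩ x hx
    have hsub : uIcc (t i) σ ⊆ uIcc (t i) (s i) := uIcc_subset_uIcc left_mem_uIcc hσ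
    have hτ := W.pos i
    have hle : |σ - t i| ≤ τ i := by
      refine le_trans ?_ (W.le i)
      simpa [Real.dist_eq, abs_sub_comm] using Real.dist_le_of_mem_uIcc hσ left_mem_uIcc
    have h := tgron (v := fun σ a => u a i σ x)
      (v' := fun σ a => (∑ q, C a q i σ x * u (π a q) i σ x + f a i σ x) / τ i)
      (a := t i) (b := σ) (K := Fintype.card Q * A) (F := F) (δ := B)
      (fun z hz => hasDerivAt_pi.2 fun a => hd a i z (hsub hz) x hx) ?_
      ((pi_norm_le_iff_of_nonneg hB0).2 fun a => hB a i x hx)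
    · exact (norm_le_pi_norm (fun a => u a i σ x) a).trans h
    · intro z hz
      set N := ‖fun a => u a i z x‖ with hN
      have hN0 : 0 ≤ N := norm_nonneg _
      have h1 : ‖fun a => (∑ q, C a q i z x * u (π a q) i z x + f a i z x) / τ i‖ ≤
          (Fintype.card Q * A * N + F) / τ i := by
        refine (pi_norm_le_iff_of_nonneg (by positivity)).2 fun a => ?_
        rw [Real.norm_eq_abs, abs_div, abs_of_pos hτ]
        refine div_le_div_of_nonneg_right ?_ hτ.le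
        refine (abs_add_le _ _).trans (add_le_add ?_ (hF a ⟨(i, z), hsub hz⟩ x hx))
        refine (Finset.abs_sum_le_sum_abs _ _).trans ?_
        rw [mul_assoc, ← nsmul_eq_mul, ← Finset.card_univ, ← Finset.sum_const]
        refine Finset.sum_le_sum fun q _ => ?_
        rw [abs_mul]
        exact mul_le_mul (hA (a, q) ⟨(i, z), hsub hz⟩ x hx)
          (norm_le_pi_norm (fun a => u a i z x) (π a q)) (abs_nonneg _) hA0
      calc _ ≤ τ i * ((Fintype.card Q * A * N + F) / τ i) :=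
            mul_le_mul hle h1 (norm_nonneg _) hτ.le
        _ = _ := by field_simp
  induction m with
  | zero => exact h0
  | succ m ih =>
    intro u f hu hd hC hf hi a
    have hum := ih hu hd (fun a q => (hC a q).pred) (fun a => (hf a).pred) (fun a => (hi a).pred)
    refine ⟨h0 hu hd (fun a q => (hC a q).zero) (fun a => (hf a).zero) (fun a => (hi a).zero) a,
      fun k => ?_⟩
    refine ih (u := fun a i σ x => (r i).ρ * pderiv k (u a i σ) x)
      (f := fun a i σ x => ∑ q, (r i).ρ * pderiv k (C a q i σ) x * u (π a q) i σ x +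
        (r i).ρ * pderiv k (f a i σ) x)
      (fun a i => contDiffOn_const.mul (st_pderiv (r i).op (hu a i) k)) ?_
      (fun a q => (hC a q).pred)
      (fun a => (Bd.sum _ fun q _ => ((hC a q).2 k).mul (hum _)).add ((hf a).2 k))
      (fun a => (hi a).2 k) a
    intro a i σ hσ x hx
    have h1 := (dt_pd (W.op i) (r i).op (hu a i) (W.sub i hσ) (hd a i σ hσ) hx k).const_mul (r i).ρ
    refine h1.congr_deriv ?_
    have hCd : ∀ q, DifferentiableAt ℝ (C a q i σ) x := fun q =>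
      ((hC a q).sm ⟨(i, σ), hσ⟩).da hx
    have hud : ∀ b, DifferentiableAt ℝ (u b i σ) x := fun b => ((hum b).sm ⟨(i, σ), hσ⟩).da hx
    have hfd : DifferentiableAt ℝ (f a i σ) x := ((hf a).sm ⟨(i, σ), hσ⟩).da hx
    have hCu : ∀ q, DifferentiableAt ℝ (fun x => C a q i σ x * u (π a q) i σ x) x := fun q =>
      (hCd q).mul (hud _)
    have hS : DifferentiableAt ℝ (fun x => ∑ q, C a q i σ x * u (π a q) i σ x) x :=
      DifferentiableAt.fun_sum fun q _ => hCu q
    simp only [div_eq_mul_inv]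
    rw [F.pd_mul (hS.fun_add hfd) (differentiableAt_const _), F.pd_const, F.pd_add hS hfd,
      F.pd_sum _ (fun q _ => hCu q)]
    simp only [F.pd_mul (hCd _) (hud _), Finset.sum_add_distrib]
    have e2 : ∑ q, C a q i σ x * ((r i).ρ * pderiv k (u (π a q) i σ) x) =
        (r i).ρ * ∑ q, C a q i σ x * pderiv k (u (π a q) i σ) x := by
      rw [Finset.mul_sum]
      exact Finset.sum_congr rfl fun b _ => by ring
    have e3 : ∑ q, (r i).ρ * pderiv k (C a q i σ) x * u (π a q) i σ x =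
        (r i).ρ * ∑ q, pderiv k (C a q i σ) x * u (π a q) i σ x := by
      rw [Finset.mul_sum]
      exact Finset.sum_congr rfl fun b _ => by ring
    rw [e2, e3]
    ring

theorem norm_iteratedFDeriv_pd_le {ρ : Dom n} {f : En n → ℝ} (hf : Sm ρ f) {x : En n}
    (hx : x ∈ ρ.U) (m : ℕ) (k : Fin n) :
    ‖iteratedFDeriv ℝ m (pderiv k f) x‖ ≤ ‖iteratedFDeriv ℝ (m + 1) f x‖ := by
  rw [← norm_iteratedFDeriv_fderiv]
  have hc : ContDiffAt ℝ m (fderiv ℝ f) x :=
    (hf.cda hx).fderiv_right (by exact_mod_cast le_top)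
  set L : (En n →L[ℝ] ℝ) →L[ℝ] ℝ := ContinuousLinearMap.apply ℝ ℝ (EuclideanSpace.single k 1)
  have e : pderiv k f = L ∘ fderiv ℝ f := rfl
  rw [e]
  refine (L.norm_iteratedFDeriv_comp_left hc le_rfl).trans ?_
  refine mul_le_of_le_one_left (norm_nonneg _) ?_
  refine ContinuousLinearMap.opNorm_le_bound _ zero_le_one fun φ => ?_
  simpa [L] using φ.le_opNorm (EuclideanSpace.single k 1)

/-- from `iteratedFDeriv` to the class -/
theorem Bd.of_jets (m : ℕ) : ∀ {f : ι → En n → ℝ}, (∀ i, Sm (r i) (f i)) →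
    (∀ j ≤ m, ∃ C, ∀ i, ∀ x ∈ (r i).U, (r i).ρ ^ j * ‖iteratedFDeriv ℝ j (f i) x‖ ≤ C) →
    Bd r m f := by
  have h0 : ∀ {f : ι → En n → ℝ}, (∀ i, Sm (r i) (f i)) →
      (∃ C, ∀ i, ∀ x ∈ (r i).U, (r i).ρ ^ 0 * ‖iteratedFDeriv ℝ 0 (f i) x‖ ≤ C) → Bd r 0 f :=
    fun hs ⟨C, hC⟩ => ⟨hs, C, fun i x hx => by simpa using hC i x hx⟩
  induction m with
  | zero => exact fun hs h => h0 hs (h 0 le_rfl)
  | succ m ih =>
    intro f hs h
    refine ⟨h0 hs (h 0 (Nat.zero_le _)), fun k => ih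
      (fun i => contDiffOn_const.mul ((hs i).pd k)) fun j hj => ?_⟩
    obtain ⟨C, hC⟩ := h (j + 1) (by omega)
    refine ⟨C, fun i x hx => le_trans ?_ (hC i x hx)⟩
    have hc : ContDiffAt ℝ j (pderiv k (f i)) x :=
      (((hs i).pd k).cda hx).of_le (by exact_mod_cast le_top)
    have : iteratedFDeriv ℝ j (D r k f i) x = (r i).ρ • iteratedFDeriv ℝ j (pderiv k (f i)) x :=
      iteratedFDeriv_const_smul_apply' (a := (r i).ρ) hc
    have hρ := (r i).pos
    rw [this, norm_smul, Real.norm_of_nonneg hρ.le, pow_succ, mul_assoc]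
    gcongr
    exact norm_iteratedFDeriv_pd_le (hs i) hx j k

end Crest.Agent.N207.F
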