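import Crest.Agent.N207.F.Tm1
import Crest.Agent.N207.A.Arr
import Crest.Agent.N207.A.Co3

/-!
# Row 207, block F (helper7): `C^k` bounds of a Ricci flow in a fixed chart persist in time
-/

set_option autoImplicit false

open Set Metric Filter Topology Function
open scoped ContDiff BigOperators
open Crest.GeometryTopology.CoordMetric Crest.GeometryTopology.ChartCurvature
open Crest.Agent.R202.Tens Crest.Agent.N207.AI

noncomputable section

namespace Crest.Agent.N207.F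

/-- a Ricci flow in a chart, with bounds for `∇ʲ Ric` on a time window and for the jets of the
metric at the time `t` -/
structure TDat (n : ℕ) (K : ℝ) (A B : ℕ → ℝ) where
  D : Dom n
  G : ℝ → MetricField n
  J : Set ℝ
  t : ℝ
  s : ℝ
  τ : ℝ
  δ : ℝ
  fl : CFlow G J D.U
  sub : uIcc t s ⊆ J
  hτ : 0 < τ
  le : |s - t| ≤ τ
  hδ : 0 < δ
  hK : δ ≤ K
  ric : ∀ j, ∀ σ ∈ uIcc t s, ∀ x ∈ D.U,
    nsq (G σ) (covN (G σ) (ricT (G σ)) j) x ≤ (A j * δ / (τ * D.ρ ^ j)) ^ 2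
  lo : ∀ x ∈ D.U, ∀ v : En n, ‖v‖ ^ 2 ≤ 2 * bil (G t x) v v
  up : ∀ x ∈ D.U, ∀ v : En n, bil (G t x) v v ≤ 2 * ‖v‖ ^ 2
  jet : ∀ j, ∀ x ∈ D.U, ∀ a b, D.ρ ^ j * ‖iteratedFDeriv ℝ j
    (fun y => G t y a b - (1 : Matrix (Fin n) (Fin n) ℝ) a b) x‖ ≤ B j * δ

namespace TDat

variable {n : ℕ} {K : ℝ} {A B : ℕ → ℝ}

theorem win : Win (fun d : TDat n K A B => d.t) (fun d => d.s) (fun d => d.τ) fun d => d.J :=
  ⟨fun d => d.fl.isOpenJ, fun d => d.sub, fun d => d.hτ, fun d => d.le⟩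

theorem riem (d : TDat n K A B) {σ : ℝ} (hσ : σ ∈ uIcc d.t d.s) : IsRiemannianOn (d.G σ) d.D.U :=
  d.fl.toCFam.riem (d.sub hσ)

/-- the metrics of the window are comparable -/
theorem bil_le (d : TDat n K A B) {a b : ℝ} (ha : a ∈ uIcc d.t d.s) (hb : b ∈ uIcc d.t d.s)
    {x : En n} (hx : x ∈ d.D.U) (v : En n) :
    bil (d.G b x) v v ≤ Real.exp (2 * (|A 0| * |K|)) * bil (d.G a x) v v := by
  have hsub : uIcc a b ⊆ uIcc d.t d.s := uIcc_subset_uIcc ha hb
  have hnn : ∀ σ ∈ uIcc d.t d.s, 0 ≤ bil (d.G σ x) v v := fun σ hσ =>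
    Ar.bil_nonneg ((d.riem hσ).posDef x hx) v
  have h := tgron (v := fun σ => bil (d.G σ x) v v)
    (v' := fun σ => -2 * evT (ricT (d.G σ) x) ![v, v]) (a := a) (b := b)
    (K := 2 * (|A 0| * |K|)) (F := 0) (δ := bil (d.G a x) v v) ?_ ?_
    (by rw [Real.norm_of_nonneg (hnn a ha)])
  · rw [Real.norm_of_nonneg (hnn b hb), gronwallBound_ε0] at h
    simpa [mul_comm] using h
  · intro σ hσ
    simp only [bil_apply, evT_two, Finset.mul_sum]
    refine HasDerivAt.fun_sum fun i _ => HasDerivAt.fun_sum fun j _ => ?_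
    refine (((d.fl.rf σ (d.sub (hsub hσ)) x hx i j).mul_const (v i)).mul_const (v j)).congr_deriv ?_
    show _ = -2 * (ricci (d.G σ) x i j * v i * v j)
    ring
  · intro σ hσ
    have hτ := d.hτ
    have hδ := d.hδ
    have h1 := Ar.abs_evT_le ((d.riem (hsub hσ)).posDef x hx) (ricT (d.G σ) x) ![v, v]
    have h2 : √(ipA (d.G σ x)⁻¹ (ricT (d.G σ) x) (ricT (d.G σ) x)) ≤ |A 0| * |K| / d.τ := by
      refine (Real.sqrt_le_sqrt (d.ric 0 σ (hsub hσ) x hx)).trans ?_
      rw [Real.sqrt_sq_eq_abs, pow_zero, mul_one, abs_div, abs_mul, abs_of_pos hτ, abs_of_pos hδ]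
      have := d.hK.trans (le_abs_self K)
      gcongr
    rw [Fin.prod_univ_two] at h1
    simp only [Matrix.cons_val_zero, Matrix.cons_val_one] at h1
    rw [Real.mul_self_sqrt (hnn σ (hsub hσ))] at h1
    have h3 : |b - a| ≤ d.τ := by
      refine le_trans ?_ d.le
      simpa [Real.dist_eq, abs_sub_comm] using Real.dist_le_of_mem_uIcc hb ha
    rw [Real.norm_of_nonneg (hnn σ (hsub hσ)), norm_mul, Real.norm_eq_abs, Real.norm_eq_abs,
      add_zero]
    have h4 := hnn σ (hsub hσ)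
    calc |b - a| * (|(-2 : ℝ)| * |evT (ricT (d.G σ) x) ![v, v]|)
        ≤ d.τ * (2 * (|A 0| * |K| / d.τ * bil (d.G σ x) v v)) := by
          rw [abs_neg, abs_two]
          gcongr
          exact h1.trans (by gcongr)
      _ = _ := by field_simp

variable (n K A B)

/-- the index type: data and a time of the window -/
abbrev P : Type := TI (fun d : TDat n K A B => d.t) fun d => d.s

/-- the domains -/
abbrev R : P n K A B → Dom n := fun p => p.1.1.D

/-- `(G - 1) / δ` -/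
def U (a b : Fin n) (d : TDat n K A B) (σ : ℝ) (x : En n) : ℝ :=
  (d.G σ x a b - (1 : Matrix (Fin n) (Fin n) ℝ) a b) / d.δ

/-- normalised components of `∇ʲ Ric` -/
def T (j : ℕ) (I : Fin (2 + j) → Fin n) (d : TDat n K A B) (σ : ℝ) (x : En n) : ℝ :=
  d.τ * d.D.ρ ^ j / d.δ * covN (d.G σ) (ricT (d.G σ)) j x I

variable {n K A B}

theorem smT (p : P n K A B) (j : ℕ) :
    SmT (covN (p.1.1.G p.1.2) (ricT (p.1.1.G p.1.2)) j) p.1.1.D.U :=
  (SmT.ricT (p.1.1.riem p.2)).covN (p.1.1.riem p.2) j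

theorem bd0_T (j : ℕ) (I : Fin (2 + j) → Fin n) :
    Bd (R n K A B) 0 fun p => T n K A B j I p.1.1 p.1.2 := by
  set c := 2 * Real.exp (2 * (|A 0| * |K|)) with hc
  have hc0 : 0 < c := by positivity
  refine ⟨fun p => contDiffOn_const.mul (smT p j I), √(c ^ (2 + j)) * |A j|, ?_⟩
  rintro ⟨⟨d, σ⟩, hσ⟩ x hx
  have hτ := d.hτ
  have hδ := d.hδ
  have hρ := d.D.pos
  have h1 := Ar.comp_sq_le ((d.riem hσ).posDef x hx) (c := c) (fun v => by
    refine (d.bil_le left_mem_uIcc hσ hx v).trans ?_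
    rw [hc, mul_comm 2 (Real.exp _), mul_assoc]
    exact mul_le_mul_of_nonneg_left (d.up x hx v) (Real.exp_pos _).le) (covN (d.G σ) (ricT (d.G σ)) j x) I
  have h2 := h1.trans (mul_le_mul_of_nonneg_left (d.ric j σ hσ x hx) (by positivity))
  have h3 := Real.abs_le_sqrt h2
  rw [Real.sqrt_mul (by positivity), Real.sqrt_sq_eq_abs, abs_div, abs_mul, abs_of_pos hδ,
    abs_of_pos (by positivity : 0 < d.τ * d.D.ρ ^ j)] at h3
  simp only [T]
  rw [abs_mul, abs_of_pos (by positivity : 0 < d.τ * d.D.ρ ^ j / d.δ)]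
  refine (mul_le_mul_of_nonneg_left h3 (by positivity)).trans (le_of_eq ?_)
  field_simp

theorem bd0_inv (a b : Fin n) : Bd (R n K A B) 0 fun p x => (p.1.1.G p.1.2 x)⁻¹ a b := by
  set c := 2 * Real.exp (2 * (|A 0| * |K|)) with hc
  have hc0 : 0 < c := by positivity
  refine ⟨fun p => sm_inv (p.1.1.riem p.2) a b, c, ?_⟩
  rintro ⟨⟨d, σ⟩, hσ⟩ x hx
  have hP := (d.riem hσ).posDef x hx
  let e : Fin n → Arr n 1 := fun a I => if I 0 = a then 1 else 0
  have he : ∀ a b, ipA (d.G σ x)⁻¹ (e a) (e b) = (d.G σ x)⁻¹ a b := fun a b => by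
    simp [Ar.ipA_rank1, e]
  have h1 : ∀ a, ipA (d.G σ x)⁻¹ (e a) (e a) ≤ c := fun a => by
    have := Ar.ipA_le_sum_sq hP hc0.le (fun v => by
      refine (d.lo x hx v).trans ?_
      rw [hc, mul_assoc]
      gcongr
      exact d.bil_le hσ left_mem_uIcc hx v) (e a)
    rw [AI.sum_cons] at this
    simpa [e] using this
  have h2 := Ar.abs_ipA_le hP (e a) (e b)
  rw [he] at h2
  refine h2.trans ?_
  calc _ ≤ √c * √c := by gcongr <;> exact h1 _
    _ = c := Real.mul_self_sqrt hc0.le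

theorem bd_del {m : ℕ} : Bd (R n K A B) m fun p _ => p.1.1.δ :=
  Bd.const ⟨K, fun p => by rw [abs_of_pos p.1.1.hδ]; exact p.1.1.hK⟩

theorem st_U (a b : Fin n) (d : TDat n K A B) : St (U n K A B a b d) d.J d.D.U :=
  ((d.fl.sm a b).sub contDiffOn_const).div_const _

theorem bd_init (m : ℕ) (a b : Fin n) :
    Bd (fun d : TDat n K A B => d.D) m fun d => U n K A B a b d d.t := by
  refine Bd.of_jets m (fun d => st_slice (st_U a b d) (d.sub left_mem_uIcc))
    fun j _ => ⟨B j, fun d x hx => ?_⟩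
  have hδ := d.hδ
  have hc : ContDiffAt ℝ j (fun y => d.G d.t y a b - (1 : Matrix (Fin n) (Fin n) ℝ) a b) x :=
    (((((d.riem left_mem_uIcc).contDiffOn a b).contDiffAt (d.D.op.mem_nhds hx)).sub
      contDiffAt_const)).of_le (by exact_mod_cast le_top)
  have e : U n K A B a b d d.t =
      fun y => d.δ⁻¹ • (d.G d.t y a b - (1 : Matrix (Fin n) (Fin n) ℝ) a b) := by
    funext y; rw [smul_eq_mul, U, div_eq_inv_mul]
  rw [e, iteratedFDeriv_const_smul_apply' hc, norm_smul, Real.norm_of_nonneg (by positivity),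
    mul_left_comm, inv_mul_le_iff₀ hδ, mul_comm d.δ]
  exact d.jet j x hx a b

theorem dt_U (a b : Fin n) (d : TDat n K A B) {σ : ℝ} (hσ : σ ∈ uIcc d.t d.s) {x : En n}
    (hx : x ∈ d.D.U) : HasDerivAt (fun σ => U n K A B a b d σ x)
      (-2 * ricci (d.G σ) x a b / d.δ) σ :=
  ((d.fl.rf σ (d.sub hσ) x hx a b).sub_const _).div_const _

theorem bd0_U (a b : Fin n) : Bd (R n K A B) 0 fun p => U n K A B a b p.1.1 p.1.2 := by
  refine Bd.tode win (κ := Unit) (Q := Empty) (fun _ _ => ()) (C := fun _ _ _ _ _ => 0) 0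
    (u := fun _ => U n K A B a b) (f := fun _ d σ x => -2 * T n K A B 0 ![a, b] d σ x)
    (fun _ => st_U a b) ?_ (fun _ q => q.elim) (fun _ => (Bd.const' _).mul (bd0_T 0 _))
    (fun _ => bd_init 0 a b) ()
  intro _ d σ hσ x hx
  refine (dt_U a b d hσ hx).congr_deriv ?_
  have hτ := d.hτ.ne'
  have : T n K A B 0 ![a, b] d σ x = d.τ * d.D.ρ ^ 0 / d.δ * ricci (d.G σ) x a b := rfl
  rw [this]
  simp only [Finset.univ_eq_empty, Finset.sum_empty]
  field_simp
  ring

/-- the Christoffel symbols in terms of the first derivatives of `U` -/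
theorem chr_eq (d : TDat n K A B) {σ : ℝ} (hσ : σ ∈ uIcc d.t d.s) {x : En n} (hx : x ∈ d.D.U)
    (l i j : Fin n) : d.D.ρ * christoffel (d.G σ) x l i j =
      ∑ p, d.δ / 2 * (d.G σ x)⁻¹ l p * (d.D.ρ * pderiv i (U n K A B j p d σ) x +
        d.D.ρ * pderiv j (U n K A B i p d σ) x - d.D.ρ * pderiv p (U n K A B i j d σ) x) := by
  have hδ := d.hδ.ne'
  have e : ∀ k a b, pderiv k (U n K A B a b d σ) x = pderiv k (fun y => d.G σ y a b) x / d.δ := by
    intro k a b
    have hd := differentiableAt_entry (d.riem hσ) hx a b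
    unfold U
    simp only [div_eq_mul_inv]
    rw [F.pd_mul (hd.sub_const _) (differentiableAt_const _), F.pd_const,
      F.pd_sub hd (differentiableAt_const _), F.pd_const]
    ring
  simp only [christoffel, e, inverseField, Finset.mul_sum]
  refine Finset.sum_congr rfl fun p _ => ?_
  field_simp

theorem step {m : ℕ} (hinv : ∀ a b, Bd (R n K A B) m fun p x => (p.1.1.G p.1.2 x)⁻¹ a b)
    (hT : ∀ j I, Bd (R n K A B) m fun p => T n K A B j I p.1.1 p.1.2) (k a b : Fin n) :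
    Bd (R n K A B) m fun p x => p.1.1.D.ρ * pderiv k (U n K A B a b p.1.1 p.1.2) x := by
  let π : Fin n × Fin n × Fin n → Fin n × Fin n × Fin 6 → Fin n × Fin n × Fin n := fun c q =>
    ![(c.1, c.2.1, q.2.1), (c.2.1, c.1, q.2.1), (q.2.1, c.1, c.2.1),
      (c.1, c.2.2, q.2.1), (c.2.2, c.1, q.2.1), (q.2.1, c.1, c.2.2)] q.2.2
  let sg : Fin 6 → ℝ := ![-1, -1, 1, -1, -1, 1]
  let ix : Fin n × Fin n × Fin n → Fin n × Fin n × Fin 6 → Fin (2 + 0) → Fin n := fun c q =>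
    ![![q.1, c.2.2], ![q.1, c.2.2], ![q.1, c.2.2], ![c.2.1, q.1], ![c.2.1, q.1], ![c.2.1, q.1]]
      q.2.2
  refine Bd.tode win π (C := fun c q d σ x => sg q.2.2 * d.δ * (d.G σ x)⁻¹ q.1 q.2.1 *
      T n K A B 0 (ix c q) d σ x) m
    (u := fun c d σ x => d.D.ρ * pderiv c.1 (U n K A B c.2.1 c.2.2 d σ) x)
    (f := fun c d σ x => -2 * T n K A B 1 ![c.1, c.2.1, c.2.2] d σ x)
    (fun c d => contDiffOn_const.mul (st_pderiv d.D.op (st_U _ _ d) _)) ?_
    (fun c q => (((Bd.const' _).mul bd_del).mul (hinv _ _)).mul (hT 0 _))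
    (fun c => (Bd.const' _).mul (hT 1 _)) (fun c => (bd_init (m + 1) _ _).2 c.1) (k, a, b)
  rintro ⟨k, i, j⟩ d σ hσ x hx
  have h1 := (dt_pd d.fl.isOpenJ d.D.op (st_U i j d) (d.sub hσ)
    (fun y hy => dt_U i j d hσ hy) hx k).const_mul d.D.ρ
  refine h1.congr_deriv ?_
  have hτ := d.hτ.ne'
  have hδ := d.hδ.ne'
  have hd : DifferentiableAt ℝ (fun y => ricci (d.G σ) y i j) x :=
    (SmT.ricT (d.riem hσ)).dAt d.D.op hx ![i, j]
  have e1 : pderiv k (fun y => -2 * ricci (d.G σ) y i j / d.δ) x =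
      -2 * pderiv k (fun y => ricci (d.G σ) y i j) x / d.δ := by
    simp only [div_eq_mul_inv]
    rw [F.pd_mul (hd.const_mul _) (differentiableAt_const _), F.pd_const,
      F.pd_mul (differentiableAt_const _) hd, F.pd_const]
    ring
  have e2 : T n K A B 1 ![k, i, j] d σ x = d.τ * d.D.ρ ^ 1 / d.δ *
      (pderiv k (fun y => ricci (d.G σ) y i j) x
        - ∑ l, christoffel (d.G σ) x l k i * ricci (d.G σ) x l j
        - ∑ l, christoffel (d.G σ) x l k j * ricci (d.G σ) x i l) :=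
    congrArg (d.τ * d.D.ρ ^ 1 / d.δ * ·) (cov_two (d.G σ) (ricT (d.G σ)) x k i j)
  have e3 : ∀ a b, T n K A B 0 ![a, b] d σ x = d.τ / d.δ * ricci (d.G σ) x a b := fun a b => by
    have : T n K A B 0 ![a, b] d σ x = d.τ * d.D.ρ ^ 0 / d.δ * ricci (d.G σ) x a b := rfl
    rw [this, pow_zero, mul_one]
  have e4 : ∑ q : Fin n × Fin n × Fin 6, sg q.2.2 * d.δ * (d.G σ x)⁻¹ q.1 q.2.1 *
      T n K A B 0 (ix (k, i, j) q) d σ x * (d.D.ρ * pderiv (π (k, i, j) q).1
        (U n K A B (π (k, i, j) q).2.1 (π (k, i, j) q).2.2 d σ) x) =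
      -2 * (d.τ / d.δ) * (∑ l, d.D.ρ * christoffel (d.G σ) x l k i * ricci (d.G σ) x l j +
        ∑ l, d.D.ρ * christoffel (d.G σ) x l k j * ricci (d.G σ) x i l) := by
    rw [Fintype.sum_prod_type, ← Finset.sum_add_distrib, Finset.mul_sum]
    refine Finset.sum_congr rfl fun l _ => ?_
    rw [Fintype.sum_prod_type, d.chr_eq hσ hx, d.chr_eq hσ hx, Finset.sum_mul, Finset.sum_mul,
      ← Finset.sum_add_distrib, Finset.mul_sum]
    refine Finset.sum_congr rfl fun p _ => ?_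
    simp only [Fin.sum_univ_six, π, sg, ix, Matrix.cons_val, e3]
    ring
  rw [e1, e4, e2]
  simp only [mul_assoc, ← Finset.mul_sum]
  field_simp
  ring

theorem bd_all (m : ℕ) : (∀ a b, Bd (R n K A B) m fun p => U n K A B a b p.1.1 p.1.2) ∧
    (∀ a b, Bd (R n K A B) m fun p x => (p.1.1.G p.1.2 x)⁻¹ a b) ∧
    ∀ j I, Bd (R n K A B) m fun p => T n K A B j I p.1.1 p.1.2 := by
  induction m with
  | zero => exact ⟨bd0_U, bd0_inv, bd0_T⟩
  | succ m ih =>
    obtain ⟨-, hinv, hT⟩ := ih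
    have hA := step hinv hT
    have hΓ : ∀ l i j, Bd (R n K A B) m fun p x =>
        p.1.1.D.ρ * christoffel (p.1.1.G p.1.2) x l i j := fun l i j =>
      (Bd.sum Finset.univ fun q _ => (((bd_del.mul (Bd.const' (1 / 2))).mul (hinv l q)).mul
        (((hA i j q).add (hA j i q)).sub (hA q i j)))).congr fun p x hx => by
          simp only [p.1.1.chr_eq p.2 hx, div_eq_mul_one_div p.1.1.δ 2]
    refine ⟨fun a b => ⟨bd0_U a b, fun k => hA k a b⟩, fun a b => ⟨bd0_inv a b, fun k => ?_⟩,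
      fun j I => ⟨bd0_T j I, fun k => ?_⟩⟩
    · refine ((Bd.sum Finset.univ fun q _ => (hΓ a k q).mul (hinv q b)).neg.sub
        (Bd.sum Finset.univ fun q _ => (hΓ b k q).mul (hinv a q))).congr fun p x hx => ?_
      simp only [F.D, pd_ginv (p.1.1.riem p.2) hx, mul_sub, mul_neg, Finset.mul_sum, mul_assoc]
    · refine ((hT (j + 1) (Fin.cons k I : Fin (2 + j + 1) → Fin n)).add
        (Bd.sum Finset.univ fun s _ => Bd.sum Finset.univ fun q _ =>
          (hΓ q k (I s)).mul (hT j (update I s q)))).congr ?_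
      rintro ⟨⟨d, σ⟩, hσ⟩ x hx
      have hd := (smT ⟨(d, σ), hσ⟩ j).dAt d.D.op hx I
      have e1 : pderiv k (T n K A B j I d σ) x = d.τ * d.D.ρ ^ j / d.δ *
          pderiv k (fun y => covN (d.G σ) (ricT (d.G σ)) j y I) x := by
        unfold T
        rw [F.pd_mul (differentiableAt_const _) hd, F.pd_const]
        ring
      have e2 : T n K A B (j + 1) (Fin.cons k I : Fin (2 + j + 1) → Fin n) d σ x =
          d.τ * d.D.ρ ^ (j + 1) / d.δ * (pderiv k (fun y => covN (d.G σ) (ricT (d.G σ)) j y I) x -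
            ∑ s, ∑ q, christoffel (d.G σ) x q k (I s) *
              covN (d.G σ) (ricT (d.G σ)) j x (update I s q)) := rfl
      simp only [F.D, e1, e2]
      simp only [T, mul_sub, Finset.mul_sum]
      rw [sub_add, ← Finset.sum_sub_distrib, Finset.sum_eq_zero, sub_zero]
      · ring
      · intro s _
        rw [← Finset.sum_sub_distrib]
        exact Finset.sum_eq_zero fun q _ => by ring

end TDat

/-- **persistence in time of the `C^m` bounds in a fixed chart.** -/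
theorem time_bound (n : ℕ) (K : ℝ) (A B : ℕ → ℝ) (m : ℕ) : ∃ C, 0 ≤ C ∧ ∀ d : TDat n K A B,
    ∀ j ≤ m, ∀ x ∈ d.D.U, ∀ a b, d.D.ρ ^ j * ‖iteratedFDeriv ℝ j
      (fun y => d.G d.s y a b - (1 : Matrix (Fin n) (Fin n) ℝ) a b) x‖ ≤ C * d.δ := by
  choose C hC0 hC using fun p : Fin n × Fin n =>
    ((TDat.bd_all (K := K) (A := A) (B := B) m).1 p.1 p.2).norm_iteratedFDeriv_le
  refine ⟨∑ p, C p, Finset.sum_nonneg fun p _ => hC0 p, fun d j hj x hx a b => ?_⟩
  have h2 := (hC (a, b) j hj ⟨(d, d.s), right_mem_uIcc⟩ x hx).trans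
    (Finset.single_le_sum (f := C) (fun p _ => hC0 p) (Finset.mem_univ _))
  have hδ := d.hδ
  have hc : ContDiffAt ℝ j (fun y => d.G d.s y a b - (1 : Matrix (Fin n) (Fin n) ℝ) a b) x :=
    (((((d.riem right_mem_uIcc).contDiffOn a b).contDiffAt (d.D.op.mem_nhds hx)).sub
      contDiffAt_const)).of_le (by exact_mod_cast le_top)
  have e : TDat.U n K A B a b d d.s =
      fun y => d.δ⁻¹ • (d.G d.s y a b - (1 : Matrix (Fin n) (Fin n) ℝ) a b) := by
    funext y; rw [smul_eq_mul, TDat.U, div_eq_inv_mul]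
  simp only at h2
  rwa [e, iteratedFDeriv_const_smul_apply' hc, norm_smul, Real.norm_of_nonneg (by positivity),
    mul_left_comm, inv_mul_le_iff₀ hδ, mul_comm d.δ] at h2

end Crest.Agent.N207.F
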